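import Mathlib

/-!
# Positive proportion of Rédei-regular `d`: interface

`d = m * ∏ l, p l` with `m % 60 = 23` squarefree and small, `p l` primes `≡ 1 mod 60`, in
separated dyadic ranges, `p 0` the largest.
-/

namespace Vale.Agent.P017.H262

open Finset Real

/-- weight of the solutions of the right kernel supported on `m` -/
noncomputable def G (m : ℕ) : ℝ :=
  ∑ a ∈ m.divisors.filter (fun a => ∀ q ∈ (m / a).primeFactors, jacobiSym a q = 1),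
    (1 / 2 : ℝ) ^ a.primeFactors.card

/-- weight of the solutions of the left kernel supported on `m` -/
noncomputable def G' (m : ℕ) : ℝ :=
  ∑ a ∈ m.divisors.filter (fun a => ∀ q ∈ (m / a).primeFactors, jacobiSym q a = 1),
    (1 / 2 : ℝ) ^ a.primeFactors.card

/-- **[B]** both weights are bounded on average -/
def GStmt : Prop := ∃ C : ℝ, 0 < C ∧ ∀ Y : ℕ, 2 ≤ Y →
  ∑ m ∈ (Icc 1 Y).filter (fun m => Odd m ∧ Squarefree m), (G m + G' m) / (m : ℝ) ≤ C * log Y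

/-- admissible tuples of large primes -/
structure Adm {k : ℕ} (m : ℕ) (p : Fin k → ℕ) : Prop where
  prime : ∀ l, (p l).Prime
  four : ∀ l, p l % 4 = 1
  ndvd : ∀ l, ¬ p l ∣ m
  inj : Function.Injective p

/-- a nontrivial vector of the right kernel, supported on `m` (divisor `a`) -/
def RBad {k : ℕ} (m : ℕ) (p : Fin k → ℕ) (a : ℕ) : Prop :=
  (∀ l, jacobiSym (p l) a = 1) ∧ (∀ q ∈ (m / a).primeFactors, jacobiSym a q = 1) ∧
    ∀ q ∈ a.primeFactors, jacobiSym ((∏ l, p l) * (m / a) : ℕ) q = 1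

/-- a nontrivial vector of the left kernel, supported on `m` (divisor `a`) -/
def LBad {k : ℕ} (m : ℕ) (p : Fin k → ℕ) (a : ℕ) : Prop :=
  (∀ l, jacobiSym (p l) a = 1) ∧ (∀ q ∈ (m / a).primeFactors, jacobiSym q a = 1) ∧
    ∀ q ∈ a.primeFactors,
      jacobiSym ((∏ l, p l) * (m / q) : ℕ) q * jacobiSym q (a / q) = 1

/-- no bad vector -/
def Good {k : ℕ} (m : ℕ) (p : Fin k → ℕ) : Prop :=
  ∀ a ∈ m.divisors, a ≠ 1 → ¬ RBad m p a ∧ ¬ LBad m p a

/-- the same symbols with respect to the prime factors of `m` -/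
def SamePat {k : ℕ} (m : ℕ) (p p' : Fin k → ℕ) : Prop :=
  ∀ l, ∀ q ∈ m.primeFactors, jacobiSym (p l) q = jacobiSym (p' l) q

/-- Rédei's condition (as in `Vale.Agent.P017.H185.Redei`) -/
def Redei (d : ℕ) : Prop := ∀ a : ℕ, a ∣ d →
  (∀ p : ℕ, p.Prime → p ∣ d →
    (¬ p ∣ a → IsSquare (a : ZMod p)) ∧ (p ∣ a → IsSquare ((d / a : ℕ) : ZMod p))) →
  a = 1 ∨ a = d

/-- **[A]** flipping the mutual symbols -/
def FlipStmt : Prop := ∀ (k m : ℕ) (p₀ : Fin k → ℕ), 0 < k → Squarefree m → m % 4 = 3 →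
  Adm m p₀ → Good m p₀ → ∃ b : Fin k → Fin k → ℤ, (∀ l l', b l l' = 1 ∨ b l l' = -1) ∧
    ∀ p : Fin k → ℕ, Adm m p → SamePat m p p₀ →
      (∀ l l', l < l' → jacobiSym (p l) (p l') = b l l') → Redei (m * ∏ l, p l)

/-- the primes `≡ 1 mod 60` in `[2^j, 2^(j+1))` -/
def PB (j : ℕ) : Finset ℕ := (Ico (2 ^ j) (2 ^ (j + 1))).filter (fun p => p.Prime ∧ p % 60 = 1)

/-- the squarefree `m ≡ 23 mod 60` in `[2^i, 2^(i+1))` -/
def MB (i : ℕ) : Finset ℕ :=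
  (Ico (2 ^ i) (2 ^ (i + 1))).filter (fun m => Squarefree m ∧ m % 60 = 23)

/-- character sums over the primes -/
noncomputable def SP (j e : ℕ) : ℝ := ∑ p ∈ PB j, (jacobiSym p e : ℝ)

/-- **[C1]** cancellation in the character sums over primes, on average -/
def CharSumStmt : Prop := ∀ B : ℕ, ∃ j₀ : ℕ, ∀ j : ℕ, j₀ ≤ j → ∀ Y : ℕ, Y ^ 10 ≤ 2 ^ j →
  ∑ e ∈ (Icc 2 Y).filter (fun e => Squarefree e ∧ Nat.Coprime e 30), |SP j e| / (e : ℝ) ≤
    2 ^ j / (j : ℝ) ^ B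

open Classical in
/-- **[C2]** the number of tuples with a bad vector -/
def FirstMomentStmt : Prop := ∀ (k m : ℕ) (j : Fin k → ℕ), 0 < k → Squarefree m →
  Nat.Coprime m 30 → (∀ l, m < 2 ^ j l) →
  (((Fintype.piFinset fun l => PB (j l)).filter (fun p => ¬ Good m p)).card : ℝ) ≤
    (∏ l, ((PB (j l)).card : ℝ)) * ((1 / 2 : ℝ) ^ (k - 1) * (G m + G' m - 2)) +
      4 * ∑ l, (∏ l' ∈ univ.erase l, ((PB (j l')).card : ℝ)) *
        ∑ a ∈ m.divisors, ∑ e ∈ a.divisors.erase 1, |SP (j l) e|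

open Classical in
/-- **[D]** equidistribution of the mutual symbols -/
def BitsStmt : Prop := ∀ k : ℕ, ∃ C : ℝ, ∀ (m : ℕ) (j : Fin k → ℕ), 0 < k → 0 < m →
  (∀ l l', l < l' → 4 * j l' ≤ j l) → (∀ l, m ^ 10 ≤ 2 ^ j l) →
  ∀ (Φ : (Fin k → ℕ) → Prop) (b : (Fin k → ℕ) → Fin k → Fin k → ℤ),
    (∀ p p', SamePat m p p' → (Φ p ↔ Φ p') ∧ b p = b p') →
    (∀ p l l', b p l l' = 1 ∨ b p l l' = -1) →
    (1 / 2 : ℝ) ^ (k * (k - 1) / 2) *
        (((Fintype.piFinset fun l => PB (j l)).filter Φ).card : ℝ) -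
      C * ∏ l, (2 : ℝ) ^ j l * ∑ l, (2 : ℝ) ^ (-(j l : ℝ) / 10) ≤
    (((Fintype.piFinset fun l => PB (j l)).filter (fun p => Φ p ∧ ∀ l l', l < l' →
      jacobiSym (p l) (p l') = b p l l')).card : ℝ)

end Vale.Agent.P017.H262
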