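import Vale.Agent.P017.H262.Tail

/-! Mean square of short pieces of `L(s, χ_a)` over dyadic blocks of `a`. -/

set_option linter.all false

namespace Vale.Agent.P017.H262

open Finset Real Filter Topology

open scoped NumberTheorySymbols

theorem sum_pow35_le (N : ℕ) : ∑ n ∈ Icc 1 N, (n : ℝ) ^ (-(2 / 5) : ℝ) ≤ 2 * (N : ℝ) ^ (3 / 5 : ℝ) := by
  induction N with
  | zero => simp
  | succ N ih =>
    rw [Finset.sum_Icc_succ_top (by omega)]
    set x : ℝ := ((N + 1 : ℕ) : ℝ) with hx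
    have hx1 : (1 : ℝ) ≤ x := by rw [hx]; push_cast; have : (0 : ℝ) ≤ N := Nat.cast_nonneg N; linarith
    have hx0 : 0 < x := by linarith
    have hN : (N : ℝ) = x * (1 - 1 / x) := by rw [hx]; push_cast; field_simp; ring
    have h1x : 0 ≤ 1 - 1 / x := by
      rw [sub_nonneg, div_le_one hx0]; exact hx1
    have e1 : (N : ℝ) ^ (3 / 5 : ℝ) = x ^ (3 / 5 : ℝ) * (1 - 1 / x) ^ (3 / 5 : ℝ) := by
      rw [hN, Real.mul_rpow hx0.le h1x]
    have h2 : (1 - 1 / x) ^ (3 / 5 : ℝ) ≤ 1 + (3 / 5 : ℝ) * (-(1 / x)) := by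
      have := rpow_one_add_le_one_add_mul_self (s := -(1 / x)) (p := 3 / 5) (by linarith)
        (by norm_num) (by norm_num)
      rwa [← sub_eq_add_neg] at this
    have e2 : x ^ (-(2 / 5) : ℝ) = x ^ (3 / 5 : ℝ) * (1 / x) := by
      rw [one_div, ← Real.rpow_neg_one, ← Real.rpow_add hx0]; norm_num
    have h3 : 0 < x ^ (3 / 5 : ℝ) := by positivity
    have h4 : x ^ (3 / 5 : ℝ) * (1 - 1 / x) ^ (3 / 5 : ℝ) ≤
        x ^ (3 / 5 : ℝ) * (1 + (3 / 5 : ℝ) * (-(1 / x))) := mul_le_mul_of_nonneg_left h2 h3.le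
    rw [e1] at ih
    rw [e2]
    have h5 : 0 < x ^ (3 / 5 : ℝ) * (1 / x) := by positivity
    nlinarith

/-- the diagonal -/
theorem diag_bd : ∃ C : ℝ, 0 < C ∧ ∀ N0 N1 : ℕ, 1 ≤ N0 →
    ∑ x ∈ (Ioc N0 N1 ×ˢ Ioc N0 N1).filter (fun x => IsSquare (x.1 * x.2)),
      1 / ((x.1 : ℝ) * x.2) ≤ C * (N0 : ℝ) ^ (-(1 / 2) : ℝ) := by
  obtain ⟨C, hC, hdiv⟩ := Vale.Agent.P007.S11.divisor_bound (1 / 4) (by norm_num)
  refine ⟨2 * C, by linarith, fun N0 N1 hN0 => ?_⟩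
  set S := (Ioc N0 N1 ×ˢ Ioc N0 N1).filter (fun x => IsSquare (x.1 * x.2)) with hS
  have hmaps : ∀ x ∈ S, Nat.sqrt (x.1 * x.2) ∈ Ioc N0 N1 := by
    intro x hx
    rw [hS, Finset.mem_filter, Finset.mem_product, Finset.mem_Ioc, Finset.mem_Ioc] at hx
    obtain ⟨⟨⟨h1, h2⟩, h3, h4⟩, t, ht⟩ := hx
    rw [ht, Nat.sqrt_eq, Finset.mem_Ioc]
    constructor
    · by_contra hcon
      have : t ≤ N0 := not_lt.1 hcon
      have h5 : t * t ≤ N0 * N0 := Nat.mul_le_mul this this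
      have h6 : N0 * N0 < x.1 * x.2 := Nat.mul_lt_mul'' h1 h3
      omega
    · by_contra hcon
      have : N1 < t := not_le.1 hcon
      have h5 : N1 * N1 < t * t := Nat.mul_lt_mul'' this this
      have h6 : x.1 * x.2 ≤ N1 * N1 := Nat.mul_le_mul h2 h4
      omega
  rw [← Finset.sum_fiberwise_of_maps_to hmaps]
  have hfib : ∀ m ∈ Ioc N0 N1, ∑ x ∈ S.filter (fun x => Nat.sqrt (x.1 * x.2) = m),
      1 / ((x.1 : ℝ) * x.2) ≤ C * (m : ℝ) ^ (-(3 / 2) : ℝ) := by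
    intro m hm
    rw [Finset.mem_Ioc] at hm
    have hm0 : (0 : ℝ) < m := by exact_mod_cast (by omega : 0 < m)
    have hval : ∀ x ∈ S.filter (fun x => Nat.sqrt (x.1 * x.2) = m), x.1 * x.2 = m ^ 2 := by
      intro x hx
      rw [Finset.mem_filter, hS, Finset.mem_filter] at hx
      obtain ⟨⟨_, t, ht⟩, h2⟩ := hx
      rw [ht, Nat.sqrt_eq] at h2
      rw [ht, h2, sq]
    have hcard : ((S.filter (fun x => Nat.sqrt (x.1 * x.2) = m)).card : ℝ) ≤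
        ((m ^ 2).divisors.card : ℝ) := by
      have : (S.filter (fun x => Nat.sqrt (x.1 * x.2) = m)).card ≤ (m ^ 2).divisors.card := by
        refine Finset.card_le_card_of_injOn (fun x => x.1) ?_ ?_
        · intro x hx
          have := hval x hx
          simp only [Finset.coe_filter, Nat.mem_divisors, Finset.mem_coe]
          refine ⟨Dvd.intro _ this, ?_⟩
          have : m ≠ 0 := by omega
          positivity
        · intro x hx y hy hxy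
          have h1 := hval x hx
          have h2 := hval y hy
          have hxy' : x.1 = y.1 := hxy
          have hx1 : 0 < x.1 := by
            rcases Nat.eq_zero_or_pos x.1 with h | h
            · rw [h, zero_mul] at h1
              have : 0 < m ^ 2 := by have : 0 < m := by omega
                                     positivity
              omega
            · exact h
          refine Prod.ext hxy' ?_
          rw [← hxy', ← h1] at h2
          exact (Nat.eq_of_mul_eq_mul_left hx1 h2).symm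
      exact_mod_cast this
    have h1 := hdiv (m ^ 2) (by have : 0 < m := by omega
                                positivity)
    have e1 : (((m ^ 2 : ℕ) : ℝ)) ^ (1 / 4 : ℝ) = (m : ℝ) ^ (1 / 2 : ℝ) := by
      push_cast
      rw [← Real.rpow_natCast, ← Real.rpow_mul hm0.le]; norm_num
    rw [e1] at h1
    calc ∑ x ∈ S.filter (fun x => Nat.sqrt (x.1 * x.2) = m), 1 / ((x.1 : ℝ) * x.2)
        = ∑ x ∈ S.filter (fun x => Nat.sqrt (x.1 * x.2) = m), 1 / ((m : ℝ) ^ 2) := by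
          refine Finset.sum_congr rfl fun x hx => ?_
          have := hval x hx
          have h2 : (x.1 : ℝ) * x.2 = (m : ℝ) ^ 2 := by exact_mod_cast this
          rw [h2]
      _ = ((S.filter (fun x => Nat.sqrt (x.1 * x.2) = m)).card : ℝ) * (1 / (m : ℝ) ^ 2) := by
          rw [Finset.sum_const, nsmul_eq_mul]
      _ ≤ (C * (m : ℝ) ^ (1 / 2 : ℝ)) * (1 / (m : ℝ) ^ 2) :=
          mul_le_mul_of_nonneg_right (hcard.trans h1) (by positivity)
      _ = C * (m : ℝ) ^ (-(3 / 2) : ℝ) := by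
          have e2 : (1 / (m : ℝ) ^ 2) = (m : ℝ) ^ (-2 : ℝ) := by
            rw [Real.rpow_neg hm0.le, one_div]
            congr 1
            exact (Real.rpow_natCast _ 2).symm
          rw [e2, mul_assoc, ← Real.rpow_add hm0]
          norm_num
  refine (Finset.sum_le_sum hfib).trans ?_
  rw [← Finset.mul_sum]
  have hsum : ∀ N1, ∑ m ∈ Ioc N0 N1, (m : ℝ) ^ (-(3 / 2) : ℝ) ≤
      2 * ((N0 : ℝ) ^ (-(1 / 2) : ℝ)) - (if N0 ≤ N1 then 2 * ((N1 : ℝ) ^ (-(1 / 2) : ℝ)) else 0) := by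
    intro N1
    by_cases h : N0 ≤ N1
    · rw [if_pos h]
      induction N1, h using Nat.le_induction with
      | base => simp
      | succ K hK ih =>
        rw [Finset.sum_Ioc_succ_top (by omega)]
        have h := tele_le (s := 3 / 2) (by norm_num) (n := K) (by omega)
        norm_num at h ih ⊢
        linarith
    · rw [if_neg h, Finset.Ioc_eq_empty (by omega), Finset.sum_empty, sub_zero]
      positivity
  have h3 := hsum N1
  have h4 : 0 ≤ (if N0 ≤ N1 then 2 * ((N1 : ℝ) ^ (-(1 / 2) : ℝ)) else 0) := by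
    split_ifs <;> positivity
  nlinarith

/-- odd numbers of a dyadic block -/
def OB (j : ℕ) : Finset ℕ := (Ico (2 ^ j) (2 ^ (j + 1))).filter (fun a => Odd a)

theorem OB_card (j : ℕ) : ((OB j).card : ℝ) ≤ 2 ^ j := by
  have : (OB j).card ≤ 2 ^ j := by
    refine (Finset.card_filter_le _ _).trans ?_
    rw [Nat.card_Ico, pow_succ]; omega
  exact_mod_cast this

theorem jr_OB (D : ℤ) (j : ℕ) : ∑ a ∈ OB j, jr D a = ∑ a ∈ Ico (2 ^ j) (2 ^ (j + 1)), jr D a := by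
  unfold OB
  rw [Finset.sum_filter]
  refine Finset.sum_congr rfl fun a _ => ?_
  split_ifs with h
  · rfl
  · rw [jr, jf_even D h]; simp

theorem sum_OB_le {C : ℝ} (hpv : ∀ D : ℤ, Odd D → ¬ IsSquare D → ∀ N : ℕ,
    |∑ n ∈ Icc 1 N, (jf D n : ℝ)| ≤ C * (D.natAbs : ℝ) ^ (3 / 5 : ℝ)) {D : ℤ} (hodd : Odd D)
    (hD : ¬ IsSquare D) (j : ℕ) :
    |∑ a ∈ OB j, jr D a| ≤ 2 * (C * (D.natAbs : ℝ) ^ (3 / 5 : ℝ)) := by
  rw [jr_OB]
  have e : ∑ a ∈ Ico (2 ^ j) (2 ^ (j + 1)), jr D a =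
      ∑ a ∈ Icc 1 (2 ^ (j + 1) - 1), jr D a - ∑ a ∈ Icc 1 (2 ^ j - 1), jr D a := by
    have h1 : 1 ≤ 2 ^ j := Nat.one_le_two_pow
    have h2 : 2 ^ j ≤ 2 ^ (j + 1) := Nat.pow_le_pow_right (by norm_num) (by omega)
    have e1 : Icc 1 (2 ^ (j + 1) - 1) = Icc 1 (2 ^ j - 1) ∪ Ico (2 ^ j) (2 ^ (j + 1)) := by
      ext a
      simp only [Finset.mem_Icc, Finset.mem_union, Finset.mem_Ico]
      omega
    rw [e1, Finset.sum_union]
    · ring
    · rw [Finset.disjoint_left]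
      intro a
      simp only [Finset.mem_Icc, Finset.mem_Ico]
      omega
  rw [e]
  have h1 := hpv D hodd hD (2 ^ (j + 1) - 1)
  have h2 := hpv D hodd hD (2 ^ j - 1)
  have h3 := abs_sub (∑ a ∈ Icc 1 (2 ^ (j + 1) - 1), jr D a) (∑ a ∈ Icc 1 (2 ^ j - 1), jr D a)
  simp only [jr] at h3 ⊢
  linarith

/-- the short pieces -/
noncomputable def Mid (ε : ℤ) (s : ℝ) (N0 N1 a : ℕ) : ℝ :=
  ∑ n ∈ Ioc N0 N1, jr (ε * a) n * (n : ℝ) ^ (-s)

theorem abs_J_le (a : ℤ) (n : ℕ) : |(J(a | n) : ℝ)| ≤ 1 := by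
  rcases jacobiSym.trichotomy a n with h | h | h <;> rw [h] <;> norm_num

theorem pair_bd {C : ℝ} (hC : 1 ≤ C) (hpv : ∀ D : ℤ, Odd D → ¬ IsSquare D → ∀ N : ℕ,
    |∑ n ∈ Icc 1 N, (jf D n : ℝ)| ≤ C * (D.natAbs : ℝ) ^ (3 / 5 : ℝ)) (ε : ℤ) (j n n' : ℕ) :
    ∑ a ∈ OB j, jr (ε * a) n * jr (ε * a) n' ≤
      (if IsSquare (n * n') then (2 : ℝ) ^ j else 0) + 2 * C * ((n * n' : ℕ) : ℝ) ^ (3 / 5 : ℝ) := by
  have hnn : (0 : ℝ) ≤ 2 * C * ((n * n' : ℕ) : ℝ) ^ (3 / 5 : ℝ) := by positivity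
  split_ifs with hsq
  · have : ∑ a ∈ OB j, jr (ε * a) n * jr (ε * a) n' ≤ ∑ a ∈ OB j, (1 : ℝ) := by
      refine Finset.sum_le_sum fun a _ => ?_
      rw [← (CM_jr _).mul]
      exact (le_abs_self _).trans ((CM_jr _).le _)
    rw [Finset.sum_const, nsmul_eq_mul, mul_one] at this
    linarith [OB_card j]
  · by_cases ho : Odd (n * n')
    · have e : ∑ a ∈ OB j, jr (ε * a) n * jr (ε * a) n' =
          (J(ε | n * n') : ℝ) * ∑ a ∈ OB j, jr (star (n * n')) a := by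
        rw [Finset.mul_sum]
        refine Finset.sum_congr rfl fun a ha => ?_
        rw [← (CM_jr _).mul]
        unfold OB at ha
        rw [Finset.mem_filter] at ha
        rw [jr, key ha.2 ho, jr]
        push_cast
        ring
      rw [e, zero_add]
      refine (le_abs_self _).trans ?_
      rw [abs_mul]
      have h1 := sum_OB_le hpv (star_odd ho) (star_not_isSquare ho hsq) j
      rw [star_natAbs ho] at h1
      calc |(J(ε | n * n') : ℝ)| * |∑ a ∈ OB j, jr (star (n * n')) a|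
          ≤ 1 * |∑ a ∈ OB j, jr (star (n * n')) a| :=
            mul_le_mul_of_nonneg_right (abs_J_le _ _) (abs_nonneg _)
        _ ≤ _ := by rw [one_mul]; linarith
    · have : ∑ a ∈ OB j, jr (ε * a) n * jr (ε * a) n' = 0 := by
        refine Finset.sum_eq_zero fun a _ => ?_
        rw [← (CM_jr _).mul, jr, jf_even _ ho]
        simp
      rw [this, zero_add]
      exact hnn

theorem mid_sq {C : ℝ} (hC : 1 ≤ C) (hpv : ∀ D : ℤ, Odd D → ¬ IsSquare D → ∀ N : ℕ,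
    |∑ n ∈ Icc 1 N, (jf D n : ℝ)| ≤ C * (D.natAbs : ℝ) ^ (3 / 5 : ℝ)) {C1 : ℝ}
    (hdiag : ∀ N0 N1 : ℕ, 1 ≤ N0 →
      ∑ x ∈ (Ioc N0 N1 ×ˢ Ioc N0 N1).filter (fun x => IsSquare (x.1 * x.2)),
      1 / ((x.1 : ℝ) * x.2) ≤ C1 * (N0 : ℝ) ^ (-(1 / 2) : ℝ)) (ε : ℤ) {s : ℝ} (hs : 1 < s)
    (j N0 N1 : ℕ) (hN0 : 1 ≤ N0) :
    ∑ a ∈ OB j, Mid ε s N0 N1 a ^ 2 ≤
      2 ^ j * (C1 * (N0 : ℝ) ^ (-(1 / 2) : ℝ)) + 8 * C * (N1 : ℝ) ^ (6 / 5 : ℝ) := by
  have e1 : ∑ a ∈ OB j, Mid ε s N0 N1 a ^ 2 = ∑ x ∈ Ioc N0 N1 ×ˢ Ioc N0 N1,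
      ((x.1 : ℝ) ^ (-s) * (x.2 : ℝ) ^ (-s)) * ∑ a ∈ OB j, jr (ε * a) x.1 * jr (ε * a) x.2 := by
    have : ∀ a ∈ OB j, Mid ε s N0 N1 a ^ 2 = ∑ x ∈ Ioc N0 N1 ×ˢ Ioc N0 N1,
        ((x.1 : ℝ) ^ (-s) * (x.2 : ℝ) ^ (-s)) * (jr (ε * a) x.1 * jr (ε * a) x.2) := by
      intro a _
      rw [Mid, sq, Finset.sum_mul_sum, Finset.sum_product]
      refine Finset.sum_congr rfl fun n _ => Finset.sum_congr rfl fun n' _ => ?_
      ring
    rw [Finset.sum_congr rfl this, Finset.sum_comm]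
    refine Finset.sum_congr rfl fun x _ => ?_
    rw [Finset.mul_sum]
  rw [e1]
  have h1 : ∀ x ∈ Ioc N0 N1 ×ˢ Ioc N0 N1,
      ((x.1 : ℝ) ^ (-s) * (x.2 : ℝ) ^ (-s)) * ∑ a ∈ OB j, jr (ε * a) x.1 * jr (ε * a) x.2 ≤
      2 ^ j * (if IsSquare (x.1 * x.2) then 1 / ((x.1 : ℝ) * x.2) else 0) +
        2 * C * ((x.1 : ℝ) ^ (-(2 / 5) : ℝ) * (x.2 : ℝ) ^ (-(2 / 5) : ℝ)) := by
    intro x hx
    rw [Finset.mem_product, Finset.mem_Ioc, Finset.mem_Ioc] at hx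
    have hx1 : 1 ≤ x.1 := by omega
    have hx2 : 1 ≤ x.2 := by omega
    have hr1 : (0 : ℝ) < x.1 := by exact_mod_cast hx1
    have hr2 : (0 : ℝ) < x.2 := by exact_mod_cast hx2
    have h2 := pair_bd hC hpv ε j x.1 x.2
    have h3 : (x.1 : ℝ) ^ (-s) * (x.2 : ℝ) ^ (-s) ≤ 1 / ((x.1 : ℝ) * x.2) := by
      have := mul_le_mul (pow_le_inv hs hx1) (pow_le_inv hs hx2) (by positivity) (by positivity)
      refine this.trans (le_of_eq ?_)
      rw [div_mul_div_comm, one_mul]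
    have h4 : 0 ≤ (if IsSquare (x.1 * x.2) then (2 : ℝ) ^ j else 0) +
        2 * C * ((x.1 * x.2 : ℕ) : ℝ) ^ (3 / 5 : ℝ) := by
      have : (0 : ℝ) ≤ (if IsSquare (x.1 * x.2) then (2 : ℝ) ^ j else 0) := by
        split_ifs <;> positivity
      have : (0 : ℝ) ≤ 2 * C * ((x.1 * x.2 : ℕ) : ℝ) ^ (3 / 5 : ℝ) := by positivity
      linarith
    calc ((x.1 : ℝ) ^ (-s) * (x.2 : ℝ) ^ (-s)) * ∑ a ∈ OB j, jr (ε * a) x.1 * jr (ε * a) x.2
        ≤ ((x.1 : ℝ) ^ (-s) * (x.2 : ℝ) ^ (-s)) * ((if IsSquare (x.1 * x.2) then (2 : ℝ) ^ j else 0) +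
          2 * C * ((x.1 * x.2 : ℕ) : ℝ) ^ (3 / 5 : ℝ)) :=
          mul_le_mul_of_nonneg_left h2 (by positivity)
      _ ≤ (1 / ((x.1 : ℝ) * x.2)) * ((if IsSquare (x.1 * x.2) then (2 : ℝ) ^ j else 0) +
          2 * C * ((x.1 * x.2 : ℕ) : ℝ) ^ (3 / 5 : ℝ)) := mul_le_mul_of_nonneg_right h3 h4
      _ = _ := by
          rw [mul_add]
          congr 1
          · split_ifs
            · ring
            · ring
          · push_cast
            rw [Real.mul_rpow hr1.le hr2.le]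
            have e2 : ∀ y : ℝ, 0 < y → y ^ (-(2 / 5) : ℝ) = y ^ (3 / 5 : ℝ) * (1 / y) := by
              intro y hy
              rw [one_div, ← Real.rpow_neg_one, ← Real.rpow_add hy]; norm_num
            rw [e2 _ hr1, e2 _ hr2]
            field_simp
  refine (Finset.sum_le_sum h1).trans ?_
  rw [Finset.sum_add_distrib]
  refine add_le_add ?_ ?_
  · rw [← Finset.mul_sum, ← Finset.sum_filter]
    exact mul_le_mul_of_nonneg_left (hdiag N0 N1 hN0) (by positivity)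
  · rw [← Finset.mul_sum, Finset.sum_product]
    have e3 : ∑ x ∈ Ioc N0 N1, ∑ y ∈ Ioc N0 N1, (x : ℝ) ^ (-(2 / 5) : ℝ) * (y : ℝ) ^ (-(2 / 5) : ℝ)
        = (∑ x ∈ Ioc N0 N1, (x : ℝ) ^ (-(2 / 5) : ℝ)) ^ 2 := by
      rw [sq, Finset.sum_mul_sum]
    rw [e3]
    have h5 : ∑ x ∈ Ioc N0 N1, (x : ℝ) ^ (-(2 / 5) : ℝ) ≤ 2 * (N1 : ℝ) ^ (3 / 5 : ℝ) := by
      refine le_trans (Finset.sum_le_sum_of_subset_of_nonneg ?_ fun _ _ _ => by positivity)
        (sum_pow35_le N1)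
      intro x
      simp only [Finset.mem_Ioc, Finset.mem_Icc]
      omega
    have h6 : 0 ≤ ∑ x ∈ Ioc N0 N1, (x : ℝ) ^ (-(2 / 5) : ℝ) :=
      Finset.sum_nonneg fun _ _ => by positivity
    have h7 : (∑ x ∈ Ioc N0 N1, (x : ℝ) ^ (-(2 / 5) : ℝ)) ^ 2 ≤ (2 * (N1 : ℝ) ^ (3 / 5 : ℝ)) ^ 2 :=
      pow_le_pow_left₀ h6 h5 2
    have e4 : (2 * (N1 : ℝ) ^ (3 / 5 : ℝ)) ^ 2 = 4 * (N1 : ℝ) ^ (6 / 5 : ℝ) := by
      have : ((N1 : ℝ) ^ (3 / 5 : ℝ)) ^ 2 = (N1 : ℝ) ^ (6 / 5 : ℝ) := by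
        rw [← Real.rpow_natCast, ← Real.rpow_mul (Nat.cast_nonneg _)]
        norm_num
      rw [mul_pow, this]
      norm_num
    rw [e4] at h7
    nlinarith

end Vale.Agent.P017.H262
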