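import Vale.Agent.P017.H262.Defs
import Vale.Agent.P017.H262.Blk
import Vale.Agent.PNT.Main

/-! Counting `m` and primes in dyadic blocks. -/

set_option linter.all false

namespace Vale.Agent.P017.H262

open Finset Real Filter Topology

/-- bounds for the primes in a block -/
theorem PB_bounds : ∃ j₀ : ℕ, 1 ≤ j₀ ∧ ∀ j : ℕ, j₀ ≤ j →
    (1 / 32 : ℝ) * (2 ^ j / j) ≤ ((PB j).card : ℝ) ∧ ((PB j).card : ℝ) ≤ 2 ^ j / j := by
  have hu : IsUnit (1 : ZMod 60) := isUnit_one
  have h := Vale.Agent.PNT.piAP_mul_log_div_tendsto (q := 60) hu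
  have hφ : ((Nat.totient 60 : ℕ) : ℝ)⁻¹ = 1 / 16 := by
    have : Nat.totient 60 = 16 := by decide
    rw [this]; norm_num
  rw [hφ] at h
  -- along powers of two
  have hpow : Tendsto (fun j : ℕ => ((2 : ℝ) ^ j)) atTop atTop :=
    tendsto_pow_atTop_atTop_of_one_lt (by norm_num)
  have h1 := h.comp hpow
  have h2 := h1.eventually (Ioo_mem_nhds (show (1 / 16 - 1 / 1000 : ℝ) < 1 / 16 by norm_num)
    (show (1 / 16 : ℝ) < 1 / 16 + 1 / 1000 by norm_num))
  obtain ⟨j₁, hj₁⟩ := eventually_atTop.1 h2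
  refine ⟨max j₁ 1000, by omega, fun j hj => ?_⟩
  have hj1 : j₁ ≤ j := (le_max_left _ _).trans hj
  have hj2 : 1000 ≤ j := (le_max_right _ _).trans hj
  have hj2' : (1000 : ℝ) ≤ j := by exact_mod_cast hj2
  have hj0 : (0 : ℝ) < j := by linarith
  obtain ⟨a1, a2⟩ := hj₁ j hj1
  obtain ⟨b1, b2⟩ := hj₁ (j + 1) (by omega)
  simp only [Function.comp] at a1 a2 b1 b2
  rw [Real.log_pow] at a1 a2 b1 b2
  have hP : ∀ i : ℕ, (Vale.Agent.PNT.piAP (1 : ZMod 60) ((2 : ℝ) ^ i) : ℝ) =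
      (((Icc 1 (2 ^ i)).filter (fun p : ℕ => p.Prime ∧ p % 60 = 1)).card : ℝ) := by
    intro i
    unfold Vale.Agent.PNT.piAP
    have e : ⌊(2 : ℝ) ^ i⌋₊ = 2 ^ i := by
      have : ((2 : ℝ) ^ i) = ((2 ^ i : ℕ) : ℝ) := by push_cast; rfl
      rw [this, Nat.floor_natCast]
    rw [e]
    have e2 : ∀ p : ℕ, (p : ZMod 60) = 1 ↔ p % 60 = 1 := by
      intro p
      have : (1 : ZMod 60) = ((1 : ℕ) : ZMod 60) := by simp
      rw [this, ZMod.natCast_eq_natCast_iff]
      exact Iff.rfl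
    simp_rw [e2]
  set a : ℝ := (Vale.Agent.PNT.piAP (1 : ZMod 60) ((2 : ℝ) ^ j) : ℝ) with ha
  set b : ℝ := (Vale.Agent.PNT.piAP (1 : ZMod 60) ((2 : ℝ) ^ (j + 1)) : ℝ) with hb
  -- the block
  have hblock : ((PB j).card : ℝ) ≤ b - a + 1 ∧ b - a ≤ ((PB j).card : ℝ) + 1 := by
    have hA := hP j
    have hB := hP (j + 1)
    set A := (Icc 1 (2 ^ j)).filter (fun p : ℕ => p.Prime ∧ p % 60 = 1) with hAd
    set B := (Icc 1 (2 ^ (j + 1))).filter (fun p : ℕ => p.Prime ∧ p % 60 = 1) with hBd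
    have hAB : A ⊆ B := by
      intro p hp
      rw [hAd, Finset.mem_filter, Finset.mem_Icc] at hp
      rw [hBd, Finset.mem_filter, Finset.mem_Icc]
      exact ⟨⟨hp.1.1, hp.1.2.trans (Nat.pow_le_pow_right (by norm_num) (by omega))⟩, hp.2⟩
    have h3 : B.card = (B \ A).card + A.card := (Finset.card_sdiff_add_card_eq_card hAB).symm
    have hne : ∀ i : ℕ, 2 ≤ i → ¬ (2 ^ i).Prime := by
      intro i hi h
      have := (Nat.Prime.eq_one_or_self_of_dvd h 2 (dvd_pow_self 2 (by omega)))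
      rcases this with h | h
      · omega
      · have : 2 ^ 2 ≤ 2 ^ i := Nat.pow_le_pow_right (by norm_num) hi
        omega
    have h4 : PB j = B \ A := by
      ext p
      rw [PB, Finset.mem_sdiff, hAd, hBd, Finset.mem_filter, Finset.mem_filter, Finset.mem_filter,
        Finset.mem_Icc, Finset.mem_Icc, Finset.mem_Ico]
      constructor
      · rintro ⟨⟨h5, h6⟩, h7, h8⟩
        refine ⟨⟨⟨h7.one_lt.le, h6.le⟩, h7, h8⟩, ?_⟩
        rintro ⟨⟨_, h9⟩, _⟩
        have : p = 2 ^ j := le_antisymm h9 h5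
        exact hne j (by omega) (this ▸ h7)
      · rintro ⟨⟨⟨h5, h6⟩, h7, h8⟩, h9⟩
        have h10 : 2 ^ j < p := by
          by_contra hcon
          exact h9 ⟨⟨h5, not_lt.1 hcon⟩, h7, h8⟩
        refine ⟨⟨h10.le, lt_of_le_of_ne h6 ?_⟩, h7, h8⟩
        rintro rfl
        exact hne (j + 1) (by omega) h7
    have h5 : ((PB j).card : ℝ) = b - a := by
      rw [h4, hb, ha, hA, hB, h3]; push_cast; ring
    rw [h5]
    constructor <;> linarith
  have hl2 := Real.log_two_gt_d9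
  have hl2' := Real.log_two_lt_d9
  have h2j : (0 : ℝ) < 2 ^ j := by positivity
  have ha0 : 0 ≤ a := Nat.cast_nonneg _
  have hb0 : 0 ≤ b := Nat.cast_nonneg _
  -- rewrite
  rw [lt_div_iff₀ h2j] at a1
  rw [div_lt_iff₀ h2j] at a2
  rw [lt_div_iff₀ (by positivity)] at b1
  rw [div_lt_iff₀ (by positivity), pow_succ] at b2
  rw [pow_succ] at b1
  push_cast at b1 b2
  set t : ℝ := 2 ^ j with ht
  set l : ℝ := Real.log 2 with hl
  -- a * (j l) ~ t / 16, b * ((j+1) l) ~ t / 8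
  have hbig : (1000 : ℝ) * j ≤ t := by
    have h6 : 1000 * j ≤ 2 ^ j := by
      have : ∀ i : ℕ, 1000 ≤ i → 1000 * i ≤ 2 ^ i := by
        intro i hi
        induction i, hi using Nat.le_induction with
        | base => 
          have : 1000 * 1000 ≤ 2 ^ 20 := by norm_num
          exact this.trans (Nat.pow_le_pow_right (by norm_num) (by norm_num))
        | succ i hi ih => rw [pow_succ]; omega
      exact this j hj2
    rw [ht]; exact_mod_cast h6
  have hjl : 0 < (j : ℝ) * l := by positivity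
  have hbj : b * (j * l) ≤ b * (((j : ℝ) + 1) * l) := by
    refine mul_le_mul_of_nonneg_left ?_ hb0
    nlinarith
  have hbj2 : b * (((j : ℝ) + 1) * l) ≤ b * (j * l) * (1 + 1 / 1000) := by
    have : ((j : ℝ) + 1) * l ≤ (j * l) * (1 + 1 / 1000) := by nlinarith
    calc _ ≤ b * ((j * l) * (1 + 1 / 1000)) := mul_le_mul_of_nonneg_left this hb0
      _ = _ := by ring
  set x : ℝ := a * (j * l) with hx
  set y : ℝ := b * (j * l) with hy
  set y' : ℝ := b * (((j : ℝ) + 1) * l) with hy'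
  have hyx : (b - a) * (j * l) = y - x := by rw [hx, hy]; ring
  set P : ℝ := ((PB j).card : ℝ) with hP'
  have hP0 : 0 ≤ P := Nat.cast_nonneg _
  have hj9 : (j : ℝ) * l ≤ j := by nlinarith
  have hj10 : (j : ℝ) * (1 / 2) ≤ j * l := by nlinarith
  have h10 : P * (j * l) ≤ P * j := mul_le_mul_of_nonneg_left hj9 hP0
  have h11 : P * (j * (1 / 2)) ≤ P * (j * l) := mul_le_mul_of_nonneg_left hj10 hP0
  constructor
  · -- lower bound
    have h8 : (b - a) * (j * l) ≤ (P + 1) * (j * l) := mul_le_mul_of_nonneg_right hblock.2 hjl.le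
    rw [mul_div_assoc', div_le_iff₀ hj0]
    rw [hyx, add_mul, one_mul] at h8
    linarith
  · have h8 : P * (j * l) ≤ (b - a + 1) * (j * l) := mul_le_mul_of_nonneg_right hblock.1 hjl.le
    rw [le_div_iff₀ hj0]
    rw [add_mul, hyx, one_mul] at h8
    linarith

/-- numbers in a residue class -/
theorem card_class (M q r : ℕ) (hq : 0 < q) : (M : ℝ) / q - 1 ≤
    (((Ico M (M + M)).filter (fun n => n ≡ r [MOD q])).card : ℝ) ∧
    (((Ico M (M + M)).filter (fun n => n ≡ r [MOD q])).card : ℝ) ≤ (M : ℝ) / q + 1 := by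
  have h := Nat.Ico_filter_modEq_card (a := M) (b := M + M) hq r
  have hq' : (0 : ℚ) < q := by exact_mod_cast hq
  have e : (((M + M : ℕ) : ℚ) - r) / q = (M - r) / q + M / q := by push_cast; field_simp; ring
  have h1 : (((M + M : ℕ) : ℚ) - r) / q ≤ ⌈(((M + M : ℕ) : ℚ) - r) / q⌉ := Int.le_ceil _
  have h2 : (⌈(((M + M : ℕ) : ℚ) - r) / q⌉ : ℚ) < (((M + M : ℕ) : ℚ) - r) / q + 1 :=
    Int.ceil_lt_add_one _
  have h3 : ((M : ℚ) - r) / q ≤ ⌈((M : ℚ) - r) / q⌉ := Int.le_ceil _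
  have h4 : (⌈((M : ℚ) - r) / q⌉ : ℚ) < ((M : ℚ) - r) / q + 1 := Int.ceil_lt_add_one _
  have h5 : ((((Ico M (M + M)).filter (fun n => n ≡ r [MOD q])).card : ℤ) : ℚ) =
      ((max (⌈(((M + M : ℕ) : ℚ) - r) / (q : ℚ)⌉ - ⌈((M : ℚ) - r) / (q : ℚ)⌉) 0 : ℤ) : ℚ) := by
    exact_mod_cast h
  push_cast at h5 h1 h2 e
  have hnn : (0 : ℚ) ≤ (M : ℚ) / q := by positivity
  have h6 : (M : ℚ) / q - 1 ≤ (((Ico M (M + M)).filter (fun n => n ≡ r [MOD q])).card : ℚ) := by
    rw [h5]
    refine le_trans ?_ (le_max_left _ _)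
    linarith
  have h7 : (((Ico M (M + M)).filter (fun n => n ≡ r [MOD q])).card : ℚ) ≤ (M : ℚ) / q + 1 := by
    rw [h5]
    refine max_le ?_ (by linarith)
    linarith
  constructor
  · have := (Rat.cast_le (K := ℝ)).2 h6
    push_cast at this
    exact this
  · have := (Rat.cast_le (K := ℝ)).2 h7
    push_cast at this
    exact this

theorem inv_sq_le (S : ℕ) : ∑ p ∈ Icc 7 S, 1 / (p : ℝ) ^ 2 ≤ 1 / 6 := by
  have h : ∀ S : ℕ, 6 ≤ S → ∑ p ∈ Icc 7 S, 1 / (p : ℝ) ^ 2 ≤ (1 / 6 : ℝ) - 1 / (S : ℝ) := by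
    intro S hS
    induction S, hS using Nat.le_induction with
    | base => simp
    | succ S hS ih =>
      rw [Finset.sum_Icc_succ_top (by omega)]
      have hS' : (6 : ℝ) ≤ S := by exact_mod_cast hS
      have h1 : 1 / ((S + 1 : ℕ) : ℝ) ^ 2 ≤ 1 / (S : ℝ) - 1 / ((S + 1 : ℕ) : ℝ) := by
        push_cast
        rw [div_sub_div _ _ (by linarith) (by linarith), div_le_div_iff₀ (by positivity) (by positivity)]
        nlinarith
      linarith
  by_cases hS : 6 ≤ S
  · have := h S hS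
    have h2 : 0 ≤ 1 / (S : ℝ) := by positivity
    linarith
  · rw [Finset.Icc_eq_empty (by omega), Finset.sum_empty]; norm_num

/-- the number of `m` -/
theorem MB_lower (i : ℕ) (hi : 20 ≤ i) : (1 / 100 : ℝ) * 2 ^ i ≤ ((MB i).card : ℝ) := by
  set M : ℕ := 2 ^ i with hM
  have hM20 : 2 ^ 20 ≤ M := Nat.pow_le_pow_right (by norm_num) hi
  have h2M : 2 ^ (i + 1) = M + M := by rw [pow_succ]; ring
  set A := (Ico M (M + M)).filter (fun n => n ≡ 23 [MOD 60]) with hA
  set S := Nat.sqrt (2 * M) with hS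
  set B : ℕ → Finset ℕ := fun p => (Ico M (M + M)).filter (fun n => n ≡ 23 [MOD 60] ∧ p * p ∣ n) with hB
  have hsub : A ⊆ MB i ∪ ((Icc 7 S).filter Nat.Prime).biUnion B := by
    intro n hn
    rw [hA, Finset.mem_filter, Finset.mem_Ico] at hn
    obtain ⟨⟨h1, h2⟩, h3⟩ := hn
    have h3' : n % 60 = 23 := h3
    rw [Finset.mem_union]
    by_cases hsq : Squarefree n
    · left
      rw [MB, Finset.mem_filter, Finset.mem_Ico, h2M]
      exact ⟨⟨h1, h2⟩, hsq, h3'⟩
    · right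
      rw [Nat.squarefree_iff_prime_squarefree] at hsq
      push Not at hsq
      obtain ⟨p, hp, hpn⟩ := hsq
      rw [Finset.mem_biUnion]
      refine ⟨p, ?_, ?_⟩
      · rw [Finset.mem_filter, Finset.mem_Icc]
        refine ⟨⟨?_, ?_⟩, hp⟩
        · by_contra hcon
          have hpd : p ∣ n := dvd_trans (Dvd.intro _ rfl) hpn
          have hp7 : p < 7 := not_le.1 hcon
          interval_cases p
          · exact absurd hp (by norm_num)
          · exact absurd hp (by norm_num)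
          · omega
          · omega
          · exact absurd hp (by norm_num)
          · omega
          · exact absurd hp (by norm_num)
        · rw [hS, Nat.le_sqrt]
          have : p * p ≤ n := Nat.le_of_dvd (by omega) hpn
          omega
      · rw [hB, Finset.mem_filter, Finset.mem_Ico]
        exact ⟨⟨h1, h2⟩, h3, hpn⟩
  have hBc : ∀ p ∈ (Icc 7 S).filter Nat.Prime, ((B p).card : ℝ) ≤ (M / 60) * (1 / (p : ℝ) ^ 2) + 1 := by
    intro p hp
    rw [Finset.mem_filter, Finset.mem_Icc] at hp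
    have hcop : Nat.Coprime 60 (p * p) := by
      have : Nat.Coprime 60 p := by
        rw [Nat.coprime_comm, Nat.Prime.coprime_iff_not_dvd hp.2]
        intro hd
        have hle : p ≤ 60 := Nat.le_of_dvd (by norm_num) hd
        have h7 := hp.1.1
        have hpp := hp.2
        interval_cases p <;> first | omega | (revert hpp; norm_num)
      exact Nat.Coprime.mul_right this this
    obtain ⟨r, hr1, hr2⟩ := Nat.chineseRemainder hcop 23 0
    have h1 := (card_class M (60 * (p * p)) r (by have := hp.2.pos; positivity)).2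
    have h2 : B p ⊆ (Ico M (M + M)).filter (fun n => n ≡ r [MOD 60 * (p * p)]) := by
      intro n hn
      rw [hB, Finset.mem_filter] at hn
      rw [Finset.mem_filter]
      refine ⟨hn.1, ?_⟩
      rw [← Nat.modEq_and_modEq_iff_modEq_mul hcop]
      refine ⟨hn.2.1.trans hr1.symm, ?_⟩
      exact ((Nat.modEq_zero_iff_dvd).2 hn.2.2).trans hr2.symm
    have h3 : ((B p).card : ℝ) ≤ (((Ico M (M + M)).filter
        (fun n => n ≡ r [MOD 60 * (p * p)])).card : ℝ) := by
      exact_mod_cast Finset.card_le_card h2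
    refine (h3.trans h1).trans (le_of_eq ?_)
    have hp0 : (p : ℝ) ≠ 0 := by exact_mod_cast hp.2.ne_zero
    push_cast
    field_simp
  have h1 := (card_class M 60 23 (by norm_num)).1
  have h2 : (A.card : ℝ) ≤ ((MB i).card : ℝ) + ∑ p ∈ (Icc 7 S).filter Nat.Prime, ((B p).card : ℝ) := by
    have h3 : A.card ≤ (MB i).card + ∑ p ∈ (Icc 7 S).filter Nat.Prime, (B p).card :=
      (Finset.card_le_card hsub).trans ((Finset.card_union_le _ _).trans
        (Nat.add_le_add_left Finset.card_biUnion_le _))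
    exact_mod_cast h3
  have h3 : ∑ p ∈ (Icc 7 S).filter Nat.Prime, ((B p).card : ℝ) ≤ (M / 60) * (1 / 6) + S := by
    refine (Finset.sum_le_sum hBc).trans ?_
    have h4 : ∑ p ∈ (Icc 7 S).filter Nat.Prime, ((M / 60 : ℝ) * (1 / (p : ℝ) ^ 2) + 1) ≤
        ∑ p ∈ Icc 7 S, ((M / 60 : ℝ) * (1 / (p : ℝ) ^ 2) + 1) :=
      Finset.sum_le_sum_of_subset_of_nonneg (Finset.filter_subset _ _) fun _ _ _ => by positivity
    refine h4.trans ?_
    rw [Finset.sum_add_distrib, ← Finset.mul_sum, Finset.sum_const, nsmul_eq_mul, mul_one]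
    refine add_le_add (mul_le_mul_of_nonneg_left (inv_sq_le S) (by positivity)) ?_
    rw [Nat.card_Icc]
    exact_mod_cast (by omega : S + 1 - 7 ≤ S)
  have hSS : (S : ℝ) * S ≤ 2 * M := by
    have : S * S ≤ 2 * M := Nat.sqrt_le _
    exact_mod_cast this
  have hM20' : (1048576 : ℝ) ≤ M := by
    have : (2 : ℕ) ^ 20 = 1048576 := by norm_num
    rw [this] at hM20
    exact_mod_cast hM20
  have hSM : (S : ℝ) ≤ M / 500 := by
    by_contra hcon
    push Not at hcon
    have h5 : (0 : ℝ) ≤ M / 500 := by positivity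
    have : (M / 500 : ℝ) * (M / 500) < S * S := mul_self_lt_mul_self h5 hcon
    nlinarith
  have e : (2 : ℝ) ^ i = M := by rw [hM]; push_cast; rfl
  rw [e]
  push_cast at h1
  linarith

end Vale.Agent.P017.H262
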