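import Vale.Agent.P017.H262.TSum
import Vale.Agent.P017.H262.Defs

/-! The weights `G`, `G'` are bounded on average. -/

set_option linter.all false

namespace Vale.Agent.P017.H262

open Finset Real Filter Topology

open scoped NumberTheorySymbols

/-- sums over squarefree numbers with restricted prime factors -/
theorem sqf_sum_le {T : Finset ℕ} (hT : ∀ p ∈ T, p.Prime) (S : Finset ℕ)
    (hS : ∀ b ∈ S, Squarefree b ∧ ∀ q ∈ b.primeFactors, q ∈ T) (s : ℝ) :
    ∑ b ∈ S, (b : ℝ) ^ (-s) ≤ exp (∑ p ∈ T, (p : ℝ) ^ (-s)) := by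
  have h1 : ∑ b ∈ S, (b : ℝ) ^ (-s) = ∑ U ∈ S.image Nat.primeFactors, ∏ p ∈ U, (p : ℝ) ^ (-s) := by
    rw [Finset.sum_image]
    · refine Finset.sum_congr rfl fun b hb => ?_
      have h2 := Nat.prod_primeFactors_of_squarefree (hS b hb).1
      conv_lhs => rw [← h2]
      push_cast
      rw [Real.finsetProd_rpow _ _ fun p _ => Nat.cast_nonneg p]
    · intro x hx y hy hxy
      rw [← Nat.prod_primeFactors_of_squarefree (hS x hx).1,
        ← Nat.prod_primeFactors_of_squarefree (hS y hy).1]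
      have : x.primeFactors = y.primeFactors := hxy
      rw [this]
  rw [h1, Real.exp_sum]
  have h2 : ∑ U ∈ S.image Nat.primeFactors, ∏ p ∈ U, (p : ℝ) ^ (-s) ≤
      ∑ U ∈ T.powerset, ∏ p ∈ U, (p : ℝ) ^ (-s) := by
    refine Finset.sum_le_sum_of_subset_of_nonneg ?_ fun _ _ _ =>
      Finset.prod_nonneg fun _ _ => by positivity
    intro U hU
    rw [Finset.mem_image] at hU
    obtain ⟨b, hb, rfl⟩ := hU
    rw [Finset.mem_powerset]
    exact fun q hq => (hS b hb).2 q hq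
  refine h2.trans ?_
  rw [← Finset.prod_one_add]
  refine Finset.prod_le_prod (fun p _ => by positivity) fun p _ => ?_
  have := Real.add_one_le_exp ((p : ℝ) ^ (-s))
  linarith

/-- the sum over `b` -/
theorem b_sum {D : ℤ} {s : ℝ} (hs : 1 < s) (S : Finset ℕ)
    (hS : ∀ b ∈ S, Squarefree b ∧ ∀ q ∈ b.primeFactors, jr D q = 1) :
    ∑ b ∈ S, (b : ℝ) ^ (-s) ≤ √(LS one' s) * √(LS (jr D) s) := by
  set T : Finset ℕ := S.biUnion Nat.primeFactors with hT
  have hTp : ∀ p ∈ T, p.Prime := by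
    intro p hp
    rw [hT, Finset.mem_biUnion] at hp
    obtain ⟨b, _, hb⟩ := hp
    exact Nat.prime_of_mem_primeFactors hb
  have hT1 : ∀ p ∈ T, jr D p = 1 := by
    intro p hp
    rw [hT, Finset.mem_biUnion] at hp
    obtain ⟨b, hb, hb'⟩ := hp
    exact (hS b hb).2 p hb'
  refine (sqf_sum_le hTp S (fun b hb => ⟨(hS b hb).1, fun q hq => ?_⟩) s).trans ?_
  · rw [hT, Finset.mem_biUnion]; exact ⟨b, hb, hq⟩
  have h1 : ∑ p ∈ T, (p : ℝ) ^ (-s) ≤ PS one' s / 2 + PS (jr D) s / 2 := by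
    have hsum1 := CM_one'.summableP hs
    have hsum2 := (CM_jr D).summableP hs
    have h2 : ∑ p ∈ T, (p : ℝ) ^ (-s) = ∑ p ∈ T.subtype Nat.Prime,
        (one' ((p : Nat.Primes) : ℕ) * (((p : Nat.Primes) : ℕ) : ℝ) ^ (-s) / 2 + jr D p * (((p : Nat.Primes) : ℕ) : ℝ) ^ (-s) / 2) := by
      rw [← Finset.sum_subtype_of_mem (p := Nat.Prime) (fun p : ℕ => (p : ℝ) ^ (-s)) hTp]
      refine Finset.sum_congr rfl fun p hp => ?_
      rw [Finset.mem_subtype] at hp
      have e1 : one' (p : ℕ) = 1 := by simp [one', p.2.ne_zero]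
      rw [e1, hT1 p hp]
      ring
    rw [h2]
    have hsum3 : Summable fun p : Nat.Primes => (one' (p : ℕ) * ((p : ℕ) : ℝ) ^ (-s) / 2 +
        jr D p * ((p : ℕ) : ℝ) ^ (-s) / 2) := (hsum1.div_const 2).add (hsum2.div_const 2)
    have e2 : PS one' s / 2 + PS (jr D) s / 2 = ∑' p : Nat.Primes, (one' (p : ℕ) * ((p : ℕ) : ℝ) ^ (-s) / 2 +
        jr D p * ((p : ℕ) : ℝ) ^ (-s) / 2) := by
      have e3 := Summable.tsum_add (hsum1.div_const 2) (hsum2.div_const 2)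
      rw [tsum_div_const, tsum_div_const] at e3
      exact e3.symm
    rw [e2]
    have hnn : ∀ p : Nat.Primes, 0 ≤ one' (p : ℕ) * ((p : ℕ) : ℝ) ^ (-s) / 2 +
        jr D p * ((p : ℕ) : ℝ) ^ (-s) / 2 := by
      intro p
      have e1 : one' (p : ℕ) = 1 := by simp [one', p.2.ne_zero]
      rw [e1]
      have h3 := (abs_le.1 ((CM_jr D).le p)).1
      have h4 : 0 ≤ ((p : ℕ) : ℝ) ^ (-s) := by positivity
      nlinarith
    exact Summable.sum_le_tsum (f := fun p : Nat.Primes => one' (p : ℕ) * ((p : ℕ) : ℝ) ^ (-s) / 2 +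
        jr D p * ((p : ℕ) : ℝ) ^ (-s) / 2) (s := (T.subtype Nat.Prime : Finset Nat.Primes))
        (fun p _ => hnn p) hsum3
  refine (Real.exp_le_exp.2 h1).trans ?_
  rw [Real.exp_add]
  exact mul_le_mul (exp_half (exp_PS_le CM_one' hs)) (exp_half (exp_PS_le (CM_jr D) hs))
    (exp_pos _).le (Real.sqrt_nonneg _)

theorem inv_le {Y : ℕ} (hY : 2 ≤ Y) {s : ℝ} (hs : s = 1 + 1 / (2 * Real.log Y)) {a : ℕ}
    (ha : a ∈ Icc 1 Y) : 1 / (a : ℝ) ≤ 2 * (a : ℝ) ^ (-s) := by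
  rw [Finset.mem_Icc] at ha
  have ha1 : (1 : ℝ) ≤ a := by exact_mod_cast ha.1
  have ha0 : (0 : ℝ) < a := by linarith
  have haY : (a : ℝ) ≤ Y := by exact_mod_cast ha.2
  have hY2 : (2 : ℝ) ≤ Y := by exact_mod_cast hY
  have hl : 0 < Real.log Y := Real.log_pos (by linarith)
  have e1 : (a : ℝ) ^ (-s) = (1 / a) * (a : ℝ) ^ (-(1 / (2 * Real.log Y))) := by
    rw [one_div (a : ℝ), ← Real.rpow_neg_one, ← Real.rpow_add ha0, hs]
    congr 1; ring
  have h1 : (1 / 2 : ℝ) ≤ (a : ℝ) ^ (-(1 / (2 * Real.log Y))) := by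
    rw [Real.rpow_def_of_pos ha0]
    have h2 : Real.log a ≤ Real.log Y := Real.log_le_log ha0 haY
    have h3 : Real.log a * -(1 / (2 * Real.log Y)) ≥ -(1 / 2) := by
      have : Real.log a * (1 / (2 * Real.log Y)) ≤ Real.log Y * (1 / (2 * Real.log Y)) :=
        mul_le_mul_of_nonneg_right h2 (by positivity)
      have e : Real.log Y * (1 / (2 * Real.log Y)) = 1 / 2 := by field_simp
      linarith
    have h4 := Real.add_one_le_exp (Real.log a * -(1 / (2 * Real.log Y)))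
    linarith
  rw [e1]
  have h5 : 0 < 1 / (a : ℝ) := by positivity
  nlinarith

/-- the odd squarefree numbers up to `Y` -/
def OS (Y : ℕ) : Finset ℕ := (Icc 1 Y).filter (fun m => Odd m ∧ Squarefree m)

/-- rearrangement -/
theorem rearr (Y : ℕ) (P : ℕ → ℕ → Prop) [∀ a b, Decidable (P a b)] :
    ∑ m ∈ OS Y, (∑ a ∈ m.divisors.filter (fun a => P a (m / a)), (1 / 2 : ℝ) ^ a.primeFactors.card) /
      (m : ℝ) ≤ ∑ a ∈ OS Y, (w a / a) * ∑ b ∈ (OS Y).filter (fun b => P a b), 1 / (b : ℝ) := by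
  have e1 : ∑ m ∈ OS Y, (∑ a ∈ m.divisors.filter (fun a => P a (m / a)),
      (1 / 2 : ℝ) ^ a.primeFactors.card) / (m : ℝ) =
      ∑ x ∈ (OS Y).sigma (fun m => m.divisors.filter (fun a => P a (m / a))),
        (1 / 2 : ℝ) ^ x.2.primeFactors.card / (x.1 : ℝ) := by
    rw [Finset.sum_sigma]
    refine Finset.sum_congr rfl fun m _ => ?_
    rw [Finset.sum_div]
  have e2 : ∑ a ∈ OS Y, (w a / a) * ∑ b ∈ (OS Y).filter (fun b => P a b), 1 / (b : ℝ) =
      ∑ x ∈ (OS Y).sigma (fun a => (OS Y).filter (fun b => P a b)), (w x.1 / x.1) * (1 / (x.2 : ℝ)) := by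
    rw [Finset.sum_sigma]
    refine Finset.sum_congr rfl fun m _ => ?_
    rw [Finset.mul_sum]
  rw [e1, e2]
  have hmem : ∀ x ∈ (OS Y).sigma (fun m => m.divisors.filter (fun a => P a (m / a))),
      x.2 * (x.1 / x.2) = x.1 ∧ 1 ≤ x.2 ∧ x.2 ≤ Y ∧ 1 ≤ x.1 / x.2 ∧ x.1 / x.2 ≤ Y ∧ Odd x.2 ∧
        Odd (x.1 / x.2) ∧ Squarefree x.2 ∧ Squarefree (x.1 / x.2) ∧ P x.2 (x.1 / x.2) := by
    rintro ⟨m, a⟩ hx
    rw [Finset.mem_sigma, OS, Finset.mem_filter, Finset.mem_filter, Nat.mem_divisors,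
      Finset.mem_Icc] at hx
    obtain ⟨⟨⟨h1, h2⟩, h3, h4⟩, ⟨h5, h6⟩, h7⟩ := hx
    simp only at h1 h2 h3 h4 h5 h6 h7 ⊢
    have h8 : a * (m / a) = m := Nat.mul_div_cancel' h5
    have ha : 0 < a := Nat.pos_of_dvd_of_pos h5 h1
    have hq : 0 < m / a := by
      rcases Nat.eq_zero_or_pos (m / a) with h | h
      · rw [h, mul_zero] at h8; omega
      · exact h
    have h9 : m / a ∣ m := Nat.div_dvd_of_dvd h5
    have h10 := h3
    rw [← h8, Nat.odd_mul] at h10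
    exact ⟨h8, ha, (Nat.le_of_dvd h1 h5).trans h2, hq, (Nat.le_of_dvd h1 h9).trans h2, h10.1, h10.2,
      h4.squarefree_of_dvd h5, h4.squarefree_of_dvd h9, h7⟩
  have e3 : ∑ x ∈ (OS Y).sigma (fun m => m.divisors.filter (fun a => P a (m / a))),
        (1 / 2 : ℝ) ^ x.2.primeFactors.card / (x.1 : ℝ) =
      ∑ y ∈ ((OS Y).sigma (fun m => m.divisors.filter (fun a => P a (m / a)))).image
        (fun x => (⟨x.2, x.1 / x.2⟩ : (_ : ℕ) × ℕ)), (w y.1 / y.1) * (1 / (y.2 : ℝ)) := by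
    rw [Finset.sum_image]
    · refine Finset.sum_congr rfl fun x hx => ?_
      obtain ⟨h1, h2, _, h3, _, _, _, h4, _, _⟩ := hmem x hx
      simp only
      rw [w, if_pos h4]
      have h5 : (x.1 : ℝ) = (x.2 : ℝ) * ((x.1 / x.2 : ℕ) : ℝ) := by exact_mod_cast h1.symm
      rw [h5]
      have h6 : (x.2 : ℝ) ≠ 0 := by exact_mod_cast (by omega : x.2 ≠ 0)
      have h7 : ((x.1 / x.2 : ℕ) : ℝ) ≠ 0 := by exact_mod_cast (by omega : x.1 / x.2 ≠ 0)
      field_simp
    · rintro ⟨m, a⟩ hx ⟨m', a'⟩ hy hxy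
      have h1 := (hmem _ hx).1
      have h2 := (hmem _ hy).1
      simp only [Sigma.mk.injEq, heq_eq_eq] at hxy h1 h2 ⊢
      obtain ⟨h3, h4⟩ := hxy
      refine ⟨?_, h3⟩
      calc m = a * (m / a) := h1.symm
        _ = a' * (m' / a') := by rw [h4, h3]
        _ = m' := h2
  rw [e3]
  refine Finset.sum_le_sum_of_subset_of_nonneg ?_ fun y _ _ => ?_
  · intro y hy
    rw [Finset.mem_image] at hy
    obtain ⟨x, hx, rfl⟩ := hy
    obtain ⟨h1, h2, h3, h4, h5, h6, h7, h8, h9, h10⟩ := hmem x hx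
    rw [Finset.mem_sigma, OS, Finset.mem_filter, Finset.mem_filter, Finset.mem_filter,
      Finset.mem_Icc, Finset.mem_Icc]
    exact ⟨⟨⟨h2, h3⟩, h6, h8⟩, ⟨⟨h4, h5⟩, h7, h9⟩, h10⟩
  · exact mul_nonneg (div_nonneg (w_nonneg _) (Nat.cast_nonneg _)) (by positivity)

/-- the sums over `a` -/
noncomputable def U (ε : ℤ) (s : ℝ) (Y : ℕ) : ℝ := ∑ a ∈ OS Y, wA ε s a * √(LS (jr (ε * a)) s)

theorem U_bd {C : ℝ} (hC : 0 < C) (hT : ∀ ε : ℤ, (ε = 1 ∨ ε = -1) → ∀ s : ℝ, 1 < s → s ≤ 2 →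
    ∑' a : ℕ, wA ε s a * LS (jr (ε * a)) s ≤ C * √(1 / (s - 1))) {ε : ℤ} (hε : ε = 1 ∨ ε = -1)
    {s : ℝ} (hs : 1 < s) (hs2 : s ≤ 2) (Y : ℕ) : U ε s Y ≤ √(2 * C) * √(1 / (s - 1)) := by
  have hs0 : 0 < s - 1 := by linarith
  have hL : ∀ a : ℕ, 0 ≤ LS (jr (ε * a)) s := fun a => (LS_pos (CM_jr _) hs).le
  have h1 : (U ε s Y) ^ 2 ≤ (∑ a ∈ OS Y, wA ε s a) * ∑ a ∈ OS Y, wA ε s a * LS (jr (ε * a)) s := by
    have := Finset.sum_mul_sq_le_sq_mul_sq (OS Y) (fun a => √(wA ε s a))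
      (fun a => √(wA ε s a * LS (jr (ε * a)) s))
    have e1 : ∀ a : ℕ, √(wA ε s a) * √(wA ε s a * LS (jr (ε * a)) s) =
        wA ε s a * √(LS (jr (ε * a)) s) := by
      intro a
      rw [Real.sqrt_mul (wA_nonneg _ _ _), ← mul_assoc, Real.mul_self_sqrt (wA_nonneg _ _ _)]
    have e2 : ∀ a : ℕ, √(wA ε s a) ^ 2 = wA ε s a := fun a => Real.sq_sqrt (wA_nonneg _ _ _)
    have e3 : ∀ a : ℕ, √(wA ε s a * LS (jr (ε * a)) s) ^ 2 = wA ε s a * LS (jr (ε * a)) s :=
      fun a => Real.sq_sqrt (mul_nonneg (wA_nonneg _ _ _) (hL a))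
    simp_rw [e1, e2, e3] at this
    exact this
  have h2 : ∑ a ∈ OS Y, wA ε s a ≤ √(1 + 1 / (s - 1)) := by
    have h3 : Summable fun a : ℕ => w a * (one' a * (a : ℝ) ^ (-s)) := by
      refine Summable.of_norm_bounded (summable_pow hs) fun a => ?_
      rw [norm_mul, Real.norm_eq_abs, abs_of_nonneg (w_nonneg a)]
      calc _ ≤ 1 * ‖one' a * (a : ℝ) ^ (-s)‖ :=
            mul_le_mul_of_nonneg_right (w_le_one a) (norm_nonneg _)
        _ ≤ _ := by rw [one_mul]; exact CM_one'.norm_le s a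
    have hnn : ∀ a : ℕ, 0 ≤ w a * (one' a * (a : ℝ) ^ (-s)) := by
      intro a
      refine mul_nonneg (w_nonneg a) (mul_nonneg ?_ (by positivity))
      unfold one'; split_ifs <;> norm_num
    calc ∑ a ∈ OS Y, wA ε s a ≤ ∑ a ∈ OS Y, w a * (one' a * (a : ℝ) ^ (-s)) := by
          refine Finset.sum_le_sum fun a ha => ?_
          rw [OS, Finset.mem_filter, Finset.mem_Icc] at ha
          have e1 : one' a = 1 := by simp [one']; omega
          rw [e1, one_mul]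
          unfold wA; split_ifs
          · exact le_rfl
          · exact mul_nonneg (w_nonneg a) (by positivity)
      _ ≤ ∑' a : ℕ, w a * (one' a * (a : ℝ) ^ (-s)) := h3.sum_le_tsum _ fun a _ => hnn a
      _ ≤ |∑' a : ℕ, w a * (one' a * (a : ℝ) ^ (-s))| := le_abs_self _
      _ ≤ exp (PS one' s / 2) := abs_w_le CM_one' hs
      _ ≤ √(1 + 1 / (s - 1)) := exp_half ((exp_PS_le CM_one' hs).trans (LS_one'_le hs))
  have h3 : ∑ a ∈ OS Y, wA ε s a * LS (jr (ε * a)) s ≤ C * √(1 / (s - 1)) := by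
    refine le_trans ?_ (hT ε hε s hs hs2)
    exact (summable_wA ε hs fun a => LS_jr_abs _ hs).sum_le_tsum _
      fun a _ => mul_nonneg (wA_nonneg _ _ _) (hL a)
  have h4 : √(1 + 1 / (s - 1)) ≤ 2 * √(1 / (s - 1)) := by
    have hinv : 1 ≤ 1 / (s - 1) := by rw [le_div_iff₀ hs0]; linarith
    rw [Real.sqrt_le_iff]
    constructor
    · positivity
    · rw [mul_pow, Real.sq_sqrt (by positivity)]
      linarith
  have h5 : (U ε s Y) ^ 2 ≤ (√(2 * C) * √(1 / (s - 1))) ^ 2 := by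
    rw [mul_pow, Real.sq_sqrt (by positivity), Real.sq_sqrt (by positivity)]
    calc _ ≤ _ := h1
      _ ≤ (2 * √(1 / (s - 1))) * (C * √(1 / (s - 1))) := by
          refine mul_le_mul (h2.trans h4) h3 ?_ (by positivity)
          exact Finset.sum_nonneg fun a _ => mul_nonneg (wA_nonneg _ _ _) (hL a)
      _ = 2 * C * (√(1 / (s - 1)) * √(1 / (s - 1))) := by ring
      _ = _ := by rw [Real.mul_self_sqrt (by positivity)]
  exact (abs_le_of_sq_le_sq' h5 (by positivity)).2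

/-- the sum over `a` with a sign depending on `a` -/
theorem a_sum {Y : ℕ} {s : ℝ} (hs : 1 < s) (D : ℕ → ℤ) (hD : ∀ a, Odd a → D a = a ∨ D a = -a) :
    ∑ a ∈ OS Y, w a * (a : ℝ) ^ (-s) * √(LS (jr (D a)) s) ≤
      √(LS one' s) + U 1 s Y + U (-1) s Y := by
  have h1 : ∀ a ∈ OS Y, w a * (a : ℝ) ^ (-s) * √(LS (jr (D a)) s) ≤
      (if a = 1 then √(LS one' s) else 0) + wA 1 s a * √(LS (jr (1 * a)) s) +
        wA (-1) s a * √(LS (jr (-1 * a)) s) := by
    intro a ha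
    rw [OS, Finset.mem_filter, Finset.mem_Icc] at ha
    obtain ⟨⟨ha1, ha2⟩, hodd, hsqf⟩ := ha
    have n1 : 0 ≤ wA 1 s a * √(LS (jr (1 * a)) s) := mul_nonneg (wA_nonneg _ _ _) (Real.sqrt_nonneg _)
    have n2 : 0 ≤ wA (-1) s a * √(LS (jr (-1 * a)) s) := mul_nonneg (wA_nonneg _ _ _) (Real.sqrt_nonneg _)
    have n3 : 0 ≤ (if a = 1 then √(LS one' s) else 0) := by split_ifs <;> positivity
    have hgen : ∀ ε : ℤ, (ε = 1 ∨ ε = -1) → ¬ IsSquare (ε * a : ℤ) → D a = ε * a →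
        w a * (a : ℝ) ^ (-s) * √(LS (jr (D a)) s) ≤ wA ε s a * √(LS (jr (ε * a)) s) := by
      intro ε hε hsq hDa
      rw [wA, if_pos ⟨hodd, hsq⟩, hDa]
    by_cases hsq : IsSquare (D a)
    · have hDa : D a = 1 := by
        obtain ⟨t, ht⟩ := hsq
        have h2 : a = t.natAbs * t.natAbs := by
          rw [← Int.natAbs_mul, ← ht]
          rcases hD a hodd with h | h <;> rw [h] <;> simp
        have h3 := hsqf t.natAbs ⟨1, by rw [mul_one]; exact h2⟩
        rw [Nat.isUnit_iff] at h3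
        rcases Int.natAbs_eq t with h4 | h4 <;> rw [ht, h4, h3] <;> norm_num
      have ha1' : a = 1 := by
        rcases hD a hodd with h | h <;> rw [hDa] at h <;> omega
      have h2 : LS (jr (D a)) s ≤ LS one' s := LS_le (CM_jr _) hs
      have h3 := Real.sqrt_le_sqrt h2
      rw [if_pos ha1']
      have h4 : w a * (a : ℝ) ^ (-s) = 1 := by rw [ha1', w_one]; simp
      rw [h4, one_mul]
      linarith
    · rcases hD a hodd with h | h
      · have := hgen 1 (Or.inl rfl) (by rwa [one_mul, ← h]) (by rw [one_mul, h])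
        linarith
      · have := hgen (-1) (Or.inr rfl) (by rwa [neg_one_mul, ← h]) (by rw [neg_one_mul, h])
        linarith
  refine (Finset.sum_le_sum h1).trans ?_
  rw [Finset.sum_add_distrib, Finset.sum_add_distrib]
  refine add_le_add (add_le_add ?_ le_rfl) le_rfl
  rw [Finset.sum_ite_eq']
  split_ifs
  · exact le_rfl
  · positivity

/-- one of the two sums -/
theorem one_sum {Y : ℕ} (hY : 2 ≤ Y) {s : ℝ} (hs : 1 < s) (hsY : s = 1 + 1 / (2 * Real.log Y))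
    (P : ℕ → ℕ → Prop) [∀ a b, Decidable (P a b)] (D : ℕ → ℤ)
    (hD : ∀ a, Odd a → D a = a ∨ D a = -a)
    (hP : ∀ a b, Odd a → Odd b → P a b → ∀ q ∈ b.primeFactors, jr (D a) q = 1) :
    ∑ m ∈ OS Y, (∑ a ∈ m.divisors.filter (fun a => P a (m / a)), (1 / 2 : ℝ) ^ a.primeFactors.card) /
      (m : ℝ) ≤ 4 * √(LS one' s) * (√(LS one' s) + U 1 s Y + U (-1) s Y) := by
  refine (rearr Y P).trans ?_
  have h1 : ∀ a ∈ OS Y, (w a / a) * ∑ b ∈ (OS Y).filter (fun b => P a b), 1 / (b : ℝ) ≤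
      4 * √(LS one' s) * (w a * (a : ℝ) ^ (-s) * √(LS (jr (D a)) s)) := by
    intro a ha
    have ha' := ha
    rw [OS, Finset.mem_filter] at ha'
    have h2 : ∑ b ∈ (OS Y).filter (fun b => P a b), 1 / (b : ℝ) ≤
        2 * (√(LS one' s) * √(LS (jr (D a)) s)) := by
      calc ∑ b ∈ (OS Y).filter (fun b => P a b), 1 / (b : ℝ)
          ≤ ∑ b ∈ (OS Y).filter (fun b => P a b), 2 * (b : ℝ) ^ (-s) := by
            refine Finset.sum_le_sum fun b hb => ?_
            rw [Finset.mem_filter, OS, Finset.mem_filter] at hb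
            exact inv_le hY hsY hb.1.1
        _ = 2 * ∑ b ∈ (OS Y).filter (fun b => P a b), (b : ℝ) ^ (-s) := by rw [Finset.mul_sum]
        _ ≤ _ := by
            refine mul_le_mul_of_nonneg_left (b_sum hs _ fun b hb => ?_) (by norm_num)
            rw [Finset.mem_filter, OS, Finset.mem_filter] at hb
            exact ⟨hb.1.2.2, hP a b ha'.2.1 hb.1.2.1 hb.2⟩
    have h3 : w a / a ≤ 2 * (w a * (a : ℝ) ^ (-s)) := by
      have := mul_le_mul_of_nonneg_left (inv_le hY hsY ha'.1) (w_nonneg a)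
      rw [mul_one_div] at this
      linarith
    have h4 : 0 ≤ w a * (a : ℝ) ^ (-s) := mul_nonneg (w_nonneg a) (by positivity)
    calc _ ≤ (2 * (w a * (a : ℝ) ^ (-s))) * (2 * (√(LS one' s) * √(LS (jr (D a)) s))) :=
          mul_le_mul h3 h2 (Finset.sum_nonneg fun _ _ => by positivity) (by linarith)
      _ = _ := by ring
  refine (Finset.sum_le_sum h1).trans ?_
  rw [← Finset.mul_sum]
  exact mul_le_mul_of_nonneg_left (a_sum hs D hD) (by positivity)

/-- **[B]** -/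
theorem gAvg : GStmt := by
  obtain ⟨C, hC, hT⟩ := T_bd
  refine ⟨32 * 2 * (2 + 2 * √(2 * C)), by positivity, fun Y hY => ?_⟩
  have hY2 : (2 : ℝ) ≤ Y := by exact_mod_cast hY
  have hl : Real.log 2 ≤ Real.log Y := Real.log_le_log (by norm_num) hY2
  have hl2 := Real.log_two_gt_d9
  have hl0 : 0 < Real.log Y := by linarith
  set s : ℝ := 1 + 1 / (2 * Real.log Y) with hs
  have hs1 : 1 < s := by
    have : 0 < 1 / (2 * Real.log Y) := by positivity
    linarith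
  have hs2 : s ≤ 2 := by
    have : 1 / (2 * Real.log Y) ≤ 1 := by rw [div_le_one (by positivity)]; linarith
    linarith
  have hinv : 1 / (s - 1) = 2 * Real.log Y := by
    rw [hs, add_sub_cancel_left, one_div_one_div]
  have hG : ∀ m : ℕ, G m = ∑ a ∈ m.divisors.filter (fun a => ∀ q ∈ (m / a).primeFactors,
      jacobiSym a q = 1), (1 / 2 : ℝ) ^ a.primeFactors.card := fun m => rfl
  have h1 := one_sum hY hs1 hs (fun a b => ∀ q ∈ b.primeFactors, jacobiSym a q = 1)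
    (fun a => (a : ℤ)) (fun a _ => Or.inl rfl) (by
      intro a b ha hb h q hq
      have hqo : Odd q := hb.of_dvd_nat (Nat.dvd_of_mem_primeFactors hq)
      rw [jr, jf_odd hqo, h q hq]
      norm_num)
  have h2 := one_sum hY hs1 hs (fun a b => ∀ q ∈ b.primeFactors, jacobiSym q a = 1)
    star (by
      intro a ha
      have := star_natAbs ha
      rcases Int.natAbs_eq (star a) with h | h
      · left; rw [h, this]
      · right; rw [h, this]) (by
      intro a b ha hb h q hq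
      have hqo : Odd q := hb.of_dvd_nat (Nat.dvd_of_mem_primeFactors hq)
      rw [jr, ← recip hqo ha, h q hq]
      norm_num)
  have hU1 := U_bd hC hT (ε := 1) (Or.inl rfl) hs1 hs2 Y
  have hU2 := U_bd hC hT (ε := -1) (Or.inr rfl) hs1 hs2 Y
  have hZ : √(LS one' s) ≤ 2 * √(1 / (s - 1)) := by
    have hinv : 1 ≤ 1 / (s - 1) := by rw [le_div_iff₀ (by linarith)]; linarith
    refine (Real.sqrt_le_sqrt (LS_one'_le hs1)).trans ?_
    rw [Real.sqrt_le_iff]
    constructor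
    · positivity
    · rw [mul_pow, Real.sq_sqrt (by positivity)]
      linarith
  have e1 : ∑ m ∈ (Icc 1 Y).filter (fun m => Odd m ∧ Squarefree m), (G m + G' m) / (m : ℝ) =
      ∑ m ∈ OS Y, (∑ a ∈ m.divisors.filter (fun a => ∀ q ∈ (m / a).primeFactors,
        jacobiSym a q = 1), (1 / 2 : ℝ) ^ a.primeFactors.card) / (m : ℝ) +
      ∑ m ∈ OS Y, (∑ a ∈ m.divisors.filter (fun a => ∀ q ∈ (m / a).primeFactors,
        jacobiSym q a = 1), (1 / 2 : ℝ) ^ a.primeFactors.card) / (m : ℝ) := by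
    rw [← Finset.sum_add_distrib]
    refine Finset.sum_congr rfl fun m _ => ?_
    rw [add_div]
    rfl
  rw [e1]
  have hr : √(1 / (s - 1)) * √(1 / (s - 1)) = 2 * Real.log Y := by
    rw [Real.mul_self_sqrt (by rw [hinv]; positivity), hinv]
  set r : ℝ := √(1 / (s - 1)) with hr'
  have hr0 : 0 ≤ r := Real.sqrt_nonneg _
  have hz0 : 0 ≤ √(LS one' s) := Real.sqrt_nonneg _
  have h3 : 4 * √(LS one' s) * (√(LS one' s) + U 1 s Y + U (-1) s Y) ≤
      4 * (2 * r) * ((2 + 2 * √(2 * C)) * r) := by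
    have hU1' : 0 ≤ U 1 s Y := Finset.sum_nonneg fun a _ => mul_nonneg (wA_nonneg _ _ _) (Real.sqrt_nonneg _)
    have hU2' : 0 ≤ U (-1) s Y := Finset.sum_nonneg fun a _ => mul_nonneg (wA_nonneg _ _ _) (Real.sqrt_nonneg _)
    refine mul_le_mul (by linarith) ?_ (by linarith) (by linarith)
    linarith
  calc _ ≤ 4 * √(LS one' s) * (√(LS one' s) + U 1 s Y + U (-1) s Y) +
        4 * √(LS one' s) * (√(LS one' s) + U 1 s Y + U (-1) s Y) := add_le_add h1 h2
    _ ≤ 4 * (2 * r) * ((2 + 2 * √(2 * C)) * r) + 4 * (2 * r) * ((2 + 2 * √(2 * C)) * r) :=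
        add_le_add h3 h3
    _ = 16 * (2 + 2 * √(2 * C)) * (r * r) := by ring
    _ = 16 * 2 * (2 + 2 * √(2 * C)) * Real.log Y := by rw [hr]; ring
    _ ≤ _ := by
        refine mul_le_mul_of_nonneg_right ?_ hl0.le
        have := Real.sqrt_nonneg (2 * C)
        nlinarith

end Vale.Agent.P017.H262
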