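import Vale.Agent.P017.H262.ErrM
import Vale.Agent.P017.H262.Cnt
import Vale.Agent.P017.H262.GAvg

/-! Boxes. -/

set_option linter.all false

namespace Vale.Agent.P017.H262

open Finset Real

/-- lower ends of the ranges of the exponents -/
def RR (K n : ℕ) (l : Fin K) : ℕ := 10 ^ (K + 1 - (l : ℕ)) * n

/-- the exponents -/
def JJ (K n : ℕ) : Finset (Fin K → ℕ) := Fintype.piFinset fun l => Ico (RR K n l) (2 * RR K n l)

/-- the size of `d` -/
def NN (K n : ℕ) : ℕ := 10 ^ (K + 3) * n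

/-- the exponent of the largest prime, plus `i` -/
def J0 (K n : ℕ) (j' : Fin K → ℕ) : ℕ := NN K n - (K + 2) - ∑ l, j' l

/-- all exponents -/
def jj (K n i : ℕ) (j' : Fin K → ℕ) : Fin (K + 1) → ℕ := Fin.cons (J0 K n j' - i) j'

theorem jj_zero (K n i : ℕ) (j' : Fin K → ℕ) : jj K n i j' 0 = J0 K n j' - i := rfl

theorem jj_succ (K n i : ℕ) (j' : Fin K → ℕ) (l : Fin K) : jj K n i j' l.succ = j' l := by
  rw [jj, Fin.cons_succ]

theorem sum_ten (K : ℕ) : ∑ l : Fin K, 10 ^ (K + 1 - (l : ℕ)) ≤ 2 * 10 ^ (K + 1) := by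
  induction K with
  | zero => simp
  | succ K ih =>
    rw [Fin.sum_univ_succ]
    have : ∀ l : Fin K, 10 ^ (K + 1 + 1 - ((l.succ : Fin (K + 1)) : ℕ)) = 10 ^ (K + 1 - (l : ℕ)) := by
      intro l
      rw [Fin.val_succ]
      congr 1
      omega
    rw [Finset.sum_congr rfl fun l _ => this l]
    simp only [Fin.val_zero, Nat.sub_zero]
    have h1 : 10 ^ (K + 1 + 1) = 10 * 10 ^ (K + 1) := by rw [pow_succ]; ring
    omega

section
variable {K n i : ℕ} {j' : Fin K → ℕ}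

theorem mem_JJ (hj : j' ∈ JJ K n) (l : Fin K) :
    10 ^ (K + 1 - (l : ℕ)) * n ≤ j' l ∧ j' l ≤ 2 * (10 ^ (K + 1 - (l : ℕ)) * n) := by
  rw [JJ, Fintype.mem_piFinset] at hj
  have := hj l
  rw [Finset.mem_Ico, RR] at this
  exact ⟨this.1, this.2.le⟩

theorem sum_j' (hj : j' ∈ JJ K n) : ∑ l, j' l ≤ 4 * (10 ^ (K + 1) * n) := by
  calc ∑ l, j' l ≤ ∑ l : Fin K, 2 * (10 ^ (K + 1 - (l : ℕ)) * n) :=
        Finset.sum_le_sum fun l _ => (mem_JJ hj l).2
    _ = 2 * n * ∑ l : Fin K, 10 ^ (K + 1 - (l : ℕ)) := by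
        rw [Finset.mul_sum]; exact Finset.sum_congr rfl fun l _ => by ring
    _ ≤ 2 * n * (2 * 10 ^ (K + 1)) := Nat.mul_le_mul_left _ (sum_ten K)
    _ = _ := by ring

theorem K_le (K : ℕ) : K + 2 ≤ 10 ^ (K + 1) := by
  have : K + 1 < 10 ^ (K + 1) := Nat.lt_pow_self (by norm_num)
  omega

theorem facts (hn : 1 ≤ n) (hi : i < n) (hj : j' ∈ JJ K n) :
    i + (J0 K n j' - i) + ∑ l, j' l + (K + 2) = NN K n ∧ 90 * (10 ^ (K + 1) * n) ≤ J0 K n j' - i ∧
      NN K n = 100 * (10 ^ (K + 1) * n) := by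
  have h1 := sum_j' hj
  have h2 := K_le K
  have h3 : 10 ^ (K + 1) ≤ 10 ^ (K + 1) * n := Nat.le_mul_of_pos_right _ hn
  have h4 : n ≤ 10 ^ (K + 1) * n := Nat.le_mul_of_pos_left _ (by positivity)
  have h5 : NN K n = 100 * (10 ^ (K + 1) * n) := by
    rw [NN, show K + 3 = (K + 1) + 2 by ring, pow_add]; ring
  refine ⟨?_, ?_, h5⟩
  · rw [J0, h5]; omega
  · rw [J0, h5]; omega

theorem ten_le (l : Fin K) : 10 ≤ 10 ^ (K + 1 - (l : ℕ)) := by
  have := l.2
  calc 10 = 10 ^ 1 := by norm_num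
    _ ≤ 10 ^ (K + 1 - (l : ℕ)) := Nat.pow_le_pow_right (by norm_num) (by omega)

theorem jj_ge (hn : 1 ≤ n) (hi : i < n) (hj : j' ∈ JJ K n) (l : Fin (K + 1)) :
    10 * n ≤ jj K n i j' l := by
  obtain ⟨h1, h2, h3⟩ := facts hn hi hj
  have h4 : n ≤ 10 ^ (K + 1) * n := Nat.le_mul_of_pos_left _ (by positivity)
  refine Fin.cases ?_ (fun l => ?_) l
  · rw [jj_zero]; omega
  · rw [jj_succ]
    have h5 := (mem_JJ hj l).1
    have h6 := Nat.mul_le_mul_right n (ten_le l)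
    omega

theorem sz (hn : 1 ≤ n) (hi : i < n) (hj : j' ∈ JJ K n) {m : ℕ} (hm : m ∈ MB i) :
    Sz m (jj K n i j') := by
  obtain ⟨h1, h2, h3⟩ := facts hn hi hj
  constructor
  · intro l l' hll
    induction l using Fin.cases with
    | zero =>
      induction l' using Fin.cases with
      | zero => exact absurd hll (lt_irrefl _)
      | succ b =>
        rw [jj_zero, jj_succ]
        have h4 := (mem_JJ hj b).2
        have h5 : 10 ^ (K + 1 - (b : ℕ)) * n ≤ 10 ^ (K + 1) * n :=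
          Nat.mul_le_mul_right n (Nat.pow_le_pow_right (by norm_num) (by omega))
        omega
    | succ a =>
      induction l' using Fin.cases with
      | zero => exact absurd hll (by simp)
      | succ b =>
        rw [jj_succ, jj_succ]
        have hab : a < b := by simpa using hll
        have h4 := (mem_JJ hj b).2
        have h5 := (mem_JJ hj a).1
        have hb := b.2
        have hab' : (a : ℕ) < b := hab
        have h6 : 10 * 10 ^ (K + 1 - (b : ℕ)) ≤ 10 ^ (K + 1 - (a : ℕ)) := by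
          rw [← pow_succ']
          exact Nat.pow_le_pow_right (by norm_num) (by omega)
        have h7 : 10 * 10 ^ (K + 1 - (b : ℕ)) * n ≤ 10 ^ (K + 1 - (a : ℕ)) * n :=
          Nat.mul_le_mul_right n h6
        have h8 : 10 * 10 ^ (K + 1 - (b : ℕ)) * n = 10 * (10 ^ (K + 1 - (b : ℕ)) * n) := by ring
        omega
  · intro l
    rw [MB, Finset.mem_filter, Finset.mem_Ico] at hm
    have h4 : m ≤ 2 ^ n := by
      have : 2 ^ (i + 1) ≤ 2 ^ n := Nat.pow_le_pow_right (by norm_num) (by omega)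
      omega
    calc m ^ 10 ≤ (2 ^ n) ^ 10 := Nat.pow_le_pow_left h4 10
      _ = 2 ^ (10 * n) := by rw [← pow_mul, mul_comm]
      _ ≤ 2 ^ jj K n i j' l := Nat.pow_le_pow_right (by norm_num) (jj_ge hn hi hj l)

/-- the product over the small large primes -/
noncomputable def P' (j' : Fin K → ℕ) : ℝ := ∏ l, ((PB (j' l)).card : ℝ)

theorem P'_nonneg (j' : Fin K → ℕ) : 0 ≤ P' j' := Finset.prod_nonneg fun _ _ => Nat.cast_nonneg _

theorem prod_jj : ∏ l, ((PB (jj K n i j' l)).card : ℝ) = ((PB (J0 K n j' - i)).card : ℝ) * P' j' := by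
  rw [Fin.prod_univ_succ, jj_zero]
  congr 1

theorem prod_two (hn : 1 ≤ n) (hi : i < n) (hj : j' ∈ JJ K n) :
    (∏ l, (2 : ℝ) ^ jj K n i j' l) * 2 ^ i = 2 ^ (NN K n - (K + 2)) := by
  obtain ⟨h1, h2, h3⟩ := facts hn hi hj
  rw [Finset.prod_pow_eq_pow_sum, ← pow_add]
  congr 1
  rw [Fin.sum_univ_succ, jj_zero]
  have : ∑ l : Fin K, jj K n i j' l.succ = ∑ l, j' l := Finset.sum_congr rfl fun l _ => by rw [jj_succ]
  rw [this]
  omega

theorem i_le (hn : 1 ≤ n) (hi : i < n) (hj : j' ∈ JJ K n) : i ≤ J0 K n j' := by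
  obtain ⟨h1, h2, h3⟩ := facts hn hi hj
  have h4 : n ≤ 10 ^ (K + 1) * n := Nat.le_mul_of_pos_left _ (by positivity)
  omega

/-- main term -/
theorem T1 {jp : ℕ} (hjp : ∀ j : ℕ, jp ≤ j → (1 / 32 : ℝ) * (2 ^ j / j) ≤ ((PB j).card : ℝ) ∧
    ((PB j).card : ℝ) ≤ 2 ^ j / j) (hn : 40 ≤ n) (hnp : jp ≤ n) (hj : j' ∈ JJ K n) :
    P' j' * 2 ^ J0 K n j' / (6400 * 10 ^ (K + 3)) ≤
      ∑ i ∈ range n, ((MB i).card : ℝ) * ∏ l, ((PB (jj K n i j' l)).card : ℝ) := by
  have hn40 : (40 : ℝ) ≤ n := by exact_mod_cast hn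
  have hNN : (NN K n : ℝ) = 10 ^ (K + 3) * n := by rw [NN]; push_cast; ring
  have hNN0 : (0 : ℝ) < NN K n := by rw [hNN]; positivity
  have h1 : ∀ i ∈ Ico 20 n, P' j' * 2 ^ J0 K n j' / (3200 * NN K n) ≤
      ((MB i).card : ℝ) * ∏ l, ((PB (jj K n i j' l)).card : ℝ) := by
    intro i hi
    rw [Finset.mem_Ico] at hi
    have hiJ := i_le (by omega) hi.2 hj
    obtain ⟨g1, g2, g3⟩ := facts (by omega) hi.2 hj
    have h4 : n ≤ 10 ^ (K + 1) * n := Nat.le_mul_of_pos_left _ (by positivity)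
    have h2 := MB_lower i hi.1
    have h3 := (hjp (J0 K n j' - i) (by omega)).1
    have hJpos : (0 : ℝ) < ((J0 K n j' - i : ℕ) : ℝ) := by
      have : 0 < J0 K n j' - i := by omega
      exact_mod_cast this
    have hJN : ((J0 K n j' - i : ℕ) : ℝ) ≤ NN K n := by
      have : J0 K n j' - i ≤ NN K n := by omega
      exact_mod_cast this
    have h5 : (1 / 32 : ℝ) * (2 ^ (J0 K n j' - i) / NN K n) ≤ ((PB (J0 K n j' - i)).card : ℝ) := by
      refine le_trans (mul_le_mul_of_nonneg_left ?_ (by norm_num)) h3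
      exact div_le_div_of_nonneg_left (by positivity) hJpos hJN
    rw [prod_jj]
    have e1 : (2 : ℝ) ^ J0 K n j' = 2 ^ i * 2 ^ (J0 K n j' - i) := by
      rw [← pow_add]; congr 1; omega
    calc P' j' * 2 ^ J0 K n j' / (3200 * NN K n)
        = ((1 / 100 : ℝ) * 2 ^ i) * (((1 / 32 : ℝ) * (2 ^ (J0 K n j' - i) / NN K n)) * P' j') := by
          rw [e1]; field_simp; ring
      _ ≤ _ := mul_le_mul h2 (mul_le_mul_of_nonneg_right h5 (P'_nonneg _))
          (mul_nonneg (by positivity) (P'_nonneg _)) (Nat.cast_nonneg _)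
  have h2 : ∑ i ∈ Ico 20 n, ((MB i).card : ℝ) * ∏ l, ((PB (jj K n i j' l)).card : ℝ) ≤
      ∑ i ∈ range n, ((MB i).card : ℝ) * ∏ l, ((PB (jj K n i j' l)).card : ℝ) := by
    refine Finset.sum_le_sum_of_subset_of_nonneg ?_ fun _ _ _ =>
      mul_nonneg (Nat.cast_nonneg _) (Finset.prod_nonneg fun _ _ => Nat.cast_nonneg _)
    intro i
    simp only [Finset.mem_Ico, Finset.mem_range]
    exact fun h => h.2
  refine le_trans ?_ ((Finset.sum_le_sum h1).trans h2)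
  rw [Finset.sum_const, Nat.card_Ico, nsmul_eq_mul, Nat.cast_sub (by omega)]
  have h3 : 0 ≤ P' j' * 2 ^ J0 K n j' := mul_nonneg (P'_nonneg _) (by positivity)
  have h4 : P' j' * 2 ^ J0 K n j' / (6400 * 10 ^ (K + 3)) =
      (n / 2 : ℝ) * (P' j' * 2 ^ J0 K n j' / (3200 * NN K n)) := by
    rw [hNN]
    field_simp
    ring
  rw [h4]
  refine mul_le_mul_of_nonneg_right ?_ (div_nonneg h3 (by positivity))
  push_cast
  linarith

/-- the bad part -/
theorem T2 {jp : ℕ} (hjp : ∀ j : ℕ, jp ≤ j → (1 / 32 : ℝ) * (2 ^ j / j) ≤ ((PB j).card : ℝ) ∧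
    ((PB j).card : ℝ) ≤ 2 ^ j / j) {CG : ℝ} (hCG : 0 < CG)
    (hG : ∀ Y : ℕ, 2 ≤ Y → ∑ m ∈ (Icc 1 Y).filter (fun m => Odd m ∧ Squarefree m),
      (G m + G' m) / (m : ℝ) ≤ CG * Real.log Y)
    (hn : 1 ≤ n) (hnp : jp ≤ n) (hj : j' ∈ JJ K n) :
    ∑ i ∈ range n, (∏ l, ((PB (jj K n i j' l)).card : ℝ)) * ((1 / 2 : ℝ) ^ K *
      ∑ m ∈ MB i, (G m + G' m)) ≤ P' j' * 2 ^ J0 K n j' * ((1 / 2 : ℝ) ^ K * (4 * CG)) / 10 ^ (K + 3) := by
  have hn' : (1 : ℝ) ≤ n := by exact_mod_cast hn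
  have hNN : (NN K n : ℝ) = 10 ^ (K + 3) * n := by rw [NN]; push_cast; ring
  have hNN0 : (0 : ℝ) < NN K n := by rw [hNN]; positivity
  have hGnn : ∀ m : ℕ, 0 ≤ G m + G' m := fun m => add_nonneg
    (Finset.sum_nonneg fun _ _ => by positivity) (Finset.sum_nonneg fun _ _ => by positivity)
  have h1 : ∀ i ∈ range n, (∏ l, ((PB (jj K n i j' l)).card : ℝ)) * ((1 / 2 : ℝ) ^ K *
      ∑ m ∈ MB i, (G m + G' m)) ≤
      (P' j' * 2 ^ J0 K n j' * ((1 / 2 : ℝ) ^ K * 4) / NN K n) * ∑ m ∈ MB i, (G m + G' m) / (m : ℝ) := by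
    intro i hi
    rw [Finset.mem_range] at hi
    have hiJ := i_le hn hi hj
    obtain ⟨g1, g2, g3⟩ := facts hn hi hj
    have h4 : n ≤ 10 ^ (K + 1) * n := Nat.le_mul_of_pos_left _ (by positivity)
    have h3 := (hjp (J0 K n j' - i) (by omega)).2
    have hJpos : (0 : ℝ) < ((J0 K n j' - i : ℕ) : ℝ) := by
      have : 0 < J0 K n j' - i := by omega
      exact_mod_cast this
    have hJN : (NN K n : ℝ) / 2 ≤ ((J0 K n j' - i : ℕ) : ℝ) := by
      have : NN K n ≤ 2 * (J0 K n j' - i) := by omega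
      have h' : (NN K n : ℝ) ≤ 2 * ((J0 K n j' - i : ℕ) : ℝ) := by exact_mod_cast this
      linarith
    have h5 : ((PB (J0 K n j' - i)).card : ℝ) ≤ 2 ^ (J0 K n j' - i) / (NN K n / 2) :=
      h3.trans (div_le_div_of_nonneg_left (by positivity) (by positivity) hJN)
    have h6 : ∑ m ∈ MB i, (G m + G' m) ≤ 2 ^ (i + 1) * ∑ m ∈ MB i, (G m + G' m) / (m : ℝ) := by
      rw [Finset.mul_sum]
      refine Finset.sum_le_sum fun m hm => ?_
      rw [MB, Finset.mem_filter, Finset.mem_Ico] at hm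
      have hm0 : (0 : ℝ) < m := by
        have : 0 < m := by have := Nat.one_le_two_pow (n := i); omega
        exact_mod_cast this
      have hm1 : (m : ℝ) ≤ 2 ^ (i + 1) := by exact_mod_cast hm.1.2.le
      rw [mul_div_assoc', le_div_iff₀ hm0]
      calc (G m + G' m) * m ≤ (G m + G' m) * 2 ^ (i + 1) := mul_le_mul_of_nonneg_left hm1 (hGnn m)
        _ = _ := by ring
    have h7 : 0 ≤ ∑ m ∈ MB i, (G m + G' m) := Finset.sum_nonneg fun m _ => hGnn m
    rw [prod_jj]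
    have e1 : (2 : ℝ) ^ J0 K n j' = 2 ^ i * 2 ^ (J0 K n j' - i) := by
      rw [← pow_add]; congr 1; omega
    calc (((PB (J0 K n j' - i)).card : ℝ) * P' j') * ((1 / 2 : ℝ) ^ K * ∑ m ∈ MB i, (G m + G' m))
        ≤ ((2 ^ (J0 K n j' - i) / (NN K n / 2)) * P' j') * ((1 / 2 : ℝ) ^ K *
          (2 ^ (i + 1) * ∑ m ∈ MB i, (G m + G' m) / (m : ℝ))) :=
          mul_le_mul (mul_le_mul_of_nonneg_right h5 (P'_nonneg _))
            (mul_le_mul_of_nonneg_left h6 (by positivity)) (by positivity)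
            (mul_nonneg (by positivity) (P'_nonneg _))
      _ = _ := by rw [e1, pow_succ]; field_simp; ring
  refine (Finset.sum_le_sum h1).trans ?_
  rw [← Finset.mul_sum]
  have h2 : ∑ i ∈ range n, ∑ m ∈ MB i, (G m + G' m) / (m : ℝ) ≤ CG * n := by
    have hdisj : Set.PairwiseDisjoint (↑(range n)) MB := by
      intro a _ b _ hab
      rw [Function.onFun, Finset.disjoint_left]
      intro m hm1 hm2
      rw [MB, Finset.mem_filter, Finset.mem_Ico] at hm1 hm2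
      apply hab
      by_contra hcon
      rcases Nat.lt_or_gt_of_ne hcon with h | h
      · have : 2 ^ (a + 1) ≤ 2 ^ b := Nat.pow_le_pow_right (by norm_num) h
        omega
      · have : 2 ^ (b + 1) ≤ 2 ^ a := Nat.pow_le_pow_right (by norm_num) h
        omega
    rw [← Finset.sum_biUnion hdisj]
    have h3 := hG (2 ^ n) (by
      calc 2 = 2 ^ 1 := by norm_num
        _ ≤ 2 ^ n := Nat.pow_le_pow_right (by norm_num) hn)
    have h4 : Real.log ((2 ^ n : ℕ) : ℝ) ≤ n := by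
      push_cast
      rw [Real.log_pow]
      have := Real.log_two_lt_d9
      nlinarith
    refine le_trans (Finset.sum_le_sum_of_subset_of_nonneg ?_ fun m _ _ =>
      div_nonneg (hGnn m) (Nat.cast_nonneg _)) (h3.trans (mul_le_mul_of_nonneg_left h4 hCG.le))
    intro m hm
    rw [Finset.mem_biUnion] at hm
    obtain ⟨i, hi, hm⟩ := hm
    rw [Finset.mem_range] at hi
    rw [MB, Finset.mem_filter, Finset.mem_Ico] at hm
    rw [Finset.mem_filter, Finset.mem_Icc]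
    have h5 : 2 ^ (i + 1) ≤ 2 ^ n := Nat.pow_le_pow_right (by norm_num) hi
    have h6 := Nat.one_le_two_pow (n := i)
    refine ⟨⟨by omega, by omega⟩, ?_, hm.2.1⟩
    rw [Nat.odd_iff]; omega
  have h3 : 0 ≤ P' j' * 2 ^ J0 K n j' := mul_nonneg (P'_nonneg _) (by positivity)
  calc _ ≤ (P' j' * 2 ^ J0 K n j' * ((1 / 2 : ℝ) ^ K * 4) / NN K n) * (CG * n) :=
        mul_le_mul_of_nonneg_left h2 (by positivity)
    _ = _ := by rw [hNN]; field_simp

end

end Vale.Agent.P017.H262
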