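import Vale.Agent.P017.H262.Asm

/-! The number of good pairs `(m, p)`. -/

set_option linter.all false

namespace Vale.Agent.P017.H262

open Finset Real Filter Topology

section
variable {K n i : ℕ} {j' : Fin K → ℕ}

theorem key3 (P T A : ℝ) (h : A ≠ 0) : P * T = T * A * (P / A) := by field_simp

/-- sum over the boxes of the main weight -/
theorem W_sum {jp : ℕ} (hjp : ∀ j : ℕ, jp ≤ j → (1 / 32 : ℝ) * (2 ^ j / j) ≤ ((PB j).card : ℝ) ∧
    ((PB j).card : ℝ) ≤ 2 ^ j / j) (hn : 1 ≤ n) (hnp : jp ≤ n) :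
    (2 : ℝ) ^ (NN K n - (K + 2)) * (1 / 64) ^ K ≤ ∑ j' ∈ JJ K n, P' j' * 2 ^ J0 K n j' := by
  have h1 : ∀ j' ∈ JJ K n, P' j' * 2 ^ J0 K n j' =
      (2 : ℝ) ^ (NN K n - (K + 2)) * ∏ l, (((PB (j' l)).card : ℝ) / 2 ^ j' l) := by
    intro j' hj
    obtain ⟨g1, g2, g3⟩ := facts hn (show 0 < n by omega) hj
    have e1 : (2 : ℝ) ^ (NN K n - (K + 2)) = 2 ^ J0 K n j' * ∏ l, (2 : ℝ) ^ j' l := by
      rw [Finset.prod_pow_eq_pow_sum, ← pow_add]
      congr 1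
      omega
    rw [e1, Finset.prod_div_distrib, P']
    have h0 : (∏ l, (2 : ℝ) ^ j' l) ≠ 0 := Finset.prod_ne_zero_iff.2 fun _ _ => by positivity
    exact key3 _ _ _ h0
  rw [Finset.sum_congr rfl h1, ← Finset.mul_sum]
  refine mul_le_mul_of_nonneg_left ?_ (by positivity)
  have h2 : ∑ j' ∈ JJ K n, ∏ l, (((PB (j' l)).card : ℝ) / 2 ^ j' l) =
      ∏ l : Fin K, ∑ j ∈ Ico (RR K n l) (2 * RR K n l), (((PB j).card : ℝ) / 2 ^ j) := by
    rw [JJ, Finset.prod_univ_sum]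
  rw [h2]
  calc (1 / 64 : ℝ) ^ K = ∏ _l : Fin K, (1 / 64 : ℝ) := by
        rw [Finset.prod_const, Finset.card_univ, Fintype.card_fin]
    _ ≤ _ := by
        refine Finset.prod_le_prod (fun _ _ => by norm_num) fun l _ => ?_
        have hR : 10 * n ≤ RR K n l := Nat.mul_le_mul_right n (ten_le l)
        have hR0 : (0 : ℝ) < RR K n l := by
          have : 0 < RR K n l := by omega
          exact_mod_cast this
        have h3 : ∀ j ∈ Ico (RR K n l) (2 * RR K n l), 1 / (64 * (RR K n l : ℝ)) ≤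
            ((PB j).card : ℝ) / 2 ^ j := by
          intro j hj
          rw [Finset.mem_Ico] at hj
          have h4 := (hjp j (by omega)).1
          have hj0 : (0 : ℝ) < j := by
            have : 0 < j := by omega
            exact_mod_cast this
          have hj2 : (j : ℝ) ≤ 2 * RR K n l := by exact_mod_cast hj.2.le
          rw [le_div_iff₀ (by positivity)]
          refine le_trans ?_ h4
          calc 1 / (64 * (RR K n l : ℝ)) * 2 ^ j = (1 / 32 : ℝ) * (2 ^ j / (2 * RR K n l)) := by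
                field_simp; norm_num
            _ ≤ (1 / 32 : ℝ) * (2 ^ j / j) :=
                mul_le_mul_of_nonneg_left (div_le_div_of_nonneg_left (by positivity) hj0 hj2)
                  (by norm_num)
        have h5 := Finset.sum_le_sum h3
        rw [Finset.sum_const, Nat.card_Ico, nsmul_eq_mul] at h5
        refine le_trans (le_of_eq ?_) h5
        have : 2 * RR K n l - RR K n l = RR K n l := by omega
        rw [this]
        field_simp

theorem JJ_card : ((JJ K n).card : ℝ) ≤ ((10 : ℝ) ^ (K + 1) * n) ^ K := by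
  rw [JJ, Fintype.card_piFinset]
  push_cast
  calc ∏ l : Fin K, ((Ico (RR K n l) (2 * RR K n l)).card : ℝ) ≤ ∏ _l : Fin K, ((10 : ℝ) ^ (K + 1) * n) := by
        refine Finset.prod_le_prod (fun _ _ => Nat.cast_nonneg _) fun l _ => ?_
        rw [Nat.card_Ico]
        have : 2 * RR K n l - RR K n l ≤ 10 ^ (K + 1) * n := by
          have h1 : RR K n l ≤ 10 ^ (K + 1) * n :=
            Nat.mul_le_mul_right n (Nat.pow_le_pow_right (by norm_num) (by omega))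
          omega
        exact_mod_cast this
    _ = _ := by rw [Finset.prod_const, Finset.card_univ, Fintype.card_fin]

open Classical in
/-- good pairs in a box -/
noncomputable def cnt (K n i : ℕ) (j' : Fin K → ℕ) (m : ℕ) : ℕ :=
  ((Fintype.piFinset fun l : Fin (K + 1) => PB (jj K n i j' l)).filter
    (fun p : Fin (K + 1) → ℕ => Redei (m * ∏ l, p l))).card

open Classical in
/-- one `j'` -/
theorem one_j' {C : ℝ} (hC : 0 ≤ C) (hper : ∀ (m : ℕ) (j : Fin (K + 1) → ℕ), 0 < K + 1 → Squarefree m →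
    m % 60 = 23 → Sz m j →
    (1 / 2 : ℝ) ^ ((K + 1) * (K + 1 - 1) / 2) * ((∏ l, ((PB (j l)).card : ℝ)) - bad m j) -
      C * (∏ l, (2 : ℝ) ^ j l) * ∑ l, (2 : ℝ) ^ (-(j l : ℝ) / 10) ≤
    (((Fintype.piFinset fun l => PB (j l)).filter
      (fun p : Fin (K + 1) → ℕ => Redei (m * ∏ l, p l))).card : ℝ))
    {jp : ℕ} (hjp : ∀ j : ℕ, jp ≤ j → (1 / 32 : ℝ) * (2 ^ j / j) ≤ ((PB j).card : ℝ) ∧
    ((PB j).card : ℝ) ≤ 2 ^ j / j) {CG : ℝ} (hCG : 0 < CG)
    (hG : ∀ Y : ℕ, 2 ≤ Y → ∑ m ∈ (Icc 1 Y).filter (fun m => Odd m ∧ Squarefree m),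
      (G m + G' m) / (m : ℝ) ≤ CG * Real.log Y)
    {B jb : ℕ} (hbad : ∀ (n i : ℕ) (j : Fin (K + 1) → ℕ), 1 ≤ n → i < n →
    jb ≤ n → (∀ l, 10 * n ≤ j l) →
    ∑ m ∈ MB i, bad m j ≤ (∏ l, ((PB (j l)).card : ℝ)) * ((1 / 2 : ℝ) ^ (K + 1 - 1) *
      ∑ m ∈ MB i, (G m + G' m)) + 8 * (K + 1 : ℕ) * (∏ l, (2 : ℝ) ^ j l) * 2 ^ i * (i + 2) / (n : ℝ) ^ B)
    (hK : (1 / 2 : ℝ) ^ K * (4 * CG) ≤ 1 / 12800)
    (hn : 40 ≤ n) (hnp : jp ≤ n) (hnb : jb ≤ n) (hj : j' ∈ JJ K n) :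
    (1 / 2 : ℝ) ^ ((K + 1) * (K + 1 - 1) / 2) * (P' j' * 2 ^ J0 K n j' / (12800 * 10 ^ (K + 3)) -
      16 * (K + 1) * 2 ^ (NN K n - (K + 2)) * ((n : ℝ) ^ 2 / (n : ℝ) ^ B)) -
      C * (K + 1) * 2 ^ (NN K n - (K + 2)) * (n * (1 / 2 : ℝ) ^ n) ≤
      ∑ i ∈ range n, ∑ m ∈ MB i, (cnt K n i j' m : ℝ) := by
  have hn1 : 1 ≤ n := by omega
  have hn40 : (40 : ℝ) ≤ n := by exact_mod_cast hn
  set Q : ℝ := (1 / 2 : ℝ) ^ ((K + 1) * (K + 1 - 1) / 2) with hQ
  have hQ0 : 0 < Q := by positivity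
  set D : ℝ := (2 : ℝ) ^ (NN K n - (K + 2)) with hD
  have hD0 : 0 < D := by positivity
  have h1 : ∀ i ∈ range n, Q * (((MB i).card : ℝ) * (∏ l, ((PB (jj K n i j' l)).card : ℝ)) -
      ((∏ l, ((PB (jj K n i j' l)).card : ℝ)) * ((1 / 2 : ℝ) ^ K * ∑ m ∈ MB i, (G m + G' m)) +
        8 * (K + 1) * D * (i + 2) / (n : ℝ) ^ B)) - C * (K + 1) * D * (1 / 2 : ℝ) ^ n ≤
      ∑ m ∈ MB i, (cnt K n i j' m : ℝ) := by
    intro i hi
    rw [Finset.mem_range] at hi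
    have h2 : ∀ m ∈ MB i, Q * ((∏ l, ((PB (jj K n i j' l)).card : ℝ)) - bad m (jj K n i j')) -
        C * (∏ l, (2 : ℝ) ^ jj K n i j' l) * ∑ l, (2 : ℝ) ^ (-(jj K n i j' l : ℝ) / 10) ≤
        (cnt K n i j' m : ℝ) := by
      intro m hm
      have hm' := hm
      rw [MB, Finset.mem_filter] at hm'
      exact hper m (jj K n i j') (by omega) hm'.2.1 hm'.2.2 (sz hn1 hi hj hm)
    have h3 := Finset.sum_le_sum h2
    rw [Finset.sum_sub_distrib, ← Finset.mul_sum, Finset.sum_sub_distrib, Finset.sum_const,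
      Finset.sum_const, nsmul_eq_mul, nsmul_eq_mul] at h3
    have h4 := hbad n i (jj K n i j') hn1 hi hnb (jj_ge hn1 hi hj)
    have h5 : (∏ l, (2 : ℝ) ^ jj K n i j' l) * 2 ^ i = D := prod_two hn1 hi hj
    have e1 : 8 * ((K + 1 : ℕ) : ℝ) * (∏ l, (2 : ℝ) ^ jj K n i j' l) * 2 ^ i * (i + 2) / (n : ℝ) ^ B =
        8 * (K + 1) * D * (i + 2) / (n : ℝ) ^ B := by
      rw [← h5]; push_cast; ring
    rw [e1, Nat.add_sub_cancel] at h4
    have h6 : ((MB i).card : ℝ) * (C * (∏ l, (2 : ℝ) ^ jj K n i j' l) *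
        ∑ l, (2 : ℝ) ^ (-(jj K n i j' l : ℝ) / 10)) ≤ C * (K + 1) * D * (1 / 2 : ℝ) ^ n := by
      have h7 : ((MB i).card : ℝ) ≤ 2 ^ i := by
        have : (MB i).card ≤ 2 ^ i := by
          refine (Finset.card_filter_le _ _).trans ?_
          rw [Nat.card_Ico, pow_succ]; omega
        exact_mod_cast this
      have h8 : ∑ l, (2 : ℝ) ^ (-(jj K n i j' l : ℝ) / 10) ≤ (K + 1) * (1 / 2 : ℝ) ^ n := by
        have : ∀ l ∈ (univ : Finset (Fin (K + 1))), (2 : ℝ) ^ (-(jj K n i j' l : ℝ) / 10) ≤ (1 / 2 : ℝ) ^ n := by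
          intro l _
          have h9 := jj_ge hn1 hi hj l
          have h9' : (10 * n : ℝ) ≤ jj K n i j' l := by exact_mod_cast h9
          have e2 : (1 / 2 : ℝ) ^ n = 2 ^ (-(n : ℝ)) := by
            rw [Real.rpow_neg (by norm_num), Real.rpow_natCast]
            rw [one_div, inv_pow]
          rw [e2]
          apply Real.rpow_le_rpow_of_exponent_le (by norm_num)
          linarith
        have h10 := Finset.sum_le_sum this
        rw [Finset.sum_const, Finset.card_univ, Fintype.card_fin, nsmul_eq_mul] at h10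
        push_cast at h10
        exact h10
      have h9 : 0 ≤ ∏ l, (2 : ℝ) ^ jj K n i j' l := Finset.prod_nonneg fun _ _ => by positivity
      have h10 : 0 ≤ ∑ l, (2 : ℝ) ^ (-(jj K n i j' l : ℝ) / 10) :=
        Finset.sum_nonneg fun _ _ => by positivity
      calc _ ≤ 2 ^ i * (C * (∏ l, (2 : ℝ) ^ jj K n i j' l) * ((K + 1) * (1 / 2 : ℝ) ^ n)) :=
            mul_le_mul h7 (mul_le_mul_of_nonneg_left h8 (mul_nonneg hC h9))
              (mul_nonneg (mul_nonneg hC h9) h10) (by positivity)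
        _ = C * (K + 1) * ((∏ l, (2 : ℝ) ^ jj K n i j' l) * 2 ^ i) * (1 / 2 : ℝ) ^ n := by ring
        _ = _ := by rw [h5]
    have h7 : Q * (((MB i).card : ℝ) * (∏ l, ((PB (jj K n i j' l)).card : ℝ)) -
      ((∏ l, ((PB (jj K n i j' l)).card : ℝ)) * ((1 / 2 : ℝ) ^ K * ∑ m ∈ MB i, (G m + G' m)) +
        8 * (K + 1) * D * (i + 2) / (n : ℝ) ^ B)) ≤
        Q * (((MB i).card : ℝ) * (∏ l, ((PB (jj K n i j' l)).card : ℝ)) -
          ∑ m ∈ MB i, bad m (jj K n i j')) :=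
      mul_le_mul_of_nonneg_left (by linarith) hQ0.le
    linarith
  refine le_trans ?_ (Finset.sum_le_sum h1)
  rw [Finset.sum_sub_distrib, ← Finset.mul_sum, Finset.sum_sub_distrib, Finset.sum_add_distrib,
    Finset.sum_const, Finset.card_range, nsmul_eq_mul]
  have h2 := T1 (j' := j') (K := K) hjp hn hnp hj
  have h3 := T2 (j' := j') (K := K) hjp hCG hG hn1 hnp hj
  have h4 : P' j' * 2 ^ J0 K n j' * ((1 / 2 : ℝ) ^ K * (4 * CG)) / 10 ^ (K + 3) ≤
      P' j' * 2 ^ J0 K n j' / (12800 * 10 ^ (K + 3)) := by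
    have h5 : 0 ≤ P' j' * 2 ^ J0 K n j' := mul_nonneg (P'_nonneg _) (by positivity)
    calc _ ≤ P' j' * 2 ^ J0 K n j' * (1 / 12800) / 10 ^ (K + 3) := by
          refine div_le_div_of_nonneg_right (mul_le_mul_of_nonneg_left hK h5) (by positivity)
      _ = _ := by field_simp
  have h5 : ∑ i ∈ range n, 8 * (K + 1) * D * ((i : ℝ) + 2) / (n : ℝ) ^ B ≤
      16 * (K + 1) * D * ((n : ℝ) ^ 2 / (n : ℝ) ^ B) := by
    have : ∀ i ∈ range n, 8 * (K + 1) * D * ((i : ℝ) + 2) / (n : ℝ) ^ B ≤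
        16 * (K + 1) * D * n / (n : ℝ) ^ B := by
      intro i hi
      rw [Finset.mem_range] at hi
      have hi' : (i : ℝ) ≤ n := by exact_mod_cast hi.le
      refine div_le_div_of_nonneg_right ?_ (by positivity)
      have h6 : 0 ≤ (K + 1 : ℝ) * D := by positivity
      nlinarith
    refine (Finset.sum_le_sum this).trans (le_of_eq ?_)
    rw [Finset.sum_const, Finset.card_range, nsmul_eq_mul]
    ring
  have e3 : P' j' * 2 ^ J0 K n j' / (6400 * 10 ^ (K + 3)) =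
      P' j' * 2 ^ J0 K n j' / (12800 * 10 ^ (K + 3)) + P' j' * 2 ^ J0 K n j' / (12800 * 10 ^ (K + 3)) := by
    field_simp; ring
  have h6 : P' j' * 2 ^ J0 K n j' / (12800 * 10 ^ (K + 3)) -
      16 * (K + 1) * D * ((n : ℝ) ^ 2 / (n : ℝ) ^ B) ≤
      ∑ i ∈ range n, ((MB i).card : ℝ) * (∏ l, ((PB (jj K n i j' l)).card : ℝ)) -
      (∑ i ∈ range n, (∏ l, ((PB (jj K n i j' l)).card : ℝ)) * ((1 / 2 : ℝ) ^ K * ∑ m ∈ MB i, (G m + G' m)) +
        ∑ i ∈ range n, 8 * (K + 1) * D * ((i : ℝ) + 2) / (n : ℝ) ^ B) := by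
    linarith
  have h7 := mul_le_mul_of_nonneg_left h6 hQ0.le
  have e4 : C * (K + 1) * D * (n * (1 / 2 : ℝ) ^ n) = n * (C * (K + 1) * D * (1 / 2 : ℝ) ^ n) := by ring
  rw [e4]
  linarith

end

end Vale.Agent.P017.H262
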