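import Vale.Agent.P017.H262.Blk
import Vale.Agent.P017.H262.Defs
import Vale.Agent.P013.Bdl.B6

/-! Character sums over the primes `≡ 1 mod 60`, on average over the modulus. -/

set_option linter.all false

namespace Vale.Agent.P017.H262

open Finset Real Filter Topology

open scoped NumberTheorySymbols

/-- a residue with symbol `-1` -/
theorem exists_u {e : ℕ} (he2 : 2 ≤ e) (hsq : Squarefree e) (h30 : Nat.Coprime e 30) :
    ∃ u : ℕ, u % 60 = 1 ∧ J(u | e) = -1 := by
  have he1 : e ≠ 1 := by omega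
  have hqp := Nat.minFac_prime he1
  obtain ⟨r, hr⟩ := Nat.minFac_dvd e
  set q := e.minFac with hq
  have hqF := Fact.mk hqp
  have h60 : Nat.Coprime e 60 := by
    have h2 : Nat.Coprime e 2 := Nat.Coprime.coprime_dvd_right (by norm_num) h30
    have : Nat.Coprime e (2 * 30) := Nat.Coprime.mul_right h2 h30
    simpa using this
  have hq2 : q ≠ 2 := by
    intro h
    have : Nat.Coprime q 30 := Nat.Coprime.coprime_dvd_left ⟨r, hr⟩ h30
    rw [h] at this
    norm_num at this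
  have hqr : Nat.Coprime q r := by
    rw [hr] at hsq
    exact Nat.coprime_of_squarefree_mul hsq
  have hr0 : r ≠ 0 := by rintro rfl; rw [mul_zero] at hr; omega
  obtain ⟨v, hv⟩ := FiniteField.exists_nonsquare (F := ZMod q) (by rwa [ZMod.ringChar_zmod_n])
  have hq60 : Nat.Coprime q (60 * r) :=
    Nat.Coprime.mul_right (Nat.Coprime.coprime_dvd_left ⟨r, hr⟩ h60) hqr
  obtain ⟨n, hn1, hn2⟩ := Nat.chineseRemainder hq60 v.val 1
  have hnq : ((n : ℕ) : ZMod q) = v := by
    have := (ZMod.natCast_eq_natCast_iff _ _ _).mpr hn1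
    rw [this]; simp
  refine ⟨n, ?_, ?_⟩
  · have : n ≡ 1 [MOD 60] := hn2.of_mul_right _
    exact this
  · have h1 : J(n | q) = -1 := by
      rw [← jacobiSym.legendreSym.to_jacobiSym, legendreSym.eq_neg_one_iff]
      push_cast
      rw [hnq]
      exact hv
    have h2 : J(n | r) = 1 := by
      have hnr : n ≡ 1 [MOD r] := hn2.of_mul_left _
      have : J(n | r) = J((1 : ℕ) | r) := jacobiSym.mod_left' (by
        have : (n : ℤ) ≡ (1 : ℕ) [ZMOD r] := (Int.natCast_modEq_iff).2 hnr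
        exact this)
      rw [this]
      simp
    have i1 : NeZero q := ⟨hqp.ne_zero⟩
    have i2 : NeZero r := ⟨hr0⟩
    rw [hr, jacobiSym.mul_right, h1, h2, mul_one]

/-- the residues -/
def CC (e : ℕ) : Finset ℕ := (range (60 * e)).filter (fun c => c % 60 = 1)

theorem csum_zero {e : ℕ} (he2 : 2 ≤ e) (hsq : Squarefree e) (h30 : Nat.Coprime e 30) :
    ∑ c ∈ CC e, J(c | e) = 0 := by
  obtain ⟨u, hu60, hu⟩ := exists_u he2 hsq h30
  have he0 : 0 < 60 * e := by omega
  have hue : Nat.Coprime u e := by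
    by_contra h
    have i1 : NeZero e := ⟨by omega⟩
    have : J(u | e) = 0 := by
      rw [jacobiSym.eq_zero_iff_not_coprime]
      intro h'
      apply h
      rw [Int.gcd_natCast_natCast] at h'
      exact h'
    rw [this] at hu
    norm_num at hu
  have hu60' : Nat.Coprime u 60 := by
    rw [Nat.Coprime, Nat.gcd_comm, Nat.gcd_rec, hu60]; norm_num
  have hcop : Nat.Coprime u (60 * e) := Nat.Coprime.mul_right hu60' hue
  have hmod : ∀ c : ℕ, J(((u * c) % (60 * e) : ℕ) | e) = - J(c | e) := by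
    intro c
    have h1 : J(((u * c) % (60 * e) : ℕ) | e) = J(((u * c : ℕ) : ℤ) | e) := jacobiSym.mod_left' (by
      have : (u * c) % (60 * e) ≡ u * c [MOD e] := (Nat.mod_modEq _ _).of_mul_left _
      exact (Int.natCast_modEq_iff).2 this)
    rw [h1]
    push_cast
    rw [jacobiSym.mul_left, hu]
    ring
  have hinj : Set.InjOn (fun c => (u * c) % (60 * e)) (CC e) := by
    intro x hx y hy hxy
    simp only [CC, Finset.coe_filter, Finset.mem_range, Set.mem_setOf_eq] at hx hy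
    have h1 : u * x ≡ u * y [MOD 60 * e] := hxy
    have h2 : x ≡ y [MOD 60 * e] := Nat.ModEq.cancel_left_of_coprime (by
      rw [Nat.gcd_comm]; exact hcop) h1
    exact Nat.ModEq.eq_of_lt_of_lt h2 hx.1 hy.1
  have hmaps : ∀ c ∈ CC e, (u * c) % (60 * e) ∈ CC e := by
    intro c hc
    rw [CC, Finset.mem_filter, Finset.mem_range] at hc ⊢
    refine ⟨Nat.mod_lt _ he0, ?_⟩
    rw [Nat.mod_mod_of_dvd _ (Dvd.intro _ rfl), Nat.mul_mod, hu60, hc.2]
  have hsurj : Set.SurjOn (fun c => (u * c) % (60 * e)) (CC e) (CC e) :=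
    Finset.surjOn_of_injOn_of_card_le _ hmaps hinj le_rfl
  have h1 : ∑ c ∈ CC e, - J(c | e) = ∑ c ∈ CC e, J(c | e) :=
    Finset.sum_nbij (fun c => (u * c) % (60 * e)) hmaps hinj hsurj (fun c _ => (hmod c).symm)
  rw [Finset.sum_neg_distrib] at h1
  linarith

/-- the sum with von Mangoldt weights -/
noncomputable def aL (e n : ℕ) : ℝ :=
  if n % 60 = 1 then ArithmeticFunction.vonMangoldt n * (J(n | e) : ℝ) else 0

theorem S_eq {e : ℕ} (he : 0 < e) (N : ℕ) : ∑ n ∈ Icc 1 N, aL e n =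
    ∑ c ∈ CC e, (J(c | e) : ℝ) * Vale.Agent.P013.J.psiAP N (60 * e) c := by
  have hmaps : ∀ n ∈ (Icc 1 N).filter (fun n => n % 60 = 1), n % (60 * e) ∈ CC e := by
    intro n hn
    rw [Finset.mem_filter] at hn
    rw [CC, Finset.mem_filter, Finset.mem_range]
    refine ⟨Nat.mod_lt _ (by omega), ?_⟩
    rw [Nat.mod_mod_of_dvd _ (Dvd.intro _ rfl), hn.2]
  have e1 : ∑ n ∈ Icc 1 N, aL e n = ∑ n ∈ (Icc 1 N).filter (fun n => n % 60 = 1),
      ArithmeticFunction.vonMangoldt n * (J(n | e) : ℝ) := by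
    rw [Finset.sum_filter]; rfl
  rw [e1, ← Finset.sum_fiberwise_of_maps_to hmaps]
  refine Finset.sum_congr rfl fun c hc => ?_
  rw [CC, Finset.mem_filter, Finset.mem_range] at hc
  rw [Vale.Agent.P013.J.psiAP, Nat.floor_natCast, Finset.mul_sum]
  have e2 : ((Icc 1 N).filter (fun n => n % 60 = 1)).filter (fun n => n % (60 * e) = c) =
      (Icc 1 N).filter (fun n => n ≡ c [MOD 60 * e]) := by
    ext n
    simp only [Finset.mem_filter, Nat.ModEq, Nat.mod_eq_of_lt hc.1]
    constructor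
    · rintro ⟨⟨h1, _⟩, h2⟩; exact ⟨h1, h2⟩
    · rintro ⟨h1, h2⟩
      refine ⟨⟨h1, ?_⟩, h2⟩
      rw [← Nat.mod_mod_of_dvd n (Dvd.intro e rfl : 60 ∣ 60 * e), h2, hc.2]
  rw [e2]
  refine Finset.sum_congr rfl fun n hn => ?_
  rw [Finset.mem_filter] at hn
  have : J(n | e) = J(c | e) := jacobiSym.mod_left' (by
    have : n ≡ c [MOD e] := hn.2.of_mul_left _
    exact (Int.natCast_modEq_iff).2 this)
  rw [this]
  ring

theorem S_le {A x₀ : ℝ} (hSW : ∀ x : ℝ, x₀ ≤ x → ∀ q a : ℕ, 1 ≤ q →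
    (q : ℝ) ≤ (Real.log x) ^ A → Nat.Coprime a q →
    |Vale.Agent.P013.J.psiAP x q a - x / (Nat.totient q : ℝ)| ≤ x / (Real.log x) ^ A) {e N : ℕ}
    (he2 : 2 ≤ e) (hsq : Squarefree e) (h30 : Nat.Coprime e 30) (hN : x₀ ≤ N)
    (he : ((60 * e : ℕ) : ℝ) ≤ (Real.log N) ^ A) (hlog : 0 < Real.log N) :
    |∑ n ∈ Icc 1 N, aL e n| ≤ 60 * e * (N / (Real.log N) ^ A) := by
  rw [S_eq (by omega)]
  have hz : (∑ c ∈ CC e, (J(c | e) : ℝ)) = 0 := by
    have := csum_zero he2 hsq h30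
    exact_mod_cast this
  have e1 : ∑ c ∈ CC e, (J(c | e) : ℝ) * Vale.Agent.P013.J.psiAP N (60 * e) c =
      ∑ c ∈ CC e, (J(c | e) : ℝ) * (Vale.Agent.P013.J.psiAP N (60 * e) c -
        N / (Nat.totient (60 * e) : ℝ)) := by
    have : ∀ c ∈ CC e, (J(c | e) : ℝ) * (Vale.Agent.P013.J.psiAP N (60 * e) c -
        N / (Nat.totient (60 * e) : ℝ)) = (J(c | e) : ℝ) * Vale.Agent.P013.J.psiAP N (60 * e) c -
        (J(c | e) : ℝ) * (N / (Nat.totient (60 * e) : ℝ)) := fun c _ => by ring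
    rw [Finset.sum_congr rfl this, Finset.sum_sub_distrib, ← Finset.sum_mul, hz]
    ring
  rw [e1]
  have hnn : 0 ≤ (N : ℝ) / (Real.log N) ^ A := by positivity
  refine (Finset.abs_sum_le_sum_abs _ _).trans ?_
  have h2 : ∀ c ∈ CC e, |(J(c | e) : ℝ) * (Vale.Agent.P013.J.psiAP N (60 * e) c -
        N / (Nat.totient (60 * e) : ℝ))| ≤ N / (Real.log N) ^ A := by
    intro c hc
    rw [CC, Finset.mem_filter, Finset.mem_range] at hc
    by_cases hJ : J(c | e) = 0
    · rw [hJ]; simpa using hnn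
    · have hce : Nat.Coprime c e := by
        by_contra h
        apply hJ
        have i1 : NeZero e := ⟨by omega⟩
        rw [jacobiSym.eq_zero_iff_not_coprime]
        intro h'
        apply h
        rw [Int.gcd_natCast_natCast] at h'
        exact h'
      have hc60 : Nat.Coprime c 60 := by
        rw [Nat.Coprime, Nat.gcd_comm, Nat.gcd_rec, hc.2]; norm_num
      have h3 := hSW N hN (60 * e) c (by omega) he (Nat.Coprime.mul_right hc60 hce)
      rw [abs_mul]
      calc _ ≤ 1 * |Vale.Agent.P013.J.psiAP N (60 * e) c - N / (Nat.totient (60 * e) : ℝ)| :=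
            mul_le_mul_of_nonneg_right (abs_J_le _ _) (abs_nonneg _)
        _ ≤ _ := by rw [one_mul]; exact h3
  refine (Finset.sum_le_sum h2).trans ?_
  rw [Finset.sum_const, nsmul_eq_mul]
  refine mul_le_mul_of_nonneg_right ?_ hnn
  have : (CC e).card ≤ 60 * e := by
    refine (Finset.card_filter_le _ _).trans ?_
    rw [Finset.card_range]
  exact_mod_cast this

/-- partial summation, local version -/
theorem abel_loc {c v : ℕ → ℝ} {Q : ℝ} {M K : ℕ} (hMK : M ≤ K)
    (hQ : ∀ N, M ≤ N → N ≤ K → |∑ k ∈ Icc 1 N, c k| ≤ Q)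
    (hv : ∀ k, M < k → v (k + 1) ≤ v k) (hv0 : ∀ k, M < k → 0 ≤ v k) :
    |∑ k ∈ Ioc M K, c k * v k| ≤ 2 * Q * v (M + 1) := by
  rw [abel_eq c v M K hMK]
  have h1 : |∑ k ∈ Ioc M K, (∑ i ∈ Icc 1 k, c i) * (v k - v (k + 1))| ≤
      Q * (v (M + 1) - v (K + 1)) := by
    refine (Finset.abs_sum_le_sum_abs _ _).trans ?_
    have h2 : ∀ K, M ≤ K → ∑ k ∈ Ioc M K, (v k - v (k + 1)) = v (M + 1) - v (K + 1) := by
      intro K hK
      induction K, hK using Nat.le_induction with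
      | base => simp
      | succ K hK ih => rw [Finset.sum_Ioc_succ_top (by omega), ih]; ring
    rw [← h2 K hMK, Finset.mul_sum]
    refine Finset.sum_le_sum fun k hk => ?_
    rw [Finset.mem_Ioc] at hk
    have h3 : 0 ≤ v k - v (k + 1) := by linarith [hv k hk.1]
    rw [abs_mul, abs_of_nonneg h3]
    exact mul_le_mul_of_nonneg_right (hQ k hk.1.le hk.2) h3
  have h2 : |(∑ k ∈ Icc 1 K, c k) * v (K + 1)| ≤ Q * v (K + 1) := by
    rw [abs_mul, abs_of_nonneg (hv0 _ (by omega))]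
    exact mul_le_mul_of_nonneg_right (hQ K hMK le_rfl) (hv0 _ (by omega))
  have h3 : |(∑ k ∈ Icc 1 M, c k) * v (M + 1)| ≤ Q * v (M + 1) := by
    rw [abs_mul, abs_of_nonneg (hv0 _ (by omega))]
    exact mul_le_mul_of_nonneg_right (hQ M le_rfl hMK) (hv0 _ (by omega))
  rw [abs_le] at h1 h2 h3 ⊢
  constructor <;> nlinarith [h1.1, h1.2, h2.1, h2.2, h3.1, h3.2]

/-- from von Mangoldt weights to primes -/
theorem SP_le {e j : ℕ} (hj : 2 ≤ j) {Q : ℝ}
    (hQ : ∀ N, 2 ^ j - 1 ≤ N → N ≤ 2 ^ (j + 1) - 1 → |∑ n ∈ Icc 1 N, aL e n| ≤ Q) :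
    |SP j e| ≤ 2 * Q + 2 * √(2 ^ (j + 1)) * (j + 1) := by
  have h2j : 4 ≤ 2 ^ j := by
    calc 4 = 2 ^ 2 := by norm_num
      _ ≤ 2 ^ j := Nat.pow_le_pow_right (by norm_num) hj
  have hjj : 2 ^ (j + 1) = 2 * 2 ^ j := by rw [pow_succ]; ring
  have hQ0 : 0 ≤ Q := (abs_nonneg _).trans (hQ (2 ^ j - 1) le_rfl (by omega))
  have habel := abel_loc (c := aL e) (v := fun n => 1 / Real.log n) (M := 2 ^ j - 1)
    (K := 2 ^ (j + 1) - 1) (by omega) hQ
    (fun k hk => by
      have hk2 : 2 ≤ k := by omega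
      have hk2' : (2 : ℝ) ≤ k := by exact_mod_cast hk2
      refine one_div_le_one_div_of_le (Real.log_pos (by linarith)) ?_
      exact Real.log_le_log (by linarith) (by push_cast; linarith))
    (fun k hk => by
      have hk2 : 2 ≤ k := by omega
      have hk2' : (2 : ℝ) ≤ k := by exact_mod_cast hk2
      have := Real.log_pos (show (1 : ℝ) < k by linarith)
      positivity)
  have e0 : Ioc (2 ^ j - 1) (2 ^ (j + 1) - 1) = Ico (2 ^ j) (2 ^ (j + 1)) := by
    ext n
    simp only [Finset.mem_Ioc, Finset.mem_Ico]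
    omega
  have e00 : 2 ^ j - 1 + 1 = 2 ^ j := by omega
  rw [e0] at habel
  simp only [e00] at habel
  have hlog : 1 ≤ Real.log ((2 ^ j : ℕ) : ℝ) := by
    push_cast
    rw [Real.log_pow]
    have := Real.log_two_gt_d9
    have hj' : (2 : ℝ) ≤ j := by exact_mod_cast hj
    nlinarith
  have h1 : |∑ k ∈ Ico (2 ^ j) (2 ^ (j + 1)), aL e k * (1 / Real.log k)| ≤ 2 * Q := by
    refine habel.trans ?_
    have : 1 / Real.log ((2 ^ j : ℕ) : ℝ) ≤ 1 := by
      rw [div_le_one (by linarith)]; exact hlog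
    nlinarith
  -- the difference
  have e1 : SP j e = ∑ n ∈ Ico (2 ^ j) (2 ^ (j + 1)), aL e n * (1 / Real.log n) -
      ∑ n ∈ (Ico (2 ^ j) (2 ^ (j + 1))).filter (fun n => ¬ n.Prime), aL e n * (1 / Real.log n) := by
    have h2 : ∑ n ∈ Ico (2 ^ j) (2 ^ (j + 1)), aL e n * (1 / Real.log n) =
        ∑ n ∈ (Ico (2 ^ j) (2 ^ (j + 1))).filter (fun n => n.Prime), aL e n * (1 / Real.log n) +
        ∑ n ∈ (Ico (2 ^ j) (2 ^ (j + 1))).filter (fun n => ¬ n.Prime), aL e n * (1 / Real.log n) :=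
      (Finset.sum_filter_add_sum_filter_not _ _ _).symm
    rw [h2, add_sub_cancel_right, SP, PB, ← Finset.filter_filter, Finset.sum_filter]
    refine Finset.sum_congr rfl fun p hp => ?_
    rw [Finset.mem_filter, Finset.mem_Ico] at hp
    unfold aL
    split_ifs with h60
    · rw [ArithmeticFunction.vonMangoldt_apply_prime hp.2]
      have hp2 : (1 : ℝ) < p := by exact_mod_cast hp.2.one_lt
      have := Real.log_pos hp2
      field_simp
    · simp
  have h3 : |∑ n ∈ (Ico (2 ^ j) (2 ^ (j + 1))).filter (fun n => ¬ n.Prime),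
      aL e n * (1 / Real.log n)| ≤ 2 * √(2 ^ (j + 1)) * (j + 1) := by
    refine (Finset.abs_sum_le_sum_abs _ _).trans ?_
    have h4 : ∀ n ∈ (Ico (2 ^ j) (2 ^ (j + 1))).filter (fun n => ¬ n.Prime),
        |aL e n * (1 / Real.log n)| ≤ ArithmeticFunction.vonMangoldt n := by
      intro n hn
      rw [Finset.mem_filter, Finset.mem_Ico] at hn
      have hΛ : 0 ≤ ArithmeticFunction.vonMangoldt n := ArithmeticFunction.vonMangoldt_nonneg
      have hln : 1 ≤ Real.log n := by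
        refine hlog.trans (Real.log_le_log (by positivity) (by exact_mod_cast hn.1.1))
      rw [abs_mul]
      have h5 : |aL e n| ≤ ArithmeticFunction.vonMangoldt n := by
        unfold aL
        split_ifs
        · rw [abs_mul, abs_of_nonneg hΛ]
          exact mul_le_of_le_one_right hΛ (abs_J_le _ _)
        · rw [abs_zero]; exact hΛ
      have h6 : |1 / Real.log n| ≤ 1 := by
        rw [abs_of_nonneg (by positivity), div_le_one (by linarith)]; exact hln
      calc _ ≤ ArithmeticFunction.vonMangoldt n * 1 := mul_le_mul h5 h6 (abs_nonneg _) hΛ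
        _ = _ := mul_one _
    refine (Finset.sum_le_sum h4).trans ?_
    have h7 := Chebyshev.psi_sub_theta_eq_sum_not_prime ((2 ^ (j + 1) : ℕ) : ℝ)
    have h8 := Chebyshev.abs_psi_sub_theta_le_sqrt_mul_log
      (x := ((2 ^ (j + 1) : ℕ) : ℝ)) (by exact_mod_cast Nat.one_le_two_pow)
    rw [h7, Nat.floor_natCast] at h8
    have h9 : ∑ n ∈ (Ico (2 ^ j) (2 ^ (j + 1))).filter (fun n => ¬ n.Prime),
        ArithmeticFunction.vonMangoldt n ≤
        ∑ n ∈ (Ioc 0 (2 ^ (j + 1))).filter (fun n => ¬ n.Prime), ArithmeticFunction.vonMangoldt n := by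
      refine Finset.sum_le_sum_of_subset_of_nonneg ?_
        fun _ _ _ => ArithmeticFunction.vonMangoldt_nonneg
      intro n
      simp only [Finset.mem_filter, Finset.mem_Ico, Finset.mem_Ioc]
      rintro ⟨⟨ha, hb⟩, hc⟩
      exact ⟨⟨by omega, hb.le⟩, hc⟩
    refine h9.trans ((le_abs_self _).trans (h8.trans ?_))
    push_cast
    rw [Real.log_pow]
    refine mul_le_mul_of_nonneg_left ?_ (by positivity)
    push_cast
    have := Real.log_two_lt_d9
    have hj0 : (0 : ℝ) ≤ j := Nat.cast_nonneg j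
    nlinarith
  rw [e1]
  exact (abs_sub _ _).trans (add_le_add h1 h3)

end Vale.Agent.P017.H262
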