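import Vale.Agent.P017.H262.CSum

/-! Character sums over the primes `≡ 1 mod 60`: large moduli and assembly. -/

set_option linter.all false

namespace Vale.Agent.P017.H262

open Finset Real Filter Topology

open scoped NumberTheorySymbols

/-- odd squarefree numbers in a dyadic block -/
def SB (i : ℕ) : Finset ℕ := (Ico (2 ^ i) (2 ^ (i + 1))).filter (fun e => Squarefree e ∧ Odd e)

theorem SB_card (i : ℕ) : ((SB i).card : ℝ) ≤ 2 ^ i := by
  have : (SB i).card ≤ 2 ^ i := by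
    refine (Finset.card_filter_le _ _).trans ?_
    rw [Nat.card_Ico, pow_succ]; omega
  exact_mod_cast this

theorem PB_card (j : ℕ) : ((PB j).card : ℝ) ≤ 2 ^ j := by
  have : (PB j).card ≤ 2 ^ j := by
    refine (Finset.card_filter_le _ _).trans ?_
    rw [Nat.card_Ico, pow_succ]; omega
  exact_mod_cast this

theorem pair2 {C : ℝ} (hC : 1 ≤ C) (hpv : ∀ D : ℤ, Odd D → ¬ IsSquare D → ∀ N : ℕ,
    |∑ n ∈ Icc 1 N, (jf D n : ℝ)| ≤ C * (D.natAbs : ℝ) ^ (3 / 5 : ℝ)) {e e' : ℕ}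
    (he : Squarefree e ∧ Odd e) (he' : Squarefree e' ∧ Odd e') (j : ℕ) :
    |∑ n ∈ OB j, (J(n | e) : ℝ) * (J(n | e') : ℝ)| ≤
      (if e = e' then (2 : ℝ) ^ j else 0) + 2 * C * ((e * e' : ℕ) : ℝ) ^ (3 / 5 : ℝ) := by
  have hnn : (0 : ℝ) ≤ 2 * C * ((e * e' : ℕ) : ℝ) ^ (3 / 5 : ℝ) := by positivity
  split_ifs with h
  · refine (Finset.abs_sum_le_sum_abs _ _).trans ?_
    have : ∑ n ∈ OB j, |(J(n | e) : ℝ) * (J(n | e') : ℝ)| ≤ ∑ n ∈ OB j, (1 : ℝ) := by
      refine Finset.sum_le_sum fun n _ => ?_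
      rw [abs_mul]
      exact mul_le_one₀ (abs_J_le _ _) (abs_nonneg _) (abs_J_le _ _)
    rw [Finset.sum_const, nsmul_eq_mul, mul_one] at this
    linarith [OB_card j]
  · have hodd : Odd (e * e') := he.2.mul he'.2
    have hns : ¬ IsSquare (e * e') := by
      intro hsq
      apply h
      have hg : Nat.gcd e e' ∣ e := Nat.gcd_dvd_left _ _
      obtain ⟨t, ht⟩ := hsq
      -- both are squarefree
      apply Nat.dvd_antisymm
      · rw [← Nat.prod_primeFactors_of_squarefree he.1]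
        refine Finset.prod_primes_dvd _ (fun p hp => (Nat.prime_of_mem_primeFactors hp).prime) ?_
        intro p hp
        have hpp := Nat.prime_of_mem_primeFactors hp
        have hpe := Nat.dvd_of_mem_primeFactors hp
        by_contra hpe'
        have h1 : p ∣ t * t := by rw [← ht]; exact hpe.mul_right _
        have h2 : p ∣ t := by
          rcases (Nat.Prime.dvd_mul hpp).1 h1 with h | h <;> exact h
        have h3 : p * p ∣ e * e' := by rw [ht]; exact Nat.mul_dvd_mul h2 h2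
        have h4 : Nat.Coprime (p * p) e' := by
          have := (Nat.Prime.coprime_iff_not_dvd hpp).2 hpe'
          exact Nat.Coprime.mul_left this this
        have h5 := Nat.Coprime.dvd_of_dvd_mul_right h4 h3
        exact hpp.one_lt.ne' (Nat.isUnit_iff.mp (he.1 p h5))
      · rw [← Nat.prod_primeFactors_of_squarefree he'.1]
        refine Finset.prod_primes_dvd _ (fun p hp => (Nat.prime_of_mem_primeFactors hp).prime) ?_
        intro p hp
        have hpp := Nat.prime_of_mem_primeFactors hp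
        have hpe := Nat.dvd_of_mem_primeFactors hp
        by_contra hpe'
        have h1 : p ∣ t * t := by rw [← ht]; exact hpe.mul_left _
        have h2 : p ∣ t := by
          rcases (Nat.Prime.dvd_mul hpp).1 h1 with h | h <;> exact h
        have h3 : p * p ∣ e * e' := by rw [ht]; exact Nat.mul_dvd_mul h2 h2
        have h4 : Nat.Coprime (p * p) e := by
          have := (Nat.Prime.coprime_iff_not_dvd hpp).2 hpe'
          exact Nat.Coprime.mul_left this this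
        have h5 := Nat.Coprime.dvd_of_dvd_mul_left h4 h3
        exact hpp.one_lt.ne' (Nat.isUnit_iff.mp (he'.1 p h5))
    have e1 : ∑ n ∈ OB j, (J(n | e) : ℝ) * (J(n | e') : ℝ) = ∑ n ∈ OB j, jr (star (e * e')) n := by
      refine Finset.sum_congr rfl fun n hn => ?_
      rw [OB, Finset.mem_filter] at hn
      have i1 : NeZero e := ⟨he.1.ne_zero⟩
      have i2 : NeZero e' := ⟨he'.1.ne_zero⟩
      rw [jr, ← recip hn.2 hodd, jacobiSym.mul_right]
      push_cast
      ring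
    rw [e1, zero_add]
    have h1 := sum_OB_le hpv (star_odd hodd) (star_not_isSquare hodd hns) j
    rw [star_natAbs hodd] at h1
    linarith

/-- the large sieve -/
theorem LSum {C : ℝ} (hC : 1 ≤ C) (hpv : ∀ D : ℤ, Odd D → ¬ IsSquare D → ∀ N : ℕ,
    |∑ n ∈ Icc 1 N, (jf D n : ℝ)| ≤ C * (D.natAbs : ℝ) ^ (3 / 5 : ℝ)) {i j : ℕ} (hij : 10 * i ≤ j) :
    (∑ e ∈ SB i, |SP j e|) ^ 2 ≤ (1 + 32 * C) * (2 ^ i * (2 ^ j) ^ 2) := by
  set σ : ℕ → ℝ := fun e => SignType.sign (SP j e) with hσ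
  have hσ1 : ∀ e, |σ e| ≤ 1 := by
    intro e
    rw [hσ]
    rcases lt_trichotomy (SP j e) 0 with h | h | h
    · simp [h]
    · simp [h]
    · simp [h]
  set c : ℕ → ℝ := fun n => ∑ e ∈ SB i, σ e * (J(n | e) : ℝ) with hc
  have e1 : ∑ e ∈ SB i, |SP j e| = ∑ p ∈ PB j, c p := by
    rw [hc, Finset.sum_comm]
    refine Finset.sum_congr rfl fun e _ => ?_
    rw [← Finset.mul_sum, hσ]
    simp only
    rw [show ∑ p ∈ PB j, (J(p | e) : ℝ) = SP j e from rfl]
    exact (sign_mul_self (SP j e)).symm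
  rw [e1]
  have h1 : (∑ p ∈ PB j, c p) ^ 2 ≤ ((PB j).card : ℝ) * ∑ p ∈ PB j, c p ^ 2 := sq_sum_le_card_mul_sum_sq
  have h2 : ∑ p ∈ PB j, c p ^ 2 ≤ ∑ n ∈ OB j, c n ^ 2 := by
    refine Finset.sum_le_sum_of_subset_of_nonneg ?_ fun _ _ _ => sq_nonneg _
    intro p hp
    rw [PB, Finset.mem_filter] at hp
    rw [OB, Finset.mem_filter]
    refine ⟨hp.1, ?_⟩
    rw [Nat.odd_iff]
    omega
  have h3 : ∑ n ∈ OB j, c n ^ 2 = ∑ x ∈ SB i ×ˢ SB i, (σ x.1 * σ x.2) *
      ∑ n ∈ OB j, (J(n | x.1) : ℝ) * (J(n | x.2) : ℝ) := by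
    have : ∀ n ∈ OB j, c n ^ 2 = ∑ x ∈ SB i ×ˢ SB i, (σ x.1 * σ x.2) *
        ((J(n | x.1) : ℝ) * (J(n | x.2) : ℝ)) := by
      intro n _
      rw [hc]
      simp only
      rw [sq, Finset.sum_mul_sum, Finset.sum_product]
      refine Finset.sum_congr rfl fun e _ => Finset.sum_congr rfl fun e' _ => ?_
      ring
    rw [Finset.sum_congr rfl this, Finset.sum_comm]
    refine Finset.sum_congr rfl fun x _ => ?_
    rw [Finset.mul_sum]
  have h4 : ∀ x ∈ SB i ×ˢ SB i, (σ x.1 * σ x.2) *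
      ∑ n ∈ OB j, (J(n | x.1) : ℝ) * (J(n | x.2) : ℝ) ≤
      (if x.1 = x.2 then (2 : ℝ) ^ j else 0) + 2 * C * (16 * (2 : ℝ) ^ ((16 / 5 - 2 : ℝ) * i)) := by
    intro x hx
    rw [Finset.mem_product, SB, Finset.mem_filter, Finset.mem_filter, Finset.mem_Ico,
      Finset.mem_Ico] at hx
    obtain ⟨⟨⟨_, hx1⟩, hx2⟩, ⟨_, hx3⟩, hx4⟩ := hx
    have h5 := pair2 hC hpv hx2 hx4 j
    have h6 : |σ x.1 * σ x.2| ≤ 1 := by
      rw [abs_mul]; exact mul_le_one₀ (hσ1 _) (abs_nonneg _) (hσ1 _)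
    have h7 : ((x.1 * x.2 : ℕ) : ℝ) ^ (3 / 5 : ℝ) ≤ 16 * (2 : ℝ) ^ ((16 / 5 - 2 : ℝ) * i) := by
      have h8 : ((x.1 * x.2 : ℕ) : ℝ) ≤ 2 ^ (i + 1) * 2 ^ (i + 1) := by
        exact_mod_cast Nat.mul_le_mul hx1.le hx3.le
      have h9 := Real.rpow_le_rpow (Nat.cast_nonneg _) h8 (by norm_num : (0 : ℝ) ≤ 3 / 5)
      refine h9.trans ?_
      rw [← pow_add, ← Real.rpow_natCast, ← Real.rpow_mul (by norm_num)]
      have e3 : (((i + 1 + (i + 1) : ℕ) : ℝ) * (3 / 5)) = (6 / 5 : ℝ) + (16 / 5 - 2 : ℝ) * i := by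
        push_cast; ring
      rw [e3, Real.rpow_add (by norm_num)]
      refine mul_le_mul_of_nonneg_right ?_ (by positivity)
      calc (2 : ℝ) ^ (6 / 5 : ℝ) ≤ 2 ^ (4 : ℝ) :=
            Real.rpow_le_rpow_of_exponent_le (by norm_num) (by norm_num)
        _ = 16 := by norm_num
    calc _ ≤ |(σ x.1 * σ x.2) * ∑ n ∈ OB j, (J(n | x.1) : ℝ) * (J(n | x.2) : ℝ)| := le_abs_self _
      _ ≤ 1 * |∑ n ∈ OB j, (J(n | x.1) : ℝ) * (J(n | x.2) : ℝ)| := by
          rw [abs_mul]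
          exact mul_le_mul_of_nonneg_right h6 (abs_nonneg _)
      _ ≤ _ := by
          rw [one_mul]
          refine h5.trans (add_le_add le_rfl ?_)
          exact mul_le_mul_of_nonneg_left h7 (by linarith)
  have h5 : ∑ n ∈ OB j, c n ^ 2 ≤ (1 + 32 * C) * (2 ^ i * 2 ^ j) := by
    rw [h3]
    refine (Finset.sum_le_sum h4).trans ?_
    rw [Finset.sum_add_distrib, Finset.sum_const, nsmul_eq_mul, Finset.card_product]
    have h6 : ∑ x ∈ SB i ×ˢ SB i, (if x.1 = x.2 then (2 : ℝ) ^ j else 0) ≤ 2 ^ i * 2 ^ j := by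
      rw [Finset.sum_product]
      have : ∀ x ∈ SB i, ∑ y ∈ SB i, (if x = y then (2 : ℝ) ^ j else 0) = 2 ^ j := by
        intro x hx
        rw [Finset.sum_ite_eq, if_pos hx]
      rw [Finset.sum_congr rfl this, Finset.sum_const, nsmul_eq_mul]
      exact mul_le_mul_of_nonneg_right (SB_card i) (by positivity)
    have h7 : (((SB i).card * (SB i).card : ℕ) : ℝ) ≤ 2 ^ i * 2 ^ i := by
      push_cast
      exact mul_le_mul (SB_card i) (SB_card i) (Nat.cast_nonneg _) (by positivity)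
    have h8 : (2 : ℝ) ^ i * 2 ^ i * (2 : ℝ) ^ ((16 / 5 - 2 : ℝ) * i) ≤ 2 ^ i * 2 ^ j := by
      rw [mul_assoc]
      refine mul_le_mul_of_nonneg_left ?_ (by positivity)
      rw [← Real.rpow_natCast, ← Real.rpow_natCast, ← Real.rpow_add (by norm_num)]
      apply Real.rpow_le_rpow_of_exponent_le (by norm_num)
      have : (10 * i : ℝ) ≤ j := by exact_mod_cast hij
      have hi : (0 : ℝ) ≤ i := Nat.cast_nonneg i
      linarith
    calc _ ≤ 2 ^ i * 2 ^ j + (2 ^ i * 2 ^ i) * (2 * C * (16 * (2 : ℝ) ^ ((16 / 5 - 2 : ℝ) * i))) :=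
          add_le_add h6 (mul_le_mul_of_nonneg_right h7 (by positivity))
      _ = 2 ^ i * 2 ^ j + 32 * C * ((2 : ℝ) ^ i * 2 ^ i * (2 : ℝ) ^ ((16 / 5 - 2 : ℝ) * i)) := by ring
      _ ≤ 2 ^ i * 2 ^ j + 32 * C * (2 ^ i * 2 ^ j) :=
          add_le_add le_rfl (mul_le_mul_of_nonneg_left h8 (by linarith))
      _ = _ := by ring
  calc _ ≤ ((PB j).card : ℝ) * ∑ p ∈ PB j, c p ^ 2 := h1
    _ ≤ 2 ^ j * ((1 + 32 * C) * (2 ^ i * 2 ^ j)) :=
        mul_le_mul (PB_card j) (h2.trans h5) (Finset.sum_nonneg fun _ _ => sq_nonneg _) (by positivity)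
    _ = _ := by ring

/-- large moduli -/
theorem large_part : ∃ K : ℝ, 0 < K ∧ ∀ j Y T : ℕ, Y ^ 10 ≤ 2 ^ j → 1 ≤ T →
    ∑ e ∈ ((Icc 2 Y).filter (fun e => Squarefree e ∧ Nat.Coprime e 30)).filter (fun e => T < e),
      |SP j e| / (e : ℝ) ≤ K * (j + 1) * 2 ^ j / √T := by
  obtain ⟨C, hC, hpv⟩ := pv
  set K : ℝ := √(1 + 32 * C) * 2 with hK
  refine ⟨K, by positivity, fun j Y T hYj hT => ?_⟩
  have hT' : (1 : ℝ) ≤ T := by exact_mod_cast hT
  set F := ((Icc 2 Y).filter (fun e => Squarefree e ∧ Nat.Coprime e 30)).filter (fun e => T < e) with hF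
  have hmem : ∀ e ∈ F, 2 ≤ e ∧ e ≤ Y ∧ Squarefree e ∧ Odd e ∧ T < e := by
    intro e he
    rw [hF, Finset.mem_filter, Finset.mem_filter, Finset.mem_Icc] at he
    obtain ⟨⟨⟨h1, h2⟩, h3, h4⟩, h5⟩ := he
    refine ⟨h1, h2, h3, ?_, h5⟩
    exact Nat.coprime_two_right.1 (Nat.Coprime.coprime_dvd_right (by norm_num) h4)
  have hlogmem : ∀ e ∈ F, Nat.log 2 e ∈ Finset.range (j + 1) := by
    intro e he
    obtain ⟨h1, h2, _⟩ := hmem e he
    rw [Finset.mem_range, Nat.lt_succ_iff]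
    have h3 : 2 ^ Nat.log 2 e ≤ e := Nat.pow_log_le_self 2 (by omega)
    have h4 : 2 ^ Nat.log 2 e ≤ 2 ^ j := by
      calc 2 ^ Nat.log 2 e ≤ e := h3
        _ ≤ Y := h2
        _ ≤ Y ^ 10 := Nat.le_self_pow (by norm_num) Y
        _ ≤ 2 ^ j := hYj
    exact (Nat.pow_le_pow_iff_right (by norm_num)).1 h4
  rw [← Finset.sum_fiberwise_of_maps_to hlogmem]
  have hfib : ∀ i ∈ Finset.range (j + 1), ∑ e ∈ F.filter (fun e => Nat.log 2 e = i),
      |SP j e| / (e : ℝ) ≤ K * 2 ^ j / √T := by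
    intro i _
    rcases Finset.eq_empty_or_nonempty (F.filter (fun e => Nat.log 2 e = i)) with h0 | ⟨e₀, he₀⟩
    · rw [h0, Finset.sum_empty]; positivity
    · rw [Finset.mem_filter] at he₀
      obtain ⟨hm, hi⟩ := he₀
      obtain ⟨g1, g2, g3, g4, g5⟩ := hmem e₀ hm
      have k1 : 2 ^ i ≤ e₀ := by rw [← hi]; exact Nat.pow_log_le_self 2 (by omega)
      have k2 : e₀ < 2 ^ (i + 1) := by rw [← hi]; exact Nat.lt_pow_succ_log_self (by norm_num) _
      have hij : 10 * i ≤ j := by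
        have : 2 ^ (10 * i) ≤ 2 ^ j := by
          calc 2 ^ (10 * i) = (2 ^ i) ^ 10 := by rw [← pow_mul, mul_comm]
            _ ≤ Y ^ 10 := Nat.pow_le_pow_left (k1.trans g2) 10
            _ ≤ 2 ^ j := hYj
        exact (Nat.pow_le_pow_iff_right (by norm_num)).1 this
      have hTi : (T : ℝ) ≤ 2 * 2 ^ i := by
        have : T ≤ 2 ^ (i + 1) := (g5.trans k2).le
        have h' : (T : ℝ) ≤ 2 ^ (i + 1) := by exact_mod_cast this
        rw [pow_succ] at h'
        linarith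
      have h1 : ∑ e ∈ F.filter (fun e => Nat.log 2 e = i), |SP j e| / (e : ℝ) ≤
          ∑ e ∈ SB i, |SP j e| * (1 / 2 ^ i) := by
        refine le_trans (Finset.sum_le_sum (g := fun e => |SP j e| * (1 / 2 ^ i)) fun e he => ?_)
          (Finset.sum_le_sum_of_subset_of_nonneg ?_ fun _ _ _ => by positivity)
        · rw [Finset.mem_filter] at he
          obtain ⟨q1, _⟩ := hmem e he.1
          have k3 : 2 ^ i ≤ e := by rw [← he.2]; exact Nat.pow_log_le_self 2 (by omega)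
          have k3' : (2 : ℝ) ^ i ≤ e := by exact_mod_cast k3
          rw [div_eq_mul_one_div]
          exact mul_le_mul_of_nonneg_left (one_div_le_one_div_of_le (by positivity) k3') (abs_nonneg _)
        · intro e he
          rw [Finset.mem_filter] at he
          obtain ⟨q1, q2, q3, q4, q5⟩ := hmem e he.1
          rw [SB, Finset.mem_filter, Finset.mem_Ico]
          refine ⟨⟨?_, ?_⟩, q3, q4⟩
          · rw [← he.2]; exact Nat.pow_log_le_self 2 (by omega)
          · rw [← he.2]; exact Nat.lt_pow_succ_log_self (by norm_num) _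
      refine h1.trans ?_
      rw [← Finset.sum_mul]
      have h2 := LSum hC hpv hij
      have h3 : ∑ e ∈ SB i, |SP j e| ≤ √(1 + 32 * C) * (√(2 ^ i) * 2 ^ j) := by
        have h4 : 0 ≤ ∑ e ∈ SB i, |SP j e| := Finset.sum_nonneg fun _ _ => abs_nonneg _
        have h5 := Real.sqrt_le_sqrt h2
        rw [Real.sqrt_sq h4, Real.sqrt_mul (by linarith), Real.sqrt_mul (by positivity),
          Real.sqrt_sq (by positivity)] at h5
        exact h5
      have h4 : √(T : ℝ) ≤ 2 * √(2 ^ i) := by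
        rw [Real.sqrt_le_iff]
        constructor
        · positivity
        · rw [mul_pow, Real.sq_sqrt (by positivity)]
          nlinarith [show (0 : ℝ) < 2 ^ i by positivity]
      have hTs : 0 < √(T : ℝ) := Real.sqrt_pos.2 (by linarith)
      have h2i : 0 < √((2 : ℝ) ^ i) := Real.sqrt_pos.2 (by positivity)
      calc (∑ e ∈ SB i, |SP j e|) * (1 / 2 ^ i)
          ≤ (√(1 + 32 * C) * (√(2 ^ i) * 2 ^ j)) * (1 / 2 ^ i) :=
            mul_le_mul_of_nonneg_right h3 (by positivity)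
        _ = √(1 + 32 * C) * 2 ^ j * (1 / √(2 ^ i)) := by
            have : (2 : ℝ) ^ i = √(2 ^ i) * √(2 ^ i) := (Real.mul_self_sqrt (by positivity)).symm
            field_simp
            rw [Real.sq_sqrt (by positivity)]
        _ ≤ √(1 + 32 * C) * 2 ^ j * (2 / √T) := by
            refine mul_le_mul_of_nonneg_left ?_ (by positivity)
            rw [div_le_div_iff₀ h2i hTs]
            linarith
        _ = _ := by rw [hK]; ring
  refine (Finset.sum_le_sum hfib).trans (le_of_eq ?_)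
  rw [Finset.sum_const, Finset.card_range, nsmul_eq_mul]
  push_cast
  ring

end Vale.Agent.P017.H262
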