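import Vale.Agent.P017.H262.CSum2

/-! Character sums over the primes `≡ 1 mod 60`: assembly. -/

set_option linter.all false

namespace Vale.Agent.P017.H262

open Finset Real Filter Topology

open scoped NumberTheorySymbols

theorem ev_exp (B : ℕ) : ∀ᶠ j : ℕ in atTop,
    (j : ℝ) ^ (2 * B + 6) * (2 * √(2 ^ (j + 1)) * (j + 1)) ≤ 1 / 4 * (2 ^ j / (j : ℝ) ^ B) := by
  have h := tendsto_pow_const_div_const_pow_of_one_lt (3 * B + 7) (r := √2) (by
    rw [Real.lt_sqrt (by norm_num)]; norm_num)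
  have h1 := h.eventually (gt_mem_nhds (show (0 : ℝ) < 1 / 32 by norm_num))
  filter_upwards [h1, eventually_ge_atTop 1] with j hj hj1
  have hj1' : (1 : ℝ) ≤ j := by exact_mod_cast hj1
  have hj0 : (0 : ℝ) < j := by linarith
  have hs : (0 : ℝ) < √2 := Real.sqrt_pos.2 (by norm_num)
  have hs2 : √2 * √2 = (2 : ℝ) := Real.mul_self_sqrt (by norm_num)
  have hs3 : √2 ≤ (2 : ℝ) := by
    rw [Real.sqrt_le_iff]; norm_num
  set r : ℝ := √2 ^ j with hr
  have hr0 : 0 < r := by positivity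
  rw [div_lt_iff₀ hr0] at hj
  have e1 : √((2 : ℝ) ^ (j + 1)) = √2 * r := by
    have : (2 : ℝ) ^ (j + 1) = (√2 * r) ^ 2 := by
      rw [mul_pow, Real.sq_sqrt (by norm_num), hr, ← pow_mul, mul_comm j 2, pow_mul,
        Real.sq_sqrt (by norm_num), pow_succ]
      ring
    rw [this, Real.sqrt_sq (by positivity)]
  have e2 : (2 : ℝ) ^ j = r * r := by
    rw [hr, ← mul_pow, hs2]
  rw [e1, e2, mul_div_assoc', le_div_iff₀ (by positivity)]
  have h2 : (j : ℝ) ^ (2 * B + 6) * (2 * (√2 * r) * (j + 1)) * (j : ℝ) ^ B ≤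
      (j : ℝ) ^ (3 * B + 7) * (8 * r) := by
    have e3 : (j : ℝ) ^ (3 * B + 7) = (j : ℝ) ^ (2 * B + 6) * j * (j : ℝ) ^ B := by
      rw [← pow_succ, ← pow_add]; congr 1; ring
    have h3 : 2 * (√2 * r) * (j + 1) ≤ j * (8 * r) := by
      calc 2 * (√2 * r) * (j + 1) ≤ 2 * (2 * r) * (2 * j) := by
            refine mul_le_mul ?_ (by linarith) (by linarith) (by positivity)
            have := mul_le_mul_of_nonneg_right hs3 hr0.le
            linarith
        _ = j * (8 * r) := by ring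
    calc (j : ℝ) ^ (2 * B + 6) * (2 * (√2 * r) * (j + 1)) * (j : ℝ) ^ B
        ≤ (j : ℝ) ^ (2 * B + 6) * (j * (8 * r)) * (j : ℝ) ^ B :=
          mul_le_mul_of_nonneg_right (mul_le_mul_of_nonneg_left h3 (by positivity)) (by positivity)
      _ = _ := by rw [e3]; ring
  refine h2.trans ?_
  nlinarith

/-- **[C1]** -/
theorem charSum : CharSumStmt := by
  intro B
  obtain ⟨K, hK, hlarge⟩ := large_part
  set A : ℕ := 3 * B + 8 with hA
  obtain ⟨x₀, hSW⟩ := Vale.Agent.P013.J.sw (A : ℝ) (by rw [hA]; positivity)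
  have hev : ∀ᶠ j : ℕ in atTop, ⌈x₀⌉₊ ≤ j ∧ 2 ≤ j ∧ 960 * 4 ^ A ≤ j ∧ ⌈4 * K⌉₊ ≤ j ∧
      (j : ℝ) ^ (2 * B + 6) * (2 * √(2 ^ (j + 1)) * (j + 1)) ≤ 1 / 4 * (2 ^ j / (j : ℝ) ^ B) := by
    filter_upwards [eventually_ge_atTop ⌈x₀⌉₊, eventually_ge_atTop 2,
      eventually_ge_atTop (960 * 4 ^ A), eventually_ge_atTop ⌈4 * K⌉₊, ev_exp B] with j h1 h2 h3 h4 h5
    exact ⟨h1, h2, h3, h4, h5⟩
  obtain ⟨j₀, hj₀⟩ := eventually_atTop.1 hev
  refine ⟨j₀, fun j hj Y hY => ?_⟩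
  obtain ⟨h1, h2, h3, h4, h5⟩ := hj₀ j hj
  have hj2 : (2 : ℝ) ≤ j := by exact_mod_cast h2
  have hj0 : (0 : ℝ) < j := by linarith
  have h3' : (960 : ℝ) * 4 ^ A ≤ j := by exact_mod_cast h3
  have h4' : 4 * K ≤ j := (Nat.le_ceil _).trans (by exact_mod_cast h4)
  have h1' : x₀ ≤ j := (Nat.le_ceil _).trans (by exact_mod_cast h1)
  have h4A : (1 : ℝ) ≤ 4 ^ A := one_le_pow₀ (by norm_num)
  set T : ℕ := j ^ (2 * B + 6) with hT
  have hT1 : 1 ≤ T := Nat.one_le_iff_ne_zero.2 (pow_ne_zero _ (by omega))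
  have hTr : (T : ℝ) = (j : ℝ) ^ (2 * B + 6) := by rw [hT]; push_cast; rfl
  set F := (Icc 2 Y).filter (fun e => Squarefree e ∧ Nat.Coprime e 30) with hF
  have hsplit : ∑ e ∈ F, |SP j e| / (e : ℝ) = ∑ e ∈ F.filter (fun e => T < e), |SP j e| / (e : ℝ) +
      ∑ e ∈ F.filter (fun e => ¬ T < e), |SP j e| / (e : ℝ) :=
    (Finset.sum_filter_add_sum_filter_not _ _ _).symm
  -- large
  have hL : ∑ e ∈ F.filter (fun e => T < e), |SP j e| / (e : ℝ) ≤ 1 / 2 * (2 ^ j / (j : ℝ) ^ B) := by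
    refine (hlarge j Y T hY hT1).trans ?_
    have e1 : √(T : ℝ) = (j : ℝ) ^ (B + 3) := by
      have : (T : ℝ) = ((j : ℝ) ^ (B + 3)) ^ 2 := by
        rw [hTr, ← pow_mul]; congr 1; ring
      rw [this, Real.sqrt_sq (by positivity)]
    rw [e1, pow_add, mul_div_assoc', div_le_div_iff₀ (by positivity) (by positivity)]
    have h6 : K * (j + 1) ≤ 1 / 2 * (j : ℝ) ^ 3 := by
      have : K * (j + 1) ≤ (j / 4) * (2 * j) := by
        refine mul_le_mul (by linarith) (by linarith) (by linarith) (by linarith)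
      nlinarith [sq_nonneg (j : ℝ)]
    have h7 : 0 ≤ (2 : ℝ) ^ j * (j : ℝ) ^ B := by positivity
    calc K * (j + 1) * 2 ^ j * (j : ℝ) ^ B = (K * (j + 1)) * (2 ^ j * (j : ℝ) ^ B) := by ring
      _ ≤ (1 / 2 * (j : ℝ) ^ 3) * (2 ^ j * (j : ℝ) ^ B) := mul_le_mul_of_nonneg_right h6 h7
      _ = _ := by ring
  -- small
  have hS : ∀ e ∈ F.filter (fun e => ¬ T < e), |SP j e| / (e : ℝ) ≤
      240 * 4 ^ A * (2 ^ j / (j : ℝ) ^ A) + 2 * √(2 ^ (j + 1)) * (j + 1) := by
    intro e he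
    rw [Finset.mem_filter, hF, Finset.mem_filter, Finset.mem_Icc, not_lt] at he
    obtain ⟨⟨⟨he2, _⟩, hsq, h30⟩, heT⟩ := he
    have he2' : (2 : ℝ) ≤ e := by exact_mod_cast he2
    have heT' : (e : ℝ) ≤ (j : ℝ) ^ (2 * B + 6) := by rw [← hTr]; exact_mod_cast heT
    have h2j : j < 2 ^ j := Nat.lt_two_pow_self
    have hQ : ∀ N, 2 ^ j - 1 ≤ N → N ≤ 2 ^ (j + 1) - 1 → |∑ n ∈ Icc 1 N, aL e n| ≤
        60 * e * (2 ^ (j + 1) / ((j : ℝ) / 4) ^ A) := by
      intro N hN1 hN2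
      have hNlog : (j : ℝ) / 4 ≤ Real.log N := by
        have h6 : 2 ^ (j - 1) ≤ N := by
          have : 2 ^ j = 2 * 2 ^ (j - 1) := by
            rw [← pow_succ']; congr 1; omega
          have h8 : 1 ≤ 2 ^ (j - 1) := Nat.one_le_two_pow
          omega
        have h7 : Real.log ((2 ^ (j - 1) : ℕ) : ℝ) ≤ Real.log N :=
          Real.log_le_log (by positivity) (by exact_mod_cast h6)
        push_cast at h7
        rw [Real.log_pow, Nat.cast_sub (by omega)] at h7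
        have := Real.log_two_gt_d9
        push_cast at h7
        nlinarith
      have hlog0 : 0 < Real.log N := by linarith
      have hpow : ((j : ℝ) / 4) ^ A ≤ (Real.log N) ^ A := pow_le_pow_left₀ (by positivity) hNlog A
      have hcond : ((60 * e : ℕ) : ℝ) ≤ (Real.log N) ^ (A : ℝ) := by
        rw [Real.rpow_natCast]
        refine le_trans ?_ hpow
        push_cast
        rw [div_pow, le_div_iff₀ (by positivity)]
        have e5 : (j : ℝ) ^ A = (j : ℝ) ^ (2 * B + 6) * (j : ℝ) ^ (B + 1) * j := by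
          rw [← pow_add, ← pow_succ]; congr 1; rw [hA]; ring
        have h6 : (1 : ℝ) ≤ (j : ℝ) ^ (B + 1) := one_le_pow₀ (by linarith)
        have h7 : (0 : ℝ) ≤ (j : ℝ) ^ (2 * B + 6) := by positivity
        calc 60 * (e : ℝ) * 4 ^ A = e * (60 * 4 ^ A) := by ring
          _ ≤ (j : ℝ) ^ (2 * B + 6) * j := by
              refine mul_le_mul heT' (by linarith) (by positivity) h7
          _ ≤ (j : ℝ) ^ (2 * B + 6) * (j : ℝ) ^ (B + 1) * j := by
              refine mul_le_mul_of_nonneg_right ?_ hj0.le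
              exact le_mul_of_one_le_right h7 h6
          _ = _ := e5.symm
      have hNx : x₀ ≤ N := by
        have : j ≤ N := by omega
        exact h1'.trans (by exact_mod_cast this)
      have h6 := S_le (A := (A : ℝ)) hSW he2 hsq h30 hNx hcond hlog0
      refine h6.trans ?_
      rw [Real.rpow_natCast]
      refine mul_le_mul_of_nonneg_left ?_ (by positivity)
      have hN3 : (N : ℝ) ≤ 2 ^ (j + 1) := by
        have : N ≤ 2 ^ (j + 1) := by omega
        exact_mod_cast this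
      exact div_le_div₀ (by positivity) hN3 (by positivity) hpow
    have h6 := SP_le h2 hQ
    rw [div_le_iff₀ (by linarith)]
    refine h6.trans ?_
    have h7 : 0 ≤ 2 * √((2 : ℝ) ^ (j + 1)) * (j + 1) := by positivity
    have e6 : 2 * (60 * e * (2 ^ (j + 1) / ((j : ℝ) / 4) ^ A)) = 240 * 4 ^ A * (2 ^ j / (j : ℝ) ^ A) * e := by
      rw [div_pow, pow_succ]
      field_simp
      ring
    rw [e6, add_mul]
    refine add_le_add le_rfl ?_
    exact le_mul_of_one_le_right h7 (by linarith)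
  have hS' : ∑ e ∈ F.filter (fun e => ¬ T < e), |SP j e| / (e : ℝ) ≤ 1 / 2 * (2 ^ j / (j : ℝ) ^ B) := by
    refine (Finset.sum_le_sum hS).trans ?_
    rw [Finset.sum_const, nsmul_eq_mul]
    have hcard : ((F.filter (fun e => ¬ T < e)).card : ℝ) ≤ (j : ℝ) ^ (2 * B + 6) := by
      rw [← hTr]
      have : (F.filter (fun e => ¬ T < e)).card ≤ T := by
        calc (F.filter (fun e => ¬ T < e)).card ≤ (Icc 1 T).card := by
              refine Finset.card_le_card fun e he => ?_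
              rw [Finset.mem_filter, hF, Finset.mem_filter, Finset.mem_Icc, not_lt] at he
              rw [Finset.mem_Icc]
              exact ⟨by omega, he.2⟩
          _ = T := by simp
      exact_mod_cast this
    have h7 : (0 : ℝ) ≤ 240 * 4 ^ A * (2 ^ j / (j : ℝ) ^ A) + 2 * √(2 ^ (j + 1)) * (j + 1) := by
      positivity
    refine (mul_le_mul_of_nonneg_right hcard h7).trans ?_
    rw [mul_add]
    have h8 : (j : ℝ) ^ (2 * B + 6) * (240 * 4 ^ A * (2 ^ j / (j : ℝ) ^ A)) ≤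
        1 / 4 * (2 ^ j / (j : ℝ) ^ B) := by
      have e5 : (j : ℝ) ^ A = (j : ℝ) ^ (2 * B + 6) * ((j : ℝ) ^ B * j ^ 2) := by
        rw [← pow_add, ← pow_add]; congr 1; rw [hA]; ring
      rw [e5]
      have hjj : 240 * (4 : ℝ) ^ A * 4 ≤ (j : ℝ) ^ 2 := by nlinarith
      have e6 : (j : ℝ) ^ (2 * B + 6) * (240 * 4 ^ A * (2 ^ j / ((j : ℝ) ^ (2 * B + 6) *
          ((j : ℝ) ^ B * j ^ 2)))) = (240 * 4 ^ A / (j : ℝ) ^ 2) * (2 ^ j / (j : ℝ) ^ B) := by
        field_simp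
      rw [e6]
      refine mul_le_mul_of_nonneg_right ?_ (by positivity)
      rw [div_le_div_iff₀ (by positivity) (by norm_num)]
      linarith
    linarith
  rw [hsplit]
  linarith

end Vale.Agent.P017.H262
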