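import Vale.Agent.P007.S11.PV137

/-! The characters `n ↦ J(D | n)` modulo `4 |D|` and the inequality of Pólya–Vinogradov. -/

set_option linter.all false

namespace Vale.Agent.P017.H262

open Finset Real

open scoped NumberTheorySymbols

open Classical in
/-- the Jacobi symbol `J(D | m)` at the `m` prime to `4 D` -/
noncomputable def jf (D : ℤ) (m : ℕ) : ℤ := if m.Coprime (4 * D.natAbs) then J(D | m) else 0

theorem odd_of_coprime {D : ℤ} {m : ℕ} (h : m.Coprime (4 * D.natAbs)) : Odd m := by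
  have h1 : m.Coprime 4 := Nat.Coprime.coprime_mul_right_right h
  exact Nat.coprime_two_right.1 (Nat.Coprime.coprime_dvd_right (by norm_num) h1)

theorem ne_zero_of_coprime {D : ℤ} {m : ℕ} (h : m.Coprime (4 * D.natAbs)) : m ≠ 0 := by
  rintro rfl
  have := odd_of_coprime h
  simp at this

theorem jf_even (D : ℤ) {m : ℕ} (h : ¬ Odd m) : jf D m = 0 := by
  unfold jf
  rw [if_neg fun h' => h (odd_of_coprime h')]

theorem jf_odd {D : ℤ} {m : ℕ} (h : Odd m) : jf D m = J(D | m) := by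
  unfold jf
  split_ifs with h1
  · rfl
  · symm
    have : NeZero m := ⟨by rintro rfl; simp at h⟩
    rw [jacobiSym.eq_zero_iff_not_coprime]
    intro h2
    apply h1
    have h3 : m.Coprime 4 := by
      have : m.Coprime (2 ^ 2) := Nat.Coprime.pow_right 2 (Nat.coprime_two_right.2 h)
      simpa using this
    refine Nat.Coprime.mul_right h3 ?_
    have h4 : D.natAbs.gcd m = 1 := h2
    rw [Nat.coprime_comm]
    exact h4

theorem jf_mod (D : ℤ) (m : ℕ) : jf D (m % (4 * D.natAbs)) = jf D m := by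
  unfold jf
  have e : (m % (4 * D.natAbs)).Coprime (4 * D.natAbs) ↔ m.Coprime (4 * D.natAbs) := by
    unfold Nat.Coprime
    rw [← Nat.gcd_rec, Nat.gcd_comm]
  by_cases h : m.Coprime (4 * D.natAbs)
  · rw [if_pos h, if_pos (e.2 h)]
    exact (jacobiSym.mod_right D (odd_of_coprime h)).symm
  · rw [if_neg h, if_neg fun h' => h (e.1 h')]

theorem jf_mul (D : ℤ) (a b : ℕ) : jf D (a * b) = jf D a * jf D b := by
  unfold jf
  by_cases ha : a.Coprime (4 * D.natAbs)
  · by_cases hb : b.Coprime (4 * D.natAbs)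
    · rw [if_pos ha, if_pos hb, if_pos (Nat.Coprime.mul_left ha hb)]
      have : NeZero a := ⟨ne_zero_of_coprime ha⟩
      have : NeZero b := ⟨ne_zero_of_coprime hb⟩
      exact jacobiSym.mul_right D a b
    · rw [if_neg hb, mul_zero, if_neg fun h => hb (Nat.Coprime.coprime_mul_left h)]
  · rw [if_neg ha, zero_mul, if_neg fun h => ha (Nat.Coprime.coprime_mul_right h)]

theorem jf_one (D : ℤ) : jf D 1 = 1 := by
  unfold jf
  rw [if_pos (Nat.coprime_one_left _), jacobiSym.one_right]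

theorem jf_zero (D : ℤ) : jf D 0 = 0 := jf_even D (by simp)

theorem jf_val (D : ℤ) (m : ℕ) : jf D m = 1 ∨ jf D m = 0 ∨ jf D m = -1 := by
  unfold jf
  split_ifs with h
  · have h1 : m.Coprime D.natAbs := Nat.Coprime.coprime_mul_left_right h
    rcases jacobiSym.eq_one_or_neg_one (a := D) (b := m) (by rw [Int.gcd_comm]; exact h1) with h | h
    · exact Or.inl h
    · exact Or.inr (Or.inr h)
  · exact Or.inr (Or.inl rfl)

theorem abs_jf_le (D : ℤ) (m : ℕ) : |(jf D m : ℝ)| ≤ 1 := by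
  rcases jf_val D m with h | h | h <;> rw [h] <;> norm_num

/-- the character -/
noncomputable def chr (D : ℤ) [NeZero (4 * D.natAbs)] : DirichletCharacter ℂ (4 * D.natAbs) where
  toFun a := (jf D a.val : ℂ)
  map_one' := by
    have : Fact (1 < 4 * D.natAbs) := ⟨by have := NeZero.ne (4 * D.natAbs); omega⟩
    rw [ZMod.val_one, jf_one, Int.cast_one]
  map_mul' a b := by
    rw [ZMod.val_mul, jf_mod, jf_mul, Int.cast_mul]
  map_nonunit' a ha := by
    have h : ¬ a.val.Coprime (4 * D.natAbs) := by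
      intro h
      apply ha
      have h1 := (ZMod.isUnit_iff_coprime a.val (4 * D.natAbs)).2 h
      rwa [ZMod.natCast_zmod_val] at h1
    unfold jf
    rw [if_neg h, Int.cast_zero]

theorem chr_natCast (D : ℤ) [NeZero (4 * D.natAbs)] (m : ℕ) :
    chr D (m : ZMod (4 * D.natAbs)) = (jf D m : ℂ) := by
  show ((jf D (m : ZMod (4 * D.natAbs)).val : ℤ) : ℂ) = _
  rw [ZMod.val_natCast, jf_mod]

/-- a value `-1` -/
theorem exists_neg_one {D : ℤ} (hodd : Odd D) (hD : ¬ IsSquare D) : ∃ n : ℕ, jf D n = -1 := by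
  have hD0 : D ≠ 0 := by rintro rfl; simp at hodd
  have hk0 : D.natAbs ≠ 0 := Int.natAbs_ne_zero.2 hD0
  have hkodd : Odd D.natAbs := Int.natAbs_odd.2 hodd
  by_cases hsq : IsSquare D.natAbs
  · -- `D = - t ^ 2`
    obtain ⟨t, ht⟩ := hsq
    have hDt : D = -((t : ℤ) * t) := by
      rcases Int.natAbs_eq D with h | h
      · exfalso
        apply hD
        rw [h, ht]
        exact ⟨t, by push_cast; ring⟩
      · rw [h, ht]; push_cast; ring
    have htodd : Odd t := by
      rw [ht] at hkodd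
      exact (Nat.odd_mul.1 hkodd).1
    have hcop : Nat.Coprime 4 t := by
      have : Nat.Coprime (2 ^ 2) t := Nat.Coprime.pow_left 2 (Nat.coprime_two_left.2 htodd)
      simpa using this
    obtain ⟨n, hn1, hn2⟩ := Nat.chineseRemainder hcop 3 1
    have hn4 : n % 4 = 3 := hn1
    have hnodd : Odd n := by rw [Nat.odd_iff]; omega
    have hnt : Nat.Coprime n t := by
      have := hn2.gcd_eq
      rw [Nat.gcd_one_left] at this
      exact this
    refine ⟨n, ?_⟩
    rw [jf_odd hnodd, hDt, neg_eq_neg_one_mul, jacobiSym.mul_left, jacobiSym.mul_left,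
      jacobiSym.at_neg_one hnodd, ZMod.χ₄_nat_three_mod_four hn4, ← sq,
      jacobiSym.sq_one (by
        show Int.gcd (t : ℤ) n = 1
        rw [Int.gcd_natCast_natCast]
        exact hnt.symm)]
    norm_num
  · -- a prime with odd valuation
    have hex : ∃ q ∈ D.natAbs.primeFactors, Odd (D.natAbs.factorization q) := by
      by_contra hcon
      push Not at hcon
      apply hsq
      refine ⟨∏ q ∈ D.natAbs.primeFactors, q ^ (D.natAbs.factorization q / 2), ?_⟩
      rw [← Finset.prod_mul_distrib]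
      conv_lhs => rw [← Nat.prod_factorization_pow_eq_self hk0]
      rw [Nat.prod_factorization_eq_prod_primeFactors]
      refine Finset.prod_congr rfl fun q hq => ?_
      have := hcon q hq
      rw [Nat.not_odd_iff_even] at this
      obtain ⟨r, hr⟩ := this
      rw [← pow_add]
      congr 1
      omega
    obtain ⟨q, hq, hqo⟩ := hex
    have hqp : q.Prime := Nat.prime_of_mem_primeFactors hq
    have hqF := Fact.mk hqp
    have hq2 : q ≠ 2 := by
      rintro rfl
      have := Nat.dvd_of_mem_primeFactors hq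
      rw [Nat.odd_iff] at hkodd
      omega
    obtain ⟨v, hv⟩ := hqo
    set r : ℕ := D.natAbs / q ^ D.natAbs.factorization q with hr
    have hkr : D.natAbs = q ^ (2 * v + 1) * r := by
      rw [hr, ← hv]
      exact (Nat.ordProj_mul_ordCompl_eq_self _ _).symm
    have hqr : Nat.Coprime q r := Nat.coprime_ordCompl hqp hk0
    have hr0 : r ≠ 0 := by
      rintro h
      rw [h, mul_zero] at hkr
      exact hk0 hkr
    have hrodd : Odd r := by
      rw [hkr] at hkodd
      exact (Nat.odd_mul.1 hkodd).2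
    obtain ⟨u, hu⟩ := FiniteField.exists_nonsquare (F := ZMod q) (by rwa [ZMod.ringChar_zmod_n])
    have hq4r : Nat.Coprime q (4 * r) := by
      refine Nat.Coprime.mul_right ?_ hqr
      have : Nat.Coprime q (2 ^ 2) := Nat.Coprime.pow_right 2
        ((Nat.coprime_primes hqp Nat.prime_two).2 hq2)
      simpa using this
    obtain ⟨n, hn1, hn2⟩ := Nat.chineseRemainder hq4r u.val 1
    have hnq : ((n : ℕ) : ZMod q) = u := by
      have := (ZMod.natCast_eq_natCast_iff _ _ _).mpr hn1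
      rw [this]; simp
    have hn4 : n ≡ 1 [MOD 4] := hn2.of_mul_right _
    have hn4' : n % 4 = 1 := hn4
    have hnr : n ≡ 1 [MOD r] := hn2.of_mul_left _
    have hnodd : Odd n := by rw [Nat.odd_iff]; omega
    refine ⟨n, ?_⟩
    have hu0 : u ≠ 0 := by rintro rfl; exact hu ⟨0, by simp⟩
    have h1 : J(n | q) = -1 := by
      rw [← jacobiSym.legendreSym.to_jacobiSym, legendreSym.eq_neg_one_iff]
      push_cast
      rw [hnq]
      exact hu
    have h2 : J(n | r) = 1 := by
      have : J(n | r) = J((1 : ℕ) | r) := jacobiSym.mod_left' (by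
        have : (n : ℤ) ≡ (1 : ℕ) [ZMOD r] := (Int.natCast_modEq_iff).2 hnr
        exact this)
      rw [this]
      simp
    have h3 : J(n | D.natAbs) = -1 := by
      rw [hkr]
      have i1 : NeZero (q ^ (2 * v + 1)) := ⟨pow_ne_zero _ hqp.ne_zero⟩
      have i2 : NeZero r := ⟨hr0⟩
      rw [jacobiSym.mul_right, jacobiSym.pow_right, h1, h2, mul_one, pow_add, pow_mul]
      norm_num
    have h4 : J((D.natAbs : ℤ) | n) = -1 := by
      rw [jacobiSym.quadratic_reciprocity_one_mod_four' hkodd hn4', h3]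
    rw [jf_odd hnodd]
    rcases Int.natAbs_eq D with h | h
    · rw [h]; exact h4
    · rw [h, neg_eq_neg_one_mul, jacobiSym.mul_left, h4, jacobiSym.at_neg_one hnodd,
        ZMod.χ₄_nat_one_mod_four hn4']
      norm_num

theorem chr_ne_one {D : ℤ} [NeZero (4 * D.natAbs)] (hodd : Odd D) (hD : ¬ IsSquare D) :
    chr D ≠ 1 := by
  intro h
  obtain ⟨n, hn⟩ := exists_neg_one hodd hD
  have h1 := chr_natCast D n
  rw [h, hn] at h1
  by_cases hu : IsUnit (n : ZMod (4 * D.natAbs))
  · rw [MulChar.one_apply hu] at h1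
    norm_num at h1
  · rw [MulChar.map_nonunit _ hu] at h1
    norm_num at h1

/-- Pólya–Vinogradov -/
theorem pv : ∃ C : ℝ, 1 ≤ C ∧ ∀ D : ℤ, Odd D → ¬ IsSquare D → ∀ N : ℕ,
    |∑ n ∈ Icc 1 N, (jf D n : ℝ)| ≤ C * (D.natAbs : ℝ) ^ (3 / 5 : ℝ) := by
  obtain ⟨C, hC, hdiv⟩ := Vale.Agent.P007.S11.divisor_bound (1 / 20) (by norm_num)
  refine ⟨C * 21 * 4, by linarith, fun D hodd hD N => ?_⟩
  have hD0 : D ≠ 0 := by rintro rfl; simp at hodd
  have hk0 : D.natAbs ≠ 0 := Int.natAbs_ne_zero.2 hD0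
  have : NeZero (4 * D.natAbs) := ⟨by omega⟩
  have h1 := Vale.Agent.P007.S11.PV137.imprim (chr_ne_one hodd hD) N
  have h2 : ‖∑ m ∈ Icc 1 N, chr D (m : ZMod (4 * D.natAbs))‖ = |∑ n ∈ Icc 1 N, (jf D n : ℝ)| := by
    simp_rw [chr_natCast]
    rw [← Real.norm_eq_abs, ← Complex.norm_real]
    push_cast
    rfl
  rw [h2] at h1
  refine h1.trans ?_
  set k : ℝ := ((4 * D.natAbs : ℕ) : ℝ) with hk
  have hk1 : 1 ≤ k := by
    rw [hk]; exact_mod_cast (by omega : 1 ≤ 4 * D.natAbs)
  have hkp : 0 < k := by linarith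
  have h3 := hdiv (4 * D.natAbs) (by omega)
  have h4 : Real.log k ≤ k ^ (1 / 20 : ℝ) / (1 / 20) := Real.log_le_rpow_div hkp.le (by norm_num)
  have h5 : (1 : ℝ) ≤ k ^ (1 / 20 : ℝ) := Real.one_le_rpow hk1 (by norm_num)
  have h6 : 1 + Real.log k ≤ 21 * k ^ (1 / 20 : ℝ) := by
    have : k ^ (1 / 20 : ℝ) / (1 / 20) = 20 * k ^ (1 / 20 : ℝ) := by ring
    linarith
  have h7 : 0 ≤ Real.log k := Real.log_nonneg hk1
  have h8 : k ^ (3 / 5 : ℝ) = k ^ (1 / 20 : ℝ) * (k ^ (1 / 2 : ℝ) * k ^ (1 / 20 : ℝ)) := by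
    rw [← Real.rpow_add hkp, ← Real.rpow_add hkp]; norm_num
  have h9 : k ^ (3 / 5 : ℝ) ≤ 4 * (D.natAbs : ℝ) ^ (3 / 5 : ℝ) := by
    rw [hk]
    push_cast
    rw [Real.mul_rpow (by norm_num) (by positivity)]
    refine mul_le_mul_of_nonneg_right ?_ (by positivity)
    calc (4 : ℝ) ^ (3 / 5 : ℝ) ≤ 4 ^ (1 : ℝ) :=
          Real.rpow_le_rpow_of_exponent_le (by norm_num) (by norm_num)
      _ = 4 := Real.rpow_one 4
  rw [Real.sqrt_eq_rpow]
  calc ((4 * D.natAbs).divisors.card : ℝ) * (k ^ (1 / 2 : ℝ) * (1 + Real.log k))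
      ≤ (C * k ^ (1 / 20 : ℝ)) * (k ^ (1 / 2 : ℝ) * (21 * k ^ (1 / 20 : ℝ))) := by
        refine mul_le_mul h3 (mul_le_mul_of_nonneg_left h6 (by positivity)) (by positivity)
          (by positivity)
    _ = C * 21 * k ^ (3 / 5 : ℝ) := by rw [h8]; ring
    _ ≤ C * 21 * (4 * (D.natAbs : ℝ) ^ (3 / 5 : ℝ)) := by
        refine mul_le_mul_of_nonneg_left h9 (by linarith)
    _ = _ := by ring

/-- `n* = ± n`, with the sign making it `1 mod 4` -/
def star (n : ℕ) : ℤ := ZMod.χ₄ n * n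

theorem star_natAbs {n : ℕ} (hn : Odd n) : (star n).natAbs = n := by
  unfold star
  rcases Nat.odd_mod_four_iff.mp (Nat.odd_iff.1 hn) with h | h
  · rw [ZMod.χ₄_nat_one_mod_four h, one_mul]; simp
  · rw [ZMod.χ₄_nat_three_mod_four h]; simp

theorem star_odd {n : ℕ} (hn : Odd n) : Odd (star n) := by
  rw [← Int.natAbs_odd, star_natAbs hn]; exact hn

theorem star_not_isSquare {n : ℕ} (hn : Odd n) (h : ¬ IsSquare n) : ¬ IsSquare (star n) := by
  rintro ⟨t, ht⟩
  apply h
  refine ⟨t.natAbs, ?_⟩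
  rw [← Int.natAbs_mul, ← ht, star_natAbs hn]

/-- reciprocity -/
theorem recip {a n : ℕ} (ha : Odd a) (hn : Odd n) : J(a | n) = jf (star n) a := by
  rw [jf_odd ha, star, jacobiSym.quadratic_reciprocity' ha hn, qrSign, jacobiSym.mul_left]

/-- the key identity -/
theorem key {a n : ℕ} (ha : Odd a) (hn : Odd n) (ε : ℤ) :
    jf (ε * a) n = J(ε | n) * jf (star n) a := by
  rw [jf_odd hn, jacobiSym.mul_left, recip ha hn]

end Vale.Agent.P017.H262
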