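import Vale.Agent.P017.H262.Inj

/-! Positive lower density. -/

set_option linter.all false

namespace Vale.Agent.P017.H262

open Finset Real Filter Topology

/-- along a geometric sequence -/
theorem dens_geom : ∃ K : ℕ, ∃ c : ℝ, 0 < c ∧ ∃ n₀ : ℕ, ∀ n : ℕ, n₀ ≤ n →
    c * 2 ^ NN K n ≤ ((TT (2 ^ NN K n)).card : ℝ) := by
  classical
  obtain ⟨CG, hCG, hG⟩ := gAvg
  obtain ⟨jp, hjp1, hjp⟩ := PB_bounds
  -- choose `K`
  obtain ⟨K, hK⟩ : ∃ K : ℕ, (1 / 2 : ℝ) ^ K * (4 * CG) ≤ 1 / 12800 := by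
    have h := (tendsto_pow_atTop_nhds_zero_of_lt_one (show (0 : ℝ) ≤ 1 / 2 by norm_num)
      (by norm_num)).mul_const (4 * CG)
    rw [zero_mul] at h
    obtain ⟨K, hK⟩ := (h.eventually (gt_mem_nhds (show (0 : ℝ) < 1 / 12800 by norm_num))).exists
    exact ⟨K, hK.le⟩
  obtain ⟨C, hC, hper⟩ := perM (K + 1)
  obtain ⟨jb, hbad⟩ := sum_bad (k := K + 1) (by omega) (K + 3)
  set Q : ℝ := (1 / 2 : ℝ) ^ ((K + 1) * (K + 1 - 1) / 2) with hQ
  have hQ0 : 0 < Q := by positivity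
  -- constants
  set A : ℝ := (1 / 64 : ℝ) ^ K / (12800 * 10 ^ (K + 3)) with hA
  have hA0 : 0 < A := by positivity
  set b1 : ℝ := ((10 : ℝ) ^ (K + 1)) ^ K * (16 * (K + 1)) with hb1
  set b2 : ℝ := ((10 : ℝ) ^ (K + 1)) ^ K * (C * (K + 1)) with hb2
  have hb10 : 0 ≤ b1 := by positivity
  have hb20 : 0 ≤ b2 := by positivity
  have hlim1 : Tendsto (fun n : ℕ => b1 * (1 / (n : ℝ))) atTop (𝓝 0) := by
    have := (tendsto_one_div_atTop_nhds_zero_nat (𝕜 := ℝ)).const_mul b1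
    rwa [mul_zero] at this
  have hlim2 : Tendsto (fun n : ℕ => b2 * ((n : ℝ) ^ (K + 1) / (2 : ℝ) ^ n)) atTop (𝓝 0) := by
    have := (tendsto_pow_const_div_const_pow_of_one_lt (K + 1) (show (1 : ℝ) < 2 by norm_num)).const_mul b2
    rwa [mul_zero] at this
  have hev : ∀ᶠ n : ℕ in atTop, 40 ≤ n ∧ jp ≤ n ∧ jb ≤ n ∧ b1 * (1 / (n : ℝ)) ≤ A / 4 ∧
      b2 * ((n : ℝ) ^ (K + 1) / (2 : ℝ) ^ n) ≤ Q * A / 4 := by
    filter_upwards [eventually_ge_atTop 40, eventually_ge_atTop jp, eventually_ge_atTop jb,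
      hlim1.eventually (gt_mem_nhds (show (0 : ℝ) < A / 4 by positivity)),
      hlim2.eventually (gt_mem_nhds (show (0 : ℝ) < Q * A / 4 by positivity))] with n h1 h2 h3 h4 h5
    exact ⟨h1, h2, h3, h4.le, h5.le⟩
  obtain ⟨n₀, hn₀⟩ := eventually_atTop.1 hev
  refine ⟨K, Q * A / 2 * (1 / 2) ^ (K + 2), by positivity, n₀, fun n hn => ?_⟩
  obtain ⟨h1, h2, h3, h4, h5⟩ := hn₀ n hn
  have hn1 : 1 ≤ n := by omega
  have hn0 : (0 : ℝ) < n := by exact_mod_cast hn1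
  set D : ℝ := (2 : ℝ) ^ (NN K n - (K + 2)) with hD
  have hD0 : 0 < D := by positivity
  have hone : ∀ j' ∈ JJ K n, Q * (P' j' * 2 ^ J0 K n j' / (12800 * 10 ^ (K + 3)) -
      16 * (K + 1) * D * ((n : ℝ) ^ 2 / (n : ℝ) ^ (K + 3))) -
      C * (K + 1) * D * (n * (1 / 2 : ℝ) ^ n) ≤
      ∑ i ∈ range n, ∑ m ∈ MB i, (cnt K n i j' m : ℝ) := fun j' hj =>
    one_j' hC hper hjp hCG hG hbad hK h1 h2 h3 hj
  have h6 := Finset.sum_le_sum hone
  rw [Finset.sum_sub_distrib, ← Finset.mul_sum, Finset.sum_sub_distrib, Finset.sum_const,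
    Finset.sum_const, nsmul_eq_mul, nsmul_eq_mul, ← Finset.sum_div] at h6
  have h7 : ∑ j' ∈ JJ K n, ∑ i ∈ range n, ∑ m ∈ MB i, (cnt K n i j' m : ℝ) ≤
      ((TT (2 ^ NN K n)).card : ℝ) := by
    have := count_le (K := K) hn1
    exact_mod_cast this
  have h8 := W_sum (K := K) hjp hn1 h2
  have h9 := JJ_card (K := K) (n := n)
  have e1 : ((10 : ℝ) ^ (K + 1) * n) ^ K = ((10 : ℝ) ^ (K + 1)) ^ K * (n : ℝ) ^ K := mul_pow _ _ _
  rw [e1] at h9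
  -- main
  have h10 : D * A ≤ (∑ j' ∈ JJ K n, P' j' * 2 ^ J0 K n j') / (12800 * 10 ^ (K + 3)) := by
    rw [le_div_iff₀ (by positivity)]
    refine le_trans (le_of_eq ?_) h8
    rw [hA, ← hD]
    field_simp
  have h11 : ((JJ K n).card : ℝ) * (16 * (K + 1) * D * ((n : ℝ) ^ 2 / (n : ℝ) ^ (K + 3))) ≤ D * (A / 4) := by
    calc _ ≤ (((10 : ℝ) ^ (K + 1)) ^ K * (n : ℝ) ^ K) * (16 * (K + 1) * D * ((n : ℝ) ^ 2 / (n : ℝ) ^ (K + 3))) :=
          mul_le_mul_of_nonneg_right h9 (by positivity)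
      _ = D * (b1 * (1 / n)) := by
          rw [hb1, show K + 3 = K + 2 + 1 by ring, pow_succ (n : ℝ) (K + 2), pow_add (n : ℝ) K 2]
          field_simp
      _ ≤ _ := mul_le_mul_of_nonneg_left h4 hD0.le
  have h12 : ((JJ K n).card : ℝ) * (C * (K + 1) * D * (n * (1 / 2 : ℝ) ^ n)) ≤ D * (Q * A / 4) := by
    calc _ ≤ (((10 : ℝ) ^ (K + 1)) ^ K * (n : ℝ) ^ K) * (C * (K + 1) * D * (n * (1 / 2 : ℝ) ^ n)) :=
          mul_le_mul_of_nonneg_right h9 (by positivity)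
      _ = D * (b2 * ((n : ℝ) ^ (K + 1) / (2 : ℝ) ^ n)) := by
          rw [hb2, pow_succ (n : ℝ) K, one_div, inv_pow]
          field_simp
      _ ≤ _ := mul_le_mul_of_nonneg_left h5 hD0.le
  have h13 : Q * (D * A - D * (A / 4)) ≤
      Q * ((∑ j' ∈ JJ K n, P' j' * 2 ^ J0 K n j') / (12800 * 10 ^ (K + 3)) -
        ((JJ K n).card : ℝ) * (16 * (K + 1) * D * ((n : ℝ) ^ 2 / (n : ℝ) ^ (K + 3)))) :=
    mul_le_mul_of_nonneg_left (by linarith) hQ0.le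
  have e2 : (2 : ℝ) ^ NN K n = D * 2 ^ (K + 2) := by
    rw [hD, ← pow_add]
    congr 1
    have h14 := K_le K
    have h15 : 10 ^ (K + 1) ≤ 10 ^ (K + 3) * n := by
      calc 10 ^ (K + 1) ≤ 10 ^ (K + 3) := Nat.pow_le_pow_right (by norm_num) (by omega)
        _ ≤ 10 ^ (K + 3) * n := Nat.le_mul_of_pos_right _ hn1
    rw [NN]
    omega
  have e3 : Q * A / 2 * (1 / 2) ^ (K + 2) * 2 ^ NN K n = Q * A / 2 * D := by
    rw [e2, one_div, inv_pow]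
    field_simp
  rw [e3]
  have hpos : 0 < Q * (D * A) := by positivity
  nlinarith

/-- **positive lower density** -/
theorem dens : ∃ c : ℝ, 0 < c ∧ ∃ X₀ : ℕ, ∀ X : ℕ, X₀ ≤ X → c * X ≤ ((TT X).card : ℝ) := by
  classical
  obtain ⟨K, c, hc, n₀, h⟩ := dens_geom
  set M : ℕ := 10 ^ (K + 3) with hM
  have hM0 : 0 < M := by positivity
  refine ⟨c / 2 ^ M, by positivity, 2 ^ (M * (n₀ + 1)), fun X hX => ?_⟩
  set n : ℕ := Nat.log 2 X / M with hn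
  have hX0 : X ≠ 0 := by
    have : 0 < 2 ^ (M * (n₀ + 1)) := by positivity
    omega
  have h1 : M * (n₀ + 1) ≤ Nat.log 2 X := Nat.le_log_of_pow_le (by norm_num) hX
  have h2 : n₀ ≤ n := by
    have : n₀ + 1 ≤ n := (Nat.le_div_iff_mul_le hM0).2 (by rw [mul_comm]; exact h1)
    omega
  have h3 : NN K n = M * n := rfl
  have h4 : M * n ≤ Nat.log 2 X := Nat.mul_div_le _ _
  have h5 : Nat.log 2 X < M * n + M := by
    have := Nat.lt_mul_div_succ (Nat.log 2 X) hM0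
    rw [← hn] at this
    calc Nat.log 2 X < M * (n + 1) := this
      _ = M * n + M := by ring
  have h6 : 2 ^ (M * n) ≤ X :=
    (Nat.pow_le_pow_right (by norm_num) h4).trans (Nat.pow_log_le_self 2 hX0)
  have h7 : X ≤ 2 ^ (M * n) * 2 ^ M := by
    have h8 : X < 2 ^ (Nat.log 2 X + 1) := Nat.lt_pow_succ_log_self (by norm_num) X
    have h9 : 2 ^ (Nat.log 2 X + 1) ≤ 2 ^ (M * n + M) := Nat.pow_le_pow_right (by norm_num) h5
    rw [pow_add 2 (M * n) M] at h9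
    exact h8.le.trans h9
  have h8 := h n h2
  rw [h3] at h8
  have h9 : ((TT (2 ^ (M * n))).card : ℝ) ≤ ((TT X).card : ℝ) := by
    have : TT (2 ^ (M * n)) ⊆ TT X := by
      intro d hd
      rw [TT, Finset.mem_filter, Finset.mem_Icc] at hd ⊢
      exact ⟨⟨hd.1.1, hd.1.2.trans h6⟩, hd.2⟩
    exact_mod_cast Finset.card_le_card this
  have h10 : (X : ℝ) ≤ 2 ^ (M * n) * 2 ^ M := by exact_mod_cast h7
  calc c / 2 ^ M * X ≤ c / 2 ^ M * (2 ^ (M * n) * 2 ^ M) :=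
        mul_le_mul_of_nonneg_left h10 (by positivity)
    _ = c * 2 ^ (M * n) := by field_simp
    _ ≤ _ := h8.trans h9

end Vale.Agent.P017.H262
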