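import Vale.Agent.P017.H262.PerM
import Vale.Agent.P017.H262.CSum3

/-! The error terms on average over `m`. -/

set_option linter.all false

namespace Vale.Agent.P017.H262

open Finset Real

theorem sum_tau {i j : ℕ} : ∑ m ∈ MB i, ∑ a ∈ m.divisors, ∑ e ∈ a.divisors.erase 1, |SP j e| ≤
    2 ^ (i + 1) * (i + 2) * ∑ e ∈ (Icc 2 (2 ^ (i + 1))).filter
      (fun e => Squarefree e ∧ Nat.Coprime e 30), |SP j e| / (e : ℝ) := by
  set M : ℕ := 2 ^ (i + 1) with hM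
  have hM1 : 1 ≤ M := Nat.one_le_two_pow
  set E := (Icc 2 M).filter (fun e => Squarefree e ∧ Nat.Coprime e 30) with hE
  have e1 : ∑ m ∈ MB i, ∑ a ∈ m.divisors, ∑ e ∈ a.divisors.erase 1, |SP j e| =
      ∑ x ∈ ((MB i).sigma fun m => m.divisors).sigma fun x => x.2.divisors.erase 1, |SP j x.2| := by
    rw [Finset.sum_sigma, Finset.sum_sigma]
  have hmem : ∀ x ∈ ((MB i).sigma fun m => m.divisors).sigma fun x => x.2.divisors.erase 1,
      x.1.2 * (x.1.1 / x.1.2) = x.1.1 ∧ x.2 * (x.1.2 / x.2) = x.1.2 ∧ x.2 ∈ E ∧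
        x.1.2 / x.2 ∈ Icc 1 M ∧ x.1.1 / x.1.2 ∈ Icc 1 (M / (x.2 * (x.1.2 / x.2))) := by
    rintro ⟨⟨m, a⟩, e⟩ hx
    rw [Finset.mem_sigma, Finset.mem_sigma, Finset.mem_erase, Nat.mem_divisors, Nat.mem_divisors,
      MB, Finset.mem_filter, Finset.mem_Ico] at hx
    simp only at hx ⊢
    obtain ⟨⟨⟨⟨h1, h2⟩, h3, h4⟩, h5, h6⟩, h7, h8, h9⟩ := hx
    have hma : a * (m / a) = m := Nat.mul_div_cancel' h5
    have hae : e * (a / e) = a := Nat.mul_div_cancel' h8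
    have hm0 : 0 < m := by omega
    have ha0 : 0 < a := Nat.pos_of_dvd_of_pos h5 hm0
    have he0 : 0 < e := Nat.pos_of_dvd_of_pos h8 ha0
    have hem : e ∣ m := h8.trans h5
    have hmM : m ≤ M := h2.le
    have haM : a ≤ M := (Nat.le_of_dvd hm0 h5).trans hmM
    have hq0 : 0 < a / e := Nat.div_pos (Nat.le_of_dvd ha0 h8) he0
    have hr0 : 0 < m / a := Nat.div_pos (Nat.le_of_dvd hm0 h5) ha0
    refine ⟨hma, hae, ?_, ?_, ?_⟩
    · rw [hE, Finset.mem_filter, Finset.mem_Icc]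
      refine ⟨⟨by omega, (Nat.le_of_dvd hm0 hem).trans hmM⟩, h3.squarefree_of_dvd hem, ?_⟩
      refine Nat.Coprime.coprime_dvd_left hem ?_
      rw [Nat.Coprime, Nat.gcd_comm, Nat.gcd_rec]
      have : m % 30 = 23 := by omega
      rw [this]; norm_num
    · rw [Finset.mem_Icc]
      exact ⟨hq0, (Nat.div_le_self _ _).trans haM⟩
    · rw [Finset.mem_Icc, hae]
      refine ⟨hr0, ?_⟩
      exact Nat.div_le_div_right hmM
  have e2 : ∑ x ∈ ((MB i).sigma fun m => m.divisors).sigma fun x => x.2.divisors.erase 1, |SP j x.2| =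
      ∑ y ∈ (((MB i).sigma fun m => m.divisors).sigma fun x => x.2.divisors.erase 1).image
        (fun x => (⟨⟨x.2, x.1.2 / x.2⟩, x.1.1 / x.1.2⟩ : (_ : (_ : ℕ) × ℕ) × ℕ)), |SP j y.1.1| := by
    rw [Finset.sum_image]
    rintro ⟨⟨m, a⟩, e⟩ hx ⟨⟨m', a'⟩, e'⟩ hy hxy
    have h1 := hmem _ hx
    have h2 := hmem _ hy
    simp only [Sigma.mk.injEq, heq_eq_eq] at hxy h1 h2 ⊢
    obtain ⟨⟨h3, h4⟩, h5⟩ := hxy
    have haa : a = a' := by
      rw [← h1.2.1, ← h2.2.1, h4, h3]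
    have hmm : m = m' := by
      rw [← h1.1, ← h2.1, h5, haa]
    exact ⟨⟨hmm, haa⟩, h3⟩
  rw [e1, e2]
  have h3 : ∑ y ∈ (((MB i).sigma fun m => m.divisors).sigma fun x => x.2.divisors.erase 1).image
        (fun x => (⟨⟨x.2, x.1.2 / x.2⟩, x.1.1 / x.1.2⟩ : (_ : (_ : ℕ) × ℕ) × ℕ)), |SP j y.1.1| ≤
      ∑ y ∈ (E.sigma fun _ => Icc 1 M).sigma fun x => Icc 1 (M / (x.1 * x.2)), |SP j y.1.1| := by
    refine Finset.sum_le_sum_of_subset_of_nonneg ?_ fun _ _ _ => abs_nonneg _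
    intro y hy
    rw [Finset.mem_image] at hy
    obtain ⟨x, hx, rfl⟩ := hy
    obtain ⟨_, _, h4, h5, h6⟩ := hmem x hx
    rw [Finset.mem_sigma, Finset.mem_sigma]
    exact ⟨⟨h4, h5⟩, h6⟩
  refine h3.trans ?_
  rw [Finset.sum_sigma, Finset.sum_sigma, Finset.mul_sum]
  refine Finset.sum_le_sum fun e he => ?_
  rw [hE, Finset.mem_filter, Finset.mem_Icc] at he
  have he0 : (0 : ℝ) < e := by exact_mod_cast (by omega : 0 < e)
  have hMr : (1 : ℝ) ≤ M := by exact_mod_cast hM1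
  simp only
  have h4 : ∀ x ∈ Icc 1 M, ∑ _y ∈ Icc 1 (M / (e * x)), |SP j e| ≤ (|SP j e| * (M / e)) * (1 / (x : ℝ)) := by
    intro x hx
    rw [Finset.mem_Icc] at hx
    have hx0 : (0 : ℝ) < x := by exact_mod_cast (by omega : 0 < x)
    rw [Finset.sum_const, Nat.card_Icc, nsmul_eq_mul, Nat.add_sub_cancel]
    have h5 : ((M / (e * x) : ℕ) : ℝ) ≤ (M : ℝ) / ((e * x : ℕ) : ℝ) := Nat.cast_div_le
    calc _ ≤ (M : ℝ) / ((e * x : ℕ) : ℝ) * |SP j e| := mul_le_mul_of_nonneg_right h5 (abs_nonneg _)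
      _ = _ := by push_cast; field_simp
  refine (Finset.sum_le_sum h4).trans ?_
  rw [← Finset.mul_sum]
  have h6 := harm_le hM1
  have h7 : Real.log M ≤ i + 1 := by
    rw [hM]
    push_cast
    rw [Real.log_pow]
    have := Real.log_two_lt_d9
    have h8 : 0 ≤ Real.log 2 := Real.log_nonneg (by norm_num)
    push_cast
    have h9 : (0 : ℝ) ≤ i := Nat.cast_nonneg i
    nlinarith
  have e3 : (2 : ℝ) ^ (i + 1) = M := by rw [hM]; push_cast; rfl
  rw [e3]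
  calc |SP j e| * (M / e) * ∑ x ∈ Icc 1 M, 1 / (x : ℝ) ≤ |SP j e| * (M / e) * (i + 2) :=
        mul_le_mul_of_nonneg_left (by linarith) (by positivity)
    _ = _ := by ring

/-- the bad parts of a block -/
theorem sum_bad {k : ℕ} (hk : 0 < k) (B : ℕ) : ∃ j₀ : ℕ, ∀ (n i : ℕ) (j : Fin k → ℕ), 1 ≤ n → i < n →
    j₀ ≤ n → (∀ l, 10 * n ≤ j l) →
    ∑ m ∈ MB i, bad m j ≤ (∏ l, ((PB (j l)).card : ℝ)) * ((1 / 2 : ℝ) ^ (k - 1) *
      ∑ m ∈ MB i, (G m + G' m)) + 8 * k * (∏ l, (2 : ℝ) ^ j l) * 2 ^ i * (i + 2) / (n : ℝ) ^ B := by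
  obtain ⟨j₀, hj₀⟩ := charSum B
  refine ⟨j₀, fun n i j hn hi hjn hj => ?_⟩
  have hn' : (1 : ℝ) ≤ n := by exact_mod_cast hn
  set N : ℝ := ∏ l, ((PB (j l)).card : ℝ) with hN
  set W : ℝ := ∏ l, (2 : ℝ) ^ j l with hW
  have hN0 : 0 ≤ N := Finset.prod_nonneg fun _ _ => Nat.cast_nonneg _
  have e1 : ∑ m ∈ MB i, bad m j = N * ((1 / 2 : ℝ) ^ (k - 1) * ∑ m ∈ MB i, (G m + G' m - 2)) +
      4 * ∑ l, (∏ l' ∈ univ.erase l, ((PB (j l')).card : ℝ)) *
        ∑ m ∈ MB i, ∑ a ∈ m.divisors, ∑ e ∈ a.divisors.erase 1, |SP (j l) e| := by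
    unfold bad
    rw [Finset.sum_add_distrib, ← Finset.mul_sum, ← Finset.mul_sum, ← Finset.mul_sum]
    congr 2
    rw [Finset.sum_comm]
    refine Finset.sum_congr rfl fun l _ => ?_
    rw [← Finset.mul_sum]
  rw [e1]
  refine add_le_add ?_ ?_
  · refine mul_le_mul_of_nonneg_left (mul_le_mul_of_nonneg_left ?_ (by positivity)) hN0
    exact Finset.sum_le_sum fun m _ => by linarith
  · have h1 : ∀ l ∈ (univ : Finset (Fin k)), (∏ l' ∈ univ.erase l, ((PB (j l')).card : ℝ)) *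
        ∑ m ∈ MB i, ∑ a ∈ m.divisors, ∑ e ∈ a.divisors.erase 1, |SP (j l) e| ≤
        W * (2 ^ (i + 1) * (i + 2) / (n : ℝ) ^ B) := by
      intro l _
      have hjl : j₀ ≤ j l := by have := hj l; omega
      have hY : (2 ^ (i + 1)) ^ 10 ≤ 2 ^ j l := by
        rw [← pow_mul]
        refine Nat.pow_le_pow_right (by norm_num) ?_
        have := hj l
        omega
      have h2 := hj₀ (j l) hjl (2 ^ (i + 1)) hY
      have h3 : (2 : ℝ) ^ j l / (j l : ℝ) ^ B ≤ 2 ^ j l / (n : ℝ) ^ B := by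
        refine div_le_div_of_nonneg_left (by positivity) (by positivity) ?_
        refine pow_le_pow_left₀ (by linarith) ?_ B
        have : n ≤ j l := by have := hj l; omega
        exact_mod_cast this
      have h4 := sum_tau (i := i) (j := j l)
      have h5 : ∑ m ∈ MB i, ∑ a ∈ m.divisors, ∑ e ∈ a.divisors.erase 1, |SP (j l) e| ≤
          2 ^ (i + 1) * (i + 2) * (2 ^ j l / (n : ℝ) ^ B) :=
        h4.trans (mul_le_mul_of_nonneg_left (h2.trans h3) (by positivity))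
      have h6 : ∏ l' ∈ univ.erase l, ((PB (j l')).card : ℝ) ≤ ∏ l' ∈ univ.erase l, (2 : ℝ) ^ j l' :=
        Finset.prod_le_prod (fun _ _ => Nat.cast_nonneg _) fun l' _ => PB_card (j l')
      have e2 : W = (∏ l' ∈ univ.erase l, (2 : ℝ) ^ j l') * 2 ^ j l := by
        rw [hW, mul_comm]
        exact (Finset.mul_prod_erase univ (fun l => (2 : ℝ) ^ j l) (Finset.mem_univ l)).symm
      rw [e2]
      calc _ ≤ (∏ l' ∈ univ.erase l, (2 : ℝ) ^ j l') * (2 ^ (i + 1) * (i + 2) * (2 ^ j l / (n : ℝ) ^ B)) :=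
            mul_le_mul h6 h5 (Finset.sum_nonneg fun _ _ => Finset.sum_nonneg fun _ _ =>
              Finset.sum_nonneg fun _ _ => abs_nonneg _) (Finset.prod_nonneg fun _ _ => by positivity)
        _ = _ := by ring
    have h2 := Finset.sum_le_sum h1
    rw [Finset.sum_const, Finset.card_univ, Fintype.card_fin, nsmul_eq_mul] at h2
    calc _ ≤ 4 * ((k : ℝ) * (W * (2 ^ (i + 1) * (i + 2) / (n : ℝ) ^ B))) :=
          mul_le_mul_of_nonneg_left h2 (by norm_num)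
      _ = _ := by rw [pow_succ]; ring

end Vale.Agent.P017.H262
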