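import Mathlib

/-! Euler products with constant one. -/

set_option linter.all false

namespace Vale.Agent.P017.H262

open Finset Real Filter Topology

/-- completely multiplicative functions bounded by one -/
structure CM (ψ : ℕ → ℝ) : Prop where
  zero : ψ 0 = 0
  one : ψ 1 = 1
  mul : ∀ a b, ψ (a * b) = ψ a * ψ b
  le : ∀ a, |ψ a| ≤ 1

/-- the `L`-series -/
noncomputable def LS (ψ : ℕ → ℝ) (s : ℝ) : ℝ := ∑' n : ℕ, ψ n * (n : ℝ) ^ (-s)

/-- the sum over the primes -/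
noncomputable def PS (ψ : ℕ → ℝ) (s : ℝ) : ℝ := ∑' p : Nat.Primes, ψ p * ((p : ℕ) : ℝ) ^ (-s)

theorem summable_pow {s : ℝ} (hs : 1 < s) : Summable fun n : ℕ => (n : ℝ) ^ (-s) := by
  rw [Real.summable_nat_rpow]; linarith

theorem CM.norm_le {ψ : ℕ → ℝ} (h : CM ψ) (s : ℝ) (n : ℕ) :
    ‖ψ n * (n : ℝ) ^ (-s)‖ ≤ (n : ℝ) ^ (-s) := by
  rw [norm_mul, Real.norm_eq_abs, Real.norm_eq_abs, abs_of_nonneg (by positivity : 0 ≤ (n : ℝ) ^ (-s))]
  exact mul_le_of_le_one_left (by positivity) (h.le n)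

theorem CM.summable {ψ : ℕ → ℝ} (h : CM ψ) {s : ℝ} (hs : 1 < s) :
    Summable fun n : ℕ => ψ n * (n : ℝ) ^ (-s) :=
  Summable.of_norm_bounded (summable_pow hs) (h.norm_le s)

theorem CM.summableP {ψ : ℕ → ℝ} (h : CM ψ) {s : ℝ} (hs : 1 < s) :
    Summable fun p : Nat.Primes => ψ p * ((p : ℕ) : ℝ) ^ (-s) :=
  (h.summable hs).comp_injective (i := fun p : Nat.Primes => (p : ℕ)) Subtype.val_injective

/-- as a homomorphism -/
noncomputable def CM.hom {ψ : ℕ → ℝ} (h : CM ψ) (s : ℝ) : ℕ →*₀ ℝ where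
  toFun n := ψ n * (n : ℝ) ^ (-s)
  map_zero' := by simp [h.zero]
  map_one' := by simp [h.one]
  map_mul' a b := by
    rw [h.mul, Nat.cast_mul, Real.mul_rpow (Nat.cast_nonneg a) (Nat.cast_nonneg b)]
    ring

theorem prime_rpow_le {s : ℝ} (hs : 1 < s) (p : Nat.Primes) : ((p : ℕ) : ℝ) ^ (-s) ≤ 1 / 2 := by
  have h3 : (2 : ℝ) ≤ (p : ℕ) := by exact_mod_cast p.2.two_le
  calc ((p : ℕ) : ℝ) ^ (-s) ≤ ((p : ℕ) : ℝ) ^ (-1 : ℝ) :=
        Real.rpow_le_rpow_of_exponent_le (by linarith) (by linarith)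
    _ = ((p : ℕ) : ℝ)⁻¹ := Real.rpow_neg_one _
    _ ≤ 1 / 2 := by
        rw [one_div]
        exact inv_anti₀ (by norm_num) h3

theorem CM.abs_p {ψ : ℕ → ℝ} (h : CM ψ) {s : ℝ} (hs : 1 < s) (p : Nat.Primes) :
    |ψ p * ((p : ℕ) : ℝ) ^ (-s)| ≤ 1 / 2 := by
  have := h.norm_le s p
  rw [Real.norm_eq_abs] at this
  exact this.trans (prime_rpow_le hs p)

/-- (E1) -/
theorem exp_PS_le {ψ : ℕ → ℝ} (h : CM ψ) {s : ℝ} (hs : 1 < s) : exp (PS ψ s) ≤ LS ψ s := by
  have hP := EulerProduct.eulerProduct_completely_multiplicative_hasProd (f := h.hom s)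
    (h.summable hs).norm
  have hT : Tendsto (fun S : Finset Nat.Primes => exp (∑ p ∈ S, ψ p * ((p : ℕ) : ℝ) ^ (-s))) atTop
      (𝓝 (exp (PS ψ s))) := (Real.continuous_exp.tendsto _).comp (h.summableP hs).hasSum
  refine le_of_tendsto_of_tendsto' hT hP fun S => ?_
  rw [Real.exp_sum]
  refine Finset.prod_le_prod (fun p _ => (exp_pos _).le) fun p _ => ?_
  have h2 := abs_le.1 (h.abs_p hs p)
  show exp (ψ p * ((p : ℕ) : ℝ) ^ (-s)) ≤ (1 - ψ p * ((p : ℕ) : ℝ) ^ (-s))⁻¹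
  set x : ℝ := ψ p * ((p : ℕ) : ℝ) ^ (-s)
  rw [le_inv_comm₀ (exp_pos _) (by linarith [h2.2]), ← Real.exp_neg]
  have := Real.add_one_le_exp (-x)
  linarith

theorem LS_pos {ψ : ℕ → ℝ} (h : CM ψ) {s : ℝ} (hs : 1 < s) : 0 < LS ψ s :=
  (exp_pos _).trans_le (exp_PS_le h hs)

/-- the weight `2^{-ω(a)}` on squarefree numbers -/
noncomputable def w (a : ℕ) : ℝ := if Squarefree a then (1 / 2 : ℝ) ^ a.primeFactors.card else 0

theorem w_nonneg (a : ℕ) : 0 ≤ w a := by unfold w; split_ifs <;> positivity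

theorem w_le_one (a : ℕ) : w a ≤ 1 := by
  unfold w; split_ifs
  · exact pow_le_one₀ (by norm_num) (by norm_num)
  · norm_num

theorem w_one : w 1 = 1 := by simp [w]

theorem w_zero : w 0 = 0 := by simp [w]

theorem w_mul {a b : ℕ} (hab : a.Coprime b) : w (a * b) = w a * w b := by
  unfold w
  by_cases ha : Squarefree a
  · by_cases hb : Squarefree b
    · rw [if_pos ((Nat.squarefree_mul hab).2 ⟨ha, hb⟩), if_pos ha, if_pos hb, hab.primeFactors_mul,
        Finset.card_union_of_disjoint hab.disjoint_primeFactors, pow_add]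
    · rw [if_neg fun h => hb ((Nat.squarefree_mul hab).1 h).2, if_neg hb, mul_zero]
  · rw [if_neg fun h => ha ((Nat.squarefree_mul hab).1 h).1, if_neg ha, zero_mul]

theorem w_prime {p : ℕ} (hp : p.Prime) : w p = 1 / 2 := by
  unfold w
  rw [if_pos hp.squarefree, hp.primeFactors]
  simp

theorem w_prime_pow {p : ℕ} (hp : p.Prime) {e : ℕ} (he : 2 ≤ e) : w (p ^ e) = 0 := by
  unfold w
  rw [if_neg]
  intro h
  have h1 : p * p ∣ p ^ e := by
    rw [← sq]; exact pow_dvd_pow p he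
  have := h p h1
  exact hp.one_lt.ne' (Nat.isUnit_iff.mp this)

/-- (E2) -/
theorem abs_w_le {ψ : ℕ → ℝ} (h : CM ψ) {s : ℝ} (hs : 1 < s) :
    |∑' a : ℕ, w a * (ψ a * (a : ℝ) ^ (-s))| ≤ exp (PS ψ s / 2) := by
  set f : ℕ → ℝ := fun a => w a * (ψ a * (a : ℝ) ^ (-s)) with hf
  have hsum : Summable (fun n => ‖f n‖) := by
    refine Summable.of_nonneg_of_le (fun _ => norm_nonneg _) (fun n => ?_) (summable_pow hs)
    rw [hf]
    simp only
    rw [norm_mul, Real.norm_eq_abs, abs_of_nonneg (w_nonneg n)]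
    calc w n * ‖ψ n * (n : ℝ) ^ (-s)‖ ≤ 1 * ‖ψ n * (n : ℝ) ^ (-s)‖ :=
          mul_le_mul_of_nonneg_right (w_le_one n) (norm_nonneg _)
      _ ≤ (n : ℝ) ^ (-s) := by rw [one_mul]; exact h.norm_le s n
  have hP := EulerProduct.eulerProduct_hasProd (f := f)
    (by simp [hf, w_one, h.one]) (fun {m n} hmn => by
      simp only [hf]
      rw [w_mul hmn, h.mul, Nat.cast_mul, Real.mul_rpow (Nat.cast_nonneg m) (Nat.cast_nonneg n)]
      ring) hsum (by simp [hf, w_zero])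
  have hfac : ∀ p : Nat.Primes, ∑' e, f ((p : ℕ) ^ e) = 1 + ψ p * ((p : ℕ) : ℝ) ^ (-s) / 2 := by
    intro p
    rw [tsum_eq_sum (s := Finset.range 2) (fun e he => by
      simp only [hf]
      rw [w_prime_pow p.2 (by simp at he; omega), zero_mul])]
    rw [Finset.sum_range_succ, Finset.sum_range_one]
    simp only [hf, pow_zero, pow_one]
    rw [w_one, h.one, w_prime p.2]
    simp
    ring
  have hP' : Tendsto (fun S : Finset Nat.Primes => |∏ p ∈ S, ∑' e, f ((p : ℕ) ^ e)|) atTop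
      (𝓝 |∑' n, f n|) := (continuous_abs.tendsto _).comp hP
  have hT : Tendsto (fun S : Finset Nat.Primes => exp (∑ p ∈ S, ψ p * ((p : ℕ) : ℝ) ^ (-s) / 2))
      atTop (𝓝 (exp (PS ψ s / 2))) :=
    (Real.continuous_exp.tendsto _).comp ((h.summableP hs).hasSum.div_const 2)
  refine le_of_tendsto_of_tendsto' hP' hT fun S => ?_
  rw [Real.exp_sum, Finset.abs_prod]
  refine Finset.prod_le_prod (fun p _ => abs_nonneg _) fun p _ => ?_
  rw [hfac]
  have h2 := abs_le.1 (h.abs_p hs p)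
  set x : ℝ := ψ p * ((p : ℕ) : ℝ) ^ (-s)
  rw [abs_of_nonneg (by linarith [h2.1])]
  have := Real.add_one_le_exp (x / 2)
  linarith

/-- the trivial function -/
noncomputable def one' (n : ℕ) : ℝ := if n = 0 then 0 else 1

theorem CM_one' : CM one' where
  zero := by simp [one']
  one := by simp [one']
  mul a b := by
    unfold one'
    by_cases ha : a = 0
    · simp [ha]
    · by_cases hb : b = 0
      · simp [hb]
      · simp [ha, hb]
  le a := by
    unfold one'; split_ifs <;> norm_num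

theorem tele_le {s : ℝ} (hs : 1 < s) {n : ℕ} (hn : 1 ≤ n) :
    ((n : ℝ) + 1) ^ (-s) ≤ ((n : ℝ) ^ (-(s - 1)) - ((n : ℝ) + 1) ^ (-(s - 1))) / (s - 1) := by
  have hn' : (1 : ℝ) ≤ n := by exact_mod_cast hn
  have hn0 : (0 : ℝ) < n := by linarith
  have hs0 : 0 < s - 1 := by linarith
  rw [le_div_iff₀ hs0]
  set x : ℝ := (n : ℝ) + 1 with hx
  have hx0 : 0 < x := by linarith
  have e1 : (n : ℝ) ^ (-(s - 1)) = x ^ (-(s - 1)) * exp (-(s - 1) * Real.log (n / x)) := by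
    have : (n : ℝ) = x * (n / x) := by field_simp
    conv_lhs => rw [this]
    rw [Real.mul_rpow hx0.le (by positivity), Real.rpow_def_of_pos (x := n / x) (by positivity)]
    congr 2
    ring
  have e2 : x ^ (-s) = x ^ (-(s - 1)) * x⁻¹ := by
    rw [← Real.rpow_neg_one, ← Real.rpow_add hx0]; congr 1; ring
  have h1 : Real.log (n / x) ≤ n / x - 1 := Real.log_le_sub_one_of_pos (by positivity)
  have h2 : (n : ℝ) / x - 1 = - x⁻¹ := by
    rw [hx]; field_simp; ring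
  have h3 := Real.add_one_le_exp (-(s - 1) * Real.log (n / x))
  have h4 : (s - 1) * x⁻¹ ≤ -(s - 1) * Real.log (n / x) := by nlinarith
  have h5 : 0 < x ^ (-(s - 1)) := by positivity
  rw [e1, e2]
  have h6 : x ^ (-(s - 1)) * ((s - 1) * x⁻¹) ≤
      x ^ (-(s - 1)) * (exp (-(s - 1) * Real.log (n / x)) - 1) :=
    mul_le_mul_of_nonneg_left (by linarith) h5.le
  linarith

theorem sum_pow_le {s : ℝ} (hs : 1 < s) (N : ℕ) :
    ∑ n ∈ Finset.range (N + 2), one' n * (n : ℝ) ^ (-s) ≤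
      1 + (1 - ((N : ℝ) + 1) ^ (-(s - 1))) / (s - 1) := by
  induction N with
  | zero => simp [Finset.sum_range_succ, one']
  | succ N ih =>
    rw [Finset.sum_range_succ]
    have h := tele_le hs (n := N + 1) (by omega)
    push_cast at h ⊢
    have e : one' (N + 2) = 1 := by simp [one']
    rw [show N + 1 + 1 = N + 2 from rfl, e, one_mul]
    have e2 : ((N : ℝ) + 1 + 1) = N + 2 := by ring
    rw [e2] at h ⊢
    have e3 : (1 - ((N : ℝ) + 2) ^ (-(s - 1))) / (s - 1) = (1 - ((N : ℝ) + 1) ^ (-(s - 1))) / (s - 1)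
      + (((N : ℝ) + 1) ^ (-(s - 1)) - ((N : ℝ) + 2) ^ (-(s - 1))) / (s - 1) := by ring
    rw [e3]
    push_cast
    linarith

theorem LS_one'_le {s : ℝ} (hs : 1 < s) : LS one' s ≤ 1 + 1 / (s - 1) := by
  have hs0 : 0 < s - 1 := by linarith
  unfold LS
  refine Real.tsum_le_of_sum_range_le (fun n => ?_) fun n => ?_
  · unfold one'; split_ifs <;> positivity
  · refine (Finset.sum_le_sum_of_subset_of_nonneg (Finset.range_mono (by omega : n ≤ n + 2))
      fun i _ _ => ?_).trans ((sum_pow_le hs n).trans ?_)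
    · unfold one'; split_ifs <;> positivity
    · have : 0 < ((n : ℝ) + 1) ^ (-(s - 1)) := by positivity
      have h2 : (1 - ((n : ℝ) + 1) ^ (-(s - 1))) / (s - 1) ≤ 1 / (s - 1) :=
        div_le_div_of_nonneg_right (by linarith) hs0.le
      linarith

theorem LS_le {ψ : ℕ → ℝ} (h : CM ψ) {s : ℝ} (hs : 1 < s) : LS ψ s ≤ LS one' s := by
  unfold LS
  refine (h.summable hs).tsum_le_tsum (fun n => ?_) (CM_one'.summable hs)
  rcases Nat.eq_zero_or_pos n with rfl | hn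
  · simp [h.zero, one']
  · rw [one', if_neg hn.ne', one_mul]
    have := h.norm_le s n
    exact (le_abs_self _).trans this

end Vale.Agent.P017.H262
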