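import Vale.Agent.P017.H262.Asm2

/-! From pairs to numbers. -/

set_option linter.all false

namespace Vale.Agent.P017.H262

open Finset Real Filter Topology

theorem dyadic_unique {a b x : ℕ} (h1 : 2 ^ a ≤ x) (h2 : x < 2 ^ (a + 1)) (h3 : 2 ^ b ≤ x)
    (h4 : x < 2 ^ (b + 1)) : a = b := by
  by_contra hcon
  rcases Nat.lt_or_gt_of_ne hcon with h | h
  · have : 2 ^ (a + 1) ≤ 2 ^ b := Nat.pow_le_pow_right (by norm_num) h
    omega
  · have : 2 ^ (b + 1) ≤ 2 ^ a := Nat.pow_le_pow_right (by norm_num) h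
    omega

section
variable {K n i : ℕ} {j' : Fin K → ℕ} {m : ℕ} {p : Fin (K + 1) → ℕ}

theorem anti (hn : 1 ≤ n) (hi : i < n) (hj : j' ∈ JJ K n) (hm : m ∈ MB i)
    (hp : p ∈ Fintype.piFinset fun l : Fin (K + 1) => PB (jj K n i j' l)) : StrictAnti p := by
  have hsz := sz hn hi hj hm
  rw [MB, Finset.mem_filter] at hm
  rw [Fintype.mem_piFinset] at hp
  intro l l' hll
  have h1 := hsz.sep l l' hll
  have h2 := hsz.j_pos hm.2.2 l'
  have h3 : 2 ^ (jj K n i j' l' + 1) ≤ 2 ^ jj K n i j' l := Nat.pow_le_pow_right (by norm_num) (by omega)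
  have h4 := (H12.mem_PB (hp l')).2.1
  have h5 := (H12.mem_PB (hp l)).1
  omega

theorem range_eq (hn : 1 ≤ n) (hi : i < n) (hj : j' ∈ JJ K n) (hm : m ∈ MB i)
    (hp : p ∈ Fintype.piFinset fun l : Fin (K + 1) => PB (jj K n i j' l)) :
    Set.range p = {q | q.Prime ∧ q ∣ m * ∏ l, p l ∧ 2 ^ n ≤ q} := by
  rw [Fintype.mem_piFinset] at hp
  rw [MB, Finset.mem_filter, Finset.mem_Ico] at hm
  ext q
  simp only [Set.mem_range, Set.mem_setOf_eq]
  constructor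
  · rintro ⟨l, rfl⟩
    obtain ⟨h1, _, h2, _⟩ := H12.mem_PB (hp l)
    refine ⟨h2, ?_, ?_⟩
    · exact Dvd.dvd.mul_left (Finset.dvd_prod_of_mem p (Finset.mem_univ l)) m
    · have h3 := jj_ge hn hi hj l
      have : 2 ^ n ≤ 2 ^ jj K n i j' l := Nat.pow_le_pow_right (by norm_num) (by omega)
      omega
  · rintro ⟨h1, h2, h3⟩
    rcases (Nat.Prime.dvd_mul h1).1 h2 with h4 | h4
    · exfalso
      have h5 : 0 < m := by have := Nat.one_le_two_pow (n := i); omega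
      have h6 := Nat.le_of_dvd h5 h4
      have h7 : 2 ^ (i + 1) ≤ 2 ^ n := Nat.pow_le_pow_right (by norm_num) (by omega)
      omega
    · obtain ⟨l, _, h5⟩ := (Prime.dvd_finset_prod_iff h1.prime p).1 h4
      exact ⟨l, ((Nat.prime_dvd_prime_iff_eq h1 (H12.mem_PB (hp l)).2.2.1).1 h5).symm⟩

theorem inj_aux {i₂ : ℕ} {j₂ : Fin K → ℕ} {m₂ : ℕ} {p₂ : Fin (K + 1) → ℕ} (hn : 1 ≤ n)
    (hi : i < n) (hj : j' ∈ JJ K n) (hm : m ∈ MB i)
    (hp : p ∈ Fintype.piFinset fun l : Fin (K + 1) => PB (jj K n i j' l))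
    (hi₂ : i₂ < n) (hj₂ : j₂ ∈ JJ K n) (hm₂ : m₂ ∈ MB i₂)
    (hp₂ : p₂ ∈ Fintype.piFinset fun l : Fin (K + 1) => PB (jj K n i₂ j₂ l))
    (h : m * ∏ l, p l = m₂ * ∏ l, p₂ l) : j' = j₂ ∧ i = i₂ ∧ m = m₂ ∧ p = p₂ := by
  have h1 := range_eq hn hi hj hm hp
  have h2 := range_eq hn hi₂ hj₂ hm₂ hp₂
  rw [h, ← h2] at h1
  have hpp : p = p₂ := Set.range_injOn_strictAnti (anti hn hi hj hm hp) (anti hn hi₂ hj₂ hm₂ hp₂) h1
  rw [Fintype.mem_piFinset] at hp hp₂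
  have hmm : m = m₂ := by
    rw [hpp] at h
    refine Nat.eq_of_mul_eq_mul_right ?_ h
    exact Finset.prod_pos fun l _ => (H12.mem_PB (hp₂ l)).2.2.1.pos
  have hii : i = i₂ := by
    rw [MB, Finset.mem_filter, Finset.mem_Ico] at hm hm₂
    rw [← hmm] at hm₂
    exact dyadic_unique hm.1.1 hm.1.2 hm₂.1.1 hm₂.1.2
  refine ⟨?_, hii, hmm, hpp⟩
  funext l
  have h3 := H12.mem_PB (hp l.succ)
  have h4 := H12.mem_PB (hp₂ l.succ)
  rw [← hpp] at h4
  rw [jj_succ] at h3 h4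
  exact dyadic_unique h3.1 h3.2.1 h4.1 h4.2.1

theorem prod_mod (hp : p ∈ Fintype.piFinset fun l : Fin (K + 1) => PB (jj K n i j' l)) :
    (∏ l, p l) % 60 = 1 := by
  rw [Fintype.mem_piFinset] at hp
  rw [Finset.prod_nat_mod]
  have : ∀ l ∈ (univ : Finset (Fin (K + 1))), p l % 60 = 1 := fun l _ => (H12.mem_PB (hp l)).2.2.2
  rw [Finset.prod_congr rfl this]
  simp

theorem size (hn : 1 ≤ n) (hi : i < n) (hj : j' ∈ JJ K n) (hm : m ∈ MB i)
    (hp : p ∈ Fintype.piFinset fun l : Fin (K + 1) => PB (jj K n i j' l)) :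
    m * ∏ l, p l ≤ 2 ^ NN K n := by
  obtain ⟨g1, g2, g3⟩ := facts hn hi hj
  rw [Fintype.mem_piFinset] at hp
  rw [MB, Finset.mem_filter, Finset.mem_Ico] at hm
  have h1 : ∏ l, p l ≤ ∏ l, 2 ^ (jj K n i j' l + 1) :=
    Finset.prod_le_prod (fun _ _ => Nat.zero_le _) fun l _ => (H12.mem_PB (hp l)).2.1.le
  have h2 : ∏ l, 2 ^ (jj K n i j' l + 1) = 2 ^ (J0 K n j' - i + ∑ l, j' l + (K + 1)) := by
    rw [Finset.prod_pow_eq_pow_sum, Finset.sum_add_distrib, Finset.sum_const, Finset.card_univ,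
      Fintype.card_fin, Fin.sum_univ_succ, jj_zero, smul_eq_mul, mul_one]
    congr 1
  calc m * ∏ l, p l ≤ 2 ^ (i + 1) * 2 ^ (J0 K n j' - i + ∑ l, j' l + (K + 1)) := by
        rw [← h2]; exact Nat.mul_le_mul hm.1.2.le h1
    _ = 2 ^ NN K n := by
        rw [← pow_add]; congr 1; omega

end

open Classical in
/-- the numbers to count -/
noncomputable def TT (x : ℕ) : Finset ℕ :=
  (Icc 1 x).filter (fun d => Squarefree d ∧ d % 60 = 23 ∧ Redei d)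

theorem count_le {K n : ℕ} (hn : 1 ≤ n) :
    ∑ j' ∈ JJ K n, ∑ i ∈ range n, ∑ m ∈ MB i, cnt K n i j' m ≤ (TT (2 ^ NN K n)).card := by
  classical
  set A := (JJ K n).sigma (fun j' => (range n).sigma (fun i => (MB i).sigma (fun m =>
    (Fintype.piFinset fun l : Fin (K + 1) => PB (jj K n i j' l)).filter
    (fun p : Fin (K + 1) → ℕ => Redei (m * ∏ l, p l))))) with hA
  have hcard : A.card = ∑ j' ∈ JJ K n, ∑ i ∈ range n, ∑ m ∈ MB i, cnt K n i j' m := by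
    rw [hA, Finset.card_sigma]
    refine Finset.sum_congr rfl fun j' _ => ?_
    rw [Finset.card_sigma]
    refine Finset.sum_congr rfl fun i _ => ?_
    rw [Finset.card_sigma]
    refine Finset.sum_congr rfl fun m _ => ?_
    rfl
  rw [← hcard]
  refine Finset.card_le_card_of_injOn (fun x => x.2.2.1 * ∏ l, x.2.2.2 l) ?_ ?_
  · rintro ⟨j', i, m, p⟩ hx
    simp only [hA, Finset.coe_sigma, Set.mem_sigma_iff, Finset.mem_coe, Finset.mem_range,
      Finset.mem_filter] at hx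
    obtain ⟨h1, h2, h3, h4, h5⟩ := hx
    have hsz := sz hn h2 h1 h3
    have h3' := h3
    rw [MB, Finset.mem_filter, Finset.mem_Ico] at h3'
    have hadm := adm_of_mem hsz h3'.2.2 h4
    have hsq : Squarefree (m * ∏ l, p l) := H12.sqf_PP h3'.2.1 hadm
    simp only [TT, Finset.coe_filter, Finset.mem_Icc, Set.mem_setOf_eq]
    refine ⟨⟨Nat.one_le_iff_ne_zero.2 hsq.ne_zero, size hn h2 h1 h3 h4⟩, hsq, ?_, h5⟩
    rw [Nat.mul_mod, h3'.2.2, prod_mod h4]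
  · rintro ⟨j', i, m, p⟩ hx ⟨j₂, i₂, m₂, p₂⟩ hy hxy
    simp only [hA, Finset.coe_sigma, Set.mem_sigma_iff, Finset.mem_coe, Finset.mem_range,
      Finset.mem_filter] at hx hy
    obtain ⟨h1, h2, h3, h4, _⟩ := hx
    obtain ⟨k1, k2, k3, k4, _⟩ := hy
    obtain ⟨e1, e2, e3, e4⟩ := inj_aux hn h2 h1 h3 h4 k2 k1 k3 k4 hxy
    subst e1 e2 e3 e4
    rfl

end Vale.Agent.P017.H262
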