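import Vale.Agent.P017.H262.Defs
import Vale.Agent.P017.H12.Bits
import Vale.Agent.P017.H12.First
import Vale.Agent.P017.H12.Flip

/-! The number of good tuples for a fixed `m`. -/

set_option linter.all false

namespace Vale.Agent.P017.H262

open Finset Real

theorem SamePat.symm' {k m : ℕ} {p p' : Fin k → ℕ} (h : SamePat m p p') : SamePat m p' p :=
  fun l q hq => (h l q hq).symm

theorem SamePat.trans' {k m : ℕ} {p p' p'' : Fin k → ℕ} (h : SamePat m p p')
    (h' : SamePat m p' p'') : SamePat m p p'' :=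
  fun l q hq => (h l q hq).trans (h' l q hq)

theorem J_dvd {k m : ℕ} {p p' : Fin k → ℕ} (hm : Squarefree m) (h : SamePat m p p') {a : ℕ}
    (ha : a ∣ m) (l : Fin k) : jacobiSym (p l) a = jacobiSym (p' l) a := by
  have hsq := hm.squarefree_of_dvd ha
  have h1 : ∀ x : ℕ, jacobiSym x a = ∏ q ∈ a.primeFactors, jacobiSym x q := by
    intro x
    have := H12.J_prod_right a.primeFactors (fun q => q) (x : ℤ)
      (fun q hq => (Nat.prime_of_mem_primeFactors hq).ne_zero)
    rwa [Nat.prod_primeFactors_of_squarefree hsq] at this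
  rw [h1, h1]
  refine Finset.prod_congr rfl fun q hq => h l q ?_
  exact Nat.primeFactors_mono ha hm.ne_zero hq

theorem J_prodp {k m : ℕ} {p p' : Fin k → ℕ} (h : SamePat m p p') (c q : ℕ)
    (hq : q ∈ m.primeFactors) :
    jacobiSym (((∏ l, p l) * c : ℕ) : ℤ) q = jacobiSym (((∏ l, p' l) * c : ℕ) : ℤ) q := by
  rw [Nat.cast_mul, Nat.cast_mul, jacobiSym.mul_left, jacobiSym.mul_left, H12.J_prod_left,
    H12.J_prod_left]
  congr 1
  exact Finset.prod_congr rfl fun l _ => h l q hq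

theorem good_congr {k m : ℕ} {p p' : Fin k → ℕ} (hm : Squarefree m) (h : SamePat m p p')
    (hg : Good m p) : Good m p' := by
  intro a ha ha1
  have ham := Nat.dvd_of_mem_divisors ha
  obtain ⟨h1, h2⟩ := hg a ha ha1
  have hmono : ∀ q ∈ a.primeFactors, q ∈ m.primeFactors := fun q hq =>
    Nat.primeFactors_mono ham hm.ne_zero hq
  constructor
  · rintro ⟨b1, b2, b3⟩
    apply h1
    refine ⟨fun l => by rw [J_dvd hm h ham]; exact b1 l, b2, fun q hq => ?_⟩
    rw [J_prodp h _ q (hmono q hq)]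
    exact b3 q hq
  · rintro ⟨b1, b2, b3⟩
    apply h2
    refine ⟨fun l => by rw [J_dvd hm h ham]; exact b1 l, b2, fun q hq => ?_⟩
    rw [J_prodp h _ q (hmono q hq)]
    exact b3 q hq

open Classical in
/-- choose the bits -/
noncomputable def pick {k : ℕ} (R : (Fin k → Fin k → ℤ) → Prop) : Fin k → Fin k → ℤ :=
  if h : ∃ b, R b then h.choose else fun _ _ => 1

theorem pick_spec {k : ℕ} {R : (Fin k → Fin k → ℤ) → Prop} (h : ∃ b, R b) : R (pick R) := by
  unfold pick
  rw [dif_pos h]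
  exact h.choose_spec

/-- what the bits should do -/
def QQ {k : ℕ} (m : ℕ) (p : Fin k → ℕ) (b : Fin k → Fin k → ℤ) : Prop :=
  (∀ l l', b l l' = 1 ∨ b l l' = -1) ∧ ∀ p' : Fin k → ℕ, Adm m p' → SamePat m p' p →
      (∀ l l', l < l' → jacobiSym (p' l) (p' l') = b l l') → Redei (m * ∏ l, p' l)

theorem QQ_congr {k m : ℕ} {p p' : Fin k → ℕ} (h : SamePat m p p') : QQ m p = QQ m p' := by
  funext b
  apply propext
  constructor
  · rintro ⟨h1, h2⟩
    exact ⟨h1, fun p'' ha hs hb => h2 p'' ha (hs.trans' h.symm') hb⟩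
  · rintro ⟨h1, h2⟩
    exact ⟨h1, fun p'' ha hs hb => h2 p'' ha (hs.trans' h) hb⟩

open Classical in
/-- the bits -/
noncomputable def bb {k : ℕ} (m : ℕ) (p : Fin k → ℕ) : Fin k → Fin k → ℤ := pick (QQ m p)

theorem bb_val {k m : ℕ} (p : Fin k → ℕ) (l l' : Fin k) : bb m p l l' = 1 ∨ bb m p l l' = -1 := by
  by_cases h : ∃ b, QQ m p b
  · exact (pick_spec h).1 l l'
  · left
    unfold bb pick
    rw [dif_neg h]

/-- conditions on the sizes -/
structure Sz {k : ℕ} (m : ℕ) (j : Fin k → ℕ) : Prop where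
  sep : ∀ l l', l < l' → 4 * j l' ≤ j l
  big : ∀ l, m ^ 10 ≤ 2 ^ j l

theorem m_lt {m : ℕ} (h60 : m % 60 = 23) : m < m ^ 10 := by
  have : 2 ≤ m := by omega
  calc m = m ^ 1 := (pow_one m).symm
    _ < m ^ 10 := Nat.pow_lt_pow_right (by omega) (by norm_num)

theorem Sz.j_pos {k m : ℕ} {j : Fin k → ℕ} (h : Sz m j) (h60 : m % 60 = 23) (l : Fin k) :
    1 ≤ j l := by
  by_contra hcon
  have h1 : j l = 0 := by omega
  have h2 := h.big l
  rw [h1, pow_zero] at h2
  have := m_lt h60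
  omega

theorem adm_of_mem {k m : ℕ} {j : Fin k → ℕ} (h : Sz m j) (h60 : m % 60 = 23)
    {p : Fin k → ℕ} (hp : p ∈ Fintype.piFinset fun l => PB (j l)) : Adm m p := by
  rw [Fintype.mem_piFinset] at hp
  have hmem := fun l => H12.mem_PB (hp l)
  refine ⟨fun l => (hmem l).2.2.1, fun l => ?_, fun l hd => ?_, ?_⟩
  · have := (hmem l).2.2.2
    omega
  · have h1 : p l ≤ m := Nat.le_of_dvd (by omega) hd
    have h2 := h.big l
    have h3 := (hmem l).1
    have h4 := m_lt h60
    omega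
  · have key : ∀ l l', l < l' → p l' < p l := by
      intro l l' hll
      have h1 := h.sep l l' hll
      have h2 := h.j_pos h60 l'
      have h3 : 2 ^ (j l' + 1) ≤ 2 ^ j l := Nat.pow_le_pow_right (by norm_num) (by omega)
      have h4 := (hmem l').2.1
      have h5 := (hmem l).1
      omega
    intro l l' hll
    rcases lt_trichotomy l l' with h1 | h1 | h1
    · have := key l l' h1; omega
    · exact h1
    · have := key l' l h1; omega

open Classical in
/-- the bad part -/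
noncomputable def bad {k : ℕ} (m : ℕ) (j : Fin k → ℕ) : ℝ :=
  (∏ l, ((PB (j l)).card : ℝ)) * ((1 / 2 : ℝ) ^ (k - 1) * (G m + G' m - 2)) +
      4 * ∑ l, (∏ l' ∈ univ.erase l, ((PB (j l')).card : ℝ)) *
        ∑ a ∈ m.divisors, ∑ e ∈ a.divisors.erase 1, |SP (j l) e|

open Classical in
theorem perM (k : ℕ) : ∃ C : ℝ, 0 ≤ C ∧ ∀ (m : ℕ) (j : Fin k → ℕ), 0 < k → Squarefree m → m % 60 = 23 →
    Sz m j →
    (1 / 2 : ℝ) ^ (k * (k - 1) / 2) * ((∏ l, ((PB (j l)).card : ℝ)) - bad m j) -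
      C * (∏ l, (2 : ℝ) ^ j l) * ∑ l, (2 : ℝ) ^ (-(j l : ℝ) / 10) ≤
    (((Fintype.piFinset fun l => PB (j l)).filter (fun p => Redei (m * ∏ l, p l))).card : ℝ) := by
  obtain ⟨C, hbits⟩ := H12.bits k
  refine ⟨max C 0, le_max_right _ _, fun m j hk hm h60 hsz => ?_⟩
  have h4 : m % 4 = 3 := by omega
  have h30 : Nat.Coprime m 30 := by
    rw [Nat.Coprime, Nat.gcd_comm, Nat.gcd_rec]
    have : m % 30 = 23 := by omega
    rw [this]; norm_num
  have h1 := hbits m j hk (by omega) hsz.sep hsz.big (Good m) (bb m)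
    (fun p p' h => ⟨⟨good_congr hm h, good_congr hm h.symm'⟩, congrArg pick (QQ_congr h)⟩)
    (fun p l l' => bb_val p l l')
  have hsub : (Fintype.piFinset fun l => PB (j l)).filter (fun p => Good m p ∧ ∀ l l', l < l' →
      jacobiSym (p l) (p l') = bb m p l l') ⊆
      (Fintype.piFinset fun l => PB (j l)).filter (fun p => Redei (m * ∏ l, p l)) := by
    intro p hp
    rw [Finset.mem_filter] at hp
    obtain ⟨hp1, hg, hb⟩ := hp
    rw [Finset.mem_filter]
    refine ⟨hp1, ?_⟩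
    have hadm := adm_of_mem hsz h60 hp1
    have hex : ∃ b, QQ m p b := H12.flip k m p hk hm h4 hadm hg
    exact (pick_spec hex).2 p hadm (fun _ _ _ => rfl) hb
  have h2 : (((Fintype.piFinset fun l => PB (j l)).filter (fun p => Good m p ∧ ∀ l l', l < l' →
      jacobiSym (p l) (p l') = bb m p l l')).card : ℝ) ≤
      (((Fintype.piFinset fun l => PB (j l)).filter (fun p => Redei (m * ∏ l, p l))).card : ℝ) := by
    exact_mod_cast Finset.card_le_card hsub
  have hlt : ∀ l, m < 2 ^ j l := fun l => (m_lt h60).trans_le (hsz.big l)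
  have h3 := H12.firstMoment k m j hk hm h30 hlt
  have h5 : (((Fintype.piFinset fun l => PB (j l)).filter (fun p => Good m p)).card : ℝ) +
      (((Fintype.piFinset fun l => PB (j l)).filter (fun p => ¬ Good m p)).card : ℝ) =
      ∏ l, ((PB (j l)).card : ℝ) := by
    have := Finset.card_filter_add_card_filter_not (s := Fintype.piFinset fun l => PB (j l)) (Good m)
    have h6 : (Fintype.piFinset fun l => PB (j l)).card = ∏ l, (PB (j l)).card :=
      Fintype.card_piFinset _
    rw [h6] at this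
    exact_mod_cast this
  have h7 : (∏ l, ((PB (j l)).card : ℝ)) - bad m j ≤
      (((Fintype.piFinset fun l => PB (j l)).filter (fun p => Good m p)).card : ℝ) := by
    unfold bad
    linarith
  have h8 : (0 : ℝ) ≤ (∏ l, (2 : ℝ) ^ j l) * ∑ l, (2 : ℝ) ^ (-(j l : ℝ) / 10) :=
    mul_nonneg (Finset.prod_nonneg fun _ _ => by positivity)
      (Finset.sum_nonneg fun _ _ => by positivity)
  have h9 : C * (∏ l, (2 : ℝ) ^ j l) * ∑ l, (2 : ℝ) ^ (-(j l : ℝ) / 10) ≤
      max C 0 * (∏ l, (2 : ℝ) ^ j l) * ∑ l, (2 : ℝ) ^ (-(j l : ℝ) / 10) := by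
    rw [mul_assoc, mul_assoc]
    exact mul_le_mul_of_nonneg_right (le_max_left _ _) h8
  have h10 : (1 / 2 : ℝ) ^ (k * (k - 1) / 2) * ((∏ l, ((PB (j l)).card : ℝ)) - bad m j) ≤
      (1 / 2 : ℝ) ^ (k * (k - 1) / 2) *
      (((Fintype.piFinset fun l => PB (j l)).filter (fun p => Good m p)).card : ℝ) :=
    mul_le_mul_of_nonneg_left h7 (by positivity)
  linarith

end Vale.Agent.P017.H262
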