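import Vale.Agent.P017.H262.Blk

/-! The first moment of `L(s, χ_a)` with weights `2^{-ω(a)} a^{-s}`. -/

set_option linter.all false

namespace Vale.Agent.P017.H262

open Finset Real Filter Topology

open scoped NumberTheorySymbols

/-- Pólya–Vinogradov with constant `C` -/
def PVC (C : ℝ) : Prop := ∀ D : ℤ, Odd D → ¬ IsSquare D → ∀ N : ℕ,
    |∑ n ∈ Icc 1 N, (jf D n : ℝ)| ≤ C * (D.natAbs : ℝ) ^ (3 / 5 : ℝ)

/-- the tail -/
noncomputable def Rt (ε : ℤ) (s : ℝ) (n0 a : ℕ) : ℝ :=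
  LS (jr (ε * a)) s - ∑ n ∈ Icc 1 (2 ^ n0), jr (ε * a) n * (n : ℝ) ^ (-s)

theorem two_rpow_le {x y : ℝ} (h : x ≤ y) : (2 : ℝ) ^ x ≤ 2 ^ y :=
  Real.rpow_le_rpow_of_exponent_le (by norm_num) h

theorem eps_odd {ε : ℤ} (hε : ε = 1 ∨ ε = -1) {a : ℕ} (ha : Odd a) : Odd (ε * a) := by
  rcases hε with rfl | rfl
  · simpa using ha
  · simpa using ha

theorem eps_natAbs {ε : ℤ} (hε : ε = 1 ∨ ε = -1) (a : ℕ) : (ε * a).natAbs = a := by
  rcases hε with rfl | rfl <;> simp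

theorem mid_l1 {C C1 : ℝ} (hC : 1 ≤ C) (hpv : PVC C) (hC1 : 0 < C1)
    (hdiag : ∀ N0 N1 : ℕ, 1 ≤ N0 →
      ∑ x ∈ (Ioc N0 N1 ×ˢ Ioc N0 N1).filter (fun x => IsSquare (x.1 * x.2)),
      1 / ((x.1 : ℝ) * x.2) ≤ C1 * (N0 : ℝ) ^ (-(1 / 2) : ℝ)) (ε : ℤ) {s : ℝ} (hs : 1 < s)
    (j n0 : ℕ) :
    ∑ a ∈ OB j, |Mid ε s (2 ^ n0) (2 ^ (max n0 ((7 * j + 9) / 10))) a| ≤
      √(C1 + 24 * C) * (2 ^ j * (2 : ℝ) ^ (-(n0 : ℝ) / 10)) := by
  set u : ℕ := max n0 ((7 * j + 9) / 10) with hu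
  by_cases hun : u = n0
  · have : ∀ a ∈ OB j, |Mid ε s (2 ^ n0) (2 ^ u) a| = 0 := by
      intro a _
      rw [hun, Mid, Finset.Ioc_self, Finset.sum_empty, abs_zero]
    rw [Finset.sum_congr rfl this, Finset.sum_const_zero]
    positivity
  · have hu1 : u = (7 * j + 9) / 10 := by
      rcases max_choice n0 ((7 * j + 9) / 10) with h | h
      · exact absurd (hu.trans h) hun
      · exact hu.trans h
    have hu2 : n0 ≤ u := le_max_left _ _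
    have hu3 : (u : ℝ) ≤ (7 * j + 9) / 10 := by
      have : 10 * u ≤ 7 * j + 9 := by omega
      have h' : (10 * u : ℝ) ≤ 7 * j + 9 := by exact_mod_cast this
      linarith
    have hu4 : (n0 : ℝ) ≤ u := by exact_mod_cast hu2
    have h1 := mid_sq hC hpv hdiag ε hs j (2 ^ n0) (2 ^ u) Nat.one_le_two_pow
    have e1 : ((2 ^ n0 : ℕ) : ℝ) ^ (-(1 / 2) : ℝ) = 2 ^ (-(n0 : ℝ) / 2) := by
      push_cast
      rw [← Real.rpow_natCast, ← Real.rpow_mul (by norm_num)]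
      congr 1; ring
    have e2 : ((2 ^ u : ℕ) : ℝ) ^ (6 / 5 : ℝ) = 2 ^ ((6 / 5) * (u : ℝ)) := by
      push_cast
      rw [← Real.rpow_natCast, ← Real.rpow_mul (by norm_num)]
      congr 1; ring
    rw [e1, e2] at h1
    have h2 : (2 : ℝ) ^ (-(n0 : ℝ) / 2) ≤ 2 ^ (-(n0 : ℝ) / 5) := two_rpow_le (by
      have : (0 : ℝ) ≤ n0 := Nat.cast_nonneg _
      linarith)
    have h3 : (2 : ℝ) ^ ((6 / 5) * (u : ℝ)) ≤ 3 * (2 ^ j * 2 ^ (-(n0 : ℝ) / 5)) := by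
      have h4 : (2 : ℝ) ^ ((6 / 5) * (u : ℝ)) ≤ 2 ^ ((3 / 2 : ℝ) + ((j : ℝ) + (-(n0 : ℝ) / 5))) := by
        apply two_rpow_le
        have : (0 : ℝ) ≤ j := Nat.cast_nonneg _
        linarith
      rw [Real.rpow_add (by norm_num), Real.rpow_add (by norm_num), Real.rpow_natCast] at h4
      refine h4.trans (mul_le_mul_of_nonneg_right ?_ (by positivity))
      have h5 : ((2 : ℝ) ^ (3 / 2 : ℝ)) ^ 2 = 8 := by
        rw [← Real.rpow_natCast, ← Real.rpow_mul (by norm_num)]; norm_num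
      have h6 : (0 : ℝ) < (2 : ℝ) ^ (3 / 2 : ℝ) := by positivity
      nlinarith
    have h4 : ∑ a ∈ OB j, Mid ε s (2 ^ n0) (2 ^ u) a ^ 2 ≤
        (C1 + 24 * C) * (2 ^ j * 2 ^ (-(n0 : ℝ) / 5)) := by
      have h5 : (2 : ℝ) ^ j * (C1 * 2 ^ (-(n0 : ℝ) / 2)) ≤ 2 ^ j * (C1 * 2 ^ (-(n0 : ℝ) / 5)) :=
        mul_le_mul_of_nonneg_left (mul_le_mul_of_nonneg_left h2 hC1.le) (by positivity)
      have h6 : 8 * C * 2 ^ ((6 / 5) * (u : ℝ)) ≤ 8 * C * (3 * (2 ^ j * 2 ^ (-(n0 : ℝ) / 5))) :=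
        mul_le_mul_of_nonneg_left h3 (by linarith)
      calc _ ≤ _ := h1
        _ ≤ _ := add_le_add h5 h6
        _ = _ := by ring
    have h5 : (∑ a ∈ OB j, |Mid ε s (2 ^ n0) (2 ^ u) a|) ^ 2 ≤
        ((OB j).card : ℝ) * ∑ a ∈ OB j, |Mid ε s (2 ^ n0) (2 ^ u) a| ^ 2 :=
      sq_sum_le_card_mul_sum_sq
    simp_rw [sq_abs] at h5
    have h6 : (∑ a ∈ OB j, |Mid ε s (2 ^ n0) (2 ^ u) a|) ^ 2 ≤
        (√(C1 + 24 * C) * (2 ^ j * (2 : ℝ) ^ (-(n0 : ℝ) / 10))) ^ 2 := by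
      rw [mul_pow, Real.sq_sqrt (by linarith)]
      have e3 : ((2 : ℝ) ^ j * (2 : ℝ) ^ (-(n0 : ℝ) / 10)) ^ 2 =
          2 ^ j * (2 ^ j * 2 ^ (-(n0 : ℝ) / 5)) := by
        have : ((2 : ℝ) ^ (-(n0 : ℝ) / 10)) ^ 2 = 2 ^ (-(n0 : ℝ) / 5) := by
          rw [← Real.rpow_natCast, ← Real.rpow_mul (by norm_num)]
          congr 1; push_cast; ring
        rw [mul_pow, this]; ring
      rw [e3]
      calc _ ≤ ((OB j).card : ℝ) * ∑ a ∈ OB j, Mid ε s (2 ^ n0) (2 ^ u) a ^ 2 := h5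
        _ ≤ 2 ^ j * ((C1 + 24 * C) * (2 ^ j * 2 ^ (-(n0 : ℝ) / 5))) :=
          mul_le_mul (OB_card j) h4 (Finset.sum_nonneg fun _ _ => sq_nonneg _) (by positivity)
        _ = _ := by ring
    exact (abs_le_of_sq_le_sq' h6 (by positivity)).2

theorem block {C C1 : ℝ} (hC : 1 ≤ C) (hpv : PVC C) (hC1 : 0 < C1)
    (hdiag : ∀ N0 N1 : ℕ, 1 ≤ N0 →
      ∑ x ∈ (Ioc N0 N1 ×ˢ Ioc N0 N1).filter (fun x => IsSquare (x.1 * x.2)),
      1 / ((x.1 : ℝ) * x.2) ≤ C1 * (N0 : ℝ) ^ (-(1 / 2) : ℝ)) {ε : ℤ} (hε : ε = 1 ∨ ε = -1)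
    {s : ℝ} (hs : 1 < s) (j n0 : ℕ) :
    ∑ a ∈ (OB j).filter (fun a : ℕ => ¬ IsSquare (ε * a)), |Rt ε s n0 a| ≤
      (√(C1 + 24 * C) + 4 * C) * (2 ^ j * (2 : ℝ) ^ (-(n0 : ℝ) / 10)) := by
  set u : ℕ := max n0 ((7 * j + 9) / 10) with hu
  have hu2 : n0 ≤ u := le_max_left _ _
  have hu3 : (7 * j + 9) / 10 ≤ u := le_max_right _ _
  have hu4 : (n0 : ℝ) ≤ u := by exact_mod_cast hu2
  have hu5 : (7 * j : ℝ) / 10 ≤ u := by
    have : 7 * j ≤ 10 * u := by omega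
    have h' : (7 * j : ℝ) ≤ 10 * u := by exact_mod_cast this
    linarith
  have hterm : ∀ a ∈ (OB j).filter (fun a : ℕ => ¬ IsSquare (ε * a)), |Rt ε s n0 a| ≤
      |Mid ε s (2 ^ n0) (2 ^ u) a| + 4 * C * 2 ^ (-(n0 : ℝ) / 10) := by
    intro a ha
    rw [Finset.mem_filter, OB, Finset.mem_filter, Finset.mem_Ico] at ha
    obtain ⟨⟨⟨ha1, ha2⟩, hodd⟩, hsq⟩ := ha
    have h1 := tail_bd (c := jr (ε * a)) hs (hpv _ (eps_odd hε hodd) hsq) ((CM_jr _).summable hs)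
      (CM_jr _).zero (M := 2 ^ u) Nat.one_le_two_pow
    rw [eps_natAbs hε] at h1
    have e1 : Rt ε s n0 a = Mid ε s (2 ^ n0) (2 ^ u) a +
        (LS (jr (ε * a)) s - ∑ k ∈ Icc 1 (2 ^ u), jr (ε * a) k * (k : ℝ) ^ (-s)) := by
      have h2 : Icc 1 (2 ^ u) = Icc 1 (2 ^ n0) ∪ Ioc (2 ^ n0) (2 ^ u) := by
        have h3 : 1 ≤ 2 ^ n0 := Nat.one_le_two_pow
        have h4 : 2 ^ n0 ≤ 2 ^ u := Nat.pow_le_pow_right (by norm_num) hu2
        ext k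
        simp only [Finset.mem_Icc, Finset.mem_union, Finset.mem_Ioc]
        omega
      rw [h2, Finset.sum_union (by
        rw [Finset.disjoint_left]
        intro k
        simp only [Finset.mem_Icc, Finset.mem_Ioc]
        omega), Rt, Mid]
      ring
    rw [e1]
    refine (abs_add_le _ _).trans (add_le_add le_rfl (h1.trans ?_))
    have h5 : (a : ℝ) ^ (3 / 5 : ℝ) ≤ 2 ^ ((3 / 5 : ℝ) * (j + 1)) := by
      have h6 : (a : ℝ) ≤ 2 ^ (j + 1) := by exact_mod_cast ha2.le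
      have h7 := Real.rpow_le_rpow (Nat.cast_nonneg a) h6 (by norm_num : (0 : ℝ) ≤ 3 / 5)
      refine h7.trans (le_of_eq ?_)
      rw [← Real.rpow_natCast, ← Real.rpow_mul (by norm_num)]
      congr 1; push_cast; ring
    have h6 : (2 : ℝ) ^ ((3 / 5 : ℝ) * (j + 1)) ≤ 2 * (2 ^ u * 2 ^ (-(n0 : ℝ) / 10)) := by
      have h7 : (2 : ℝ) ^ ((3 / 5 : ℝ) * (j + 1)) ≤ 2 ^ ((1 : ℝ) + ((u : ℝ) + (-(n0 : ℝ) / 10))) := by
        apply two_rpow_le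
        have : (0 : ℝ) ≤ j := Nat.cast_nonneg _
        linarith
      rwa [Real.rpow_add (by norm_num), Real.rpow_add (by norm_num), Real.rpow_natCast,
        Real.rpow_one] at h7
    push_cast
    rw [div_le_iff₀ (by positivity)]
    have h8 : 2 * (C * (a : ℝ) ^ (3 / 5 : ℝ)) ≤ 2 * (C * (2 * (2 ^ u * 2 ^ (-(n0 : ℝ) / 10)))) :=
      mul_le_mul_of_nonneg_left (mul_le_mul_of_nonneg_left (h5.trans h6) (by linarith))
        (by norm_num)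
    refine h8.trans (le_of_eq (by ring))
  refine (Finset.sum_le_sum hterm).trans ?_
  rw [Finset.sum_add_distrib, add_mul]
  refine add_le_add ?_ ?_
  · refine (Finset.sum_le_sum_of_subset_of_nonneg (Finset.filter_subset _ _)
      fun _ _ _ => abs_nonneg _).trans ?_
    exact mid_l1 hC hpv hC1 hdiag ε hs j n0
  · rw [Finset.sum_const, nsmul_eq_mul]
    have h1 : (((OB j).filter (fun a : ℕ => ¬ IsSquare (ε * a))).card : ℝ) ≤ 2 ^ j :=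
      (by exact_mod_cast Finset.card_filter_le _ _ :
        (((OB j).filter (fun a : ℕ => ¬ IsSquare (ε * a))).card : ℝ) ≤ ((OB j).card : ℝ)).trans
        (OB_card j)
    calc _ ≤ 2 ^ j * (4 * C * 2 ^ (-(n0 : ℝ) / 10)) :=
          mul_le_mul_of_nonneg_right h1 (by positivity)
      _ = _ := by ring

end Vale.Agent.P017.H262
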