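import Vale.Agent.P017.H262.TBd

/-! The first moment of `L(s, χ_a)`: assembly. -/

set_option linter.all false

namespace Vale.Agent.P017.H262

open Finset Real Filter Topology

open scoped NumberTheorySymbols

open Classical in
/-- the weights -/
noncomputable def wA (ε : ℤ) (s : ℝ) (a : ℕ) : ℝ :=
  if Odd a ∧ ¬ IsSquare (ε * a : ℤ) then w a * (a : ℝ) ^ (-s) else 0

theorem wA_nonneg (ε : ℤ) (s : ℝ) (a : ℕ) : 0 ≤ wA ε s a := by
  unfold wA; split_ifs
  · exact mul_nonneg (w_nonneg a) (by positivity)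
  · exact le_rfl

theorem wA_le (ε : ℤ) (s : ℝ) (a : ℕ) : wA ε s a ≤ (a : ℝ) ^ (-s) := by
  unfold wA; split_ifs
  · exact mul_le_of_le_one_left (by positivity) (w_le_one a)
  · positivity

theorem wA_zero (ε : ℤ) (s : ℝ) : wA ε s 0 = 0 := by
  unfold wA; simp

theorem summable_wA (ε : ℤ) {s : ℝ} (hs : 1 < s) {g : ℕ → ℝ} {B : ℝ} (hg : ∀ a, |g a| ≤ B) :
    Summable fun a => wA ε s a * g a := by
  refine Summable.of_norm_bounded ((summable_pow hs).mul_right B) fun a => ?_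
  rw [norm_mul, Real.norm_eq_abs, Real.norm_eq_abs, abs_of_nonneg (wA_nonneg ε s a)]
  exact mul_le_mul (wA_le ε s a) (hg a) (abs_nonneg _) (by positivity)

theorem LS_jr_abs (D : ℤ) {s : ℝ} (hs : 1 < s) : |LS (jr D) s| ≤ 1 + 1 / (s - 1) := by
  rw [abs_of_pos (LS_pos (CM_jr D) hs)]
  exact (LS_le (CM_jr D) hs).trans (LS_one'_le hs)

/-- geometric series -/
theorem geom_bd {σ : ℝ} (hσ : 0 < σ) (hσ1 : σ ≤ 1) (J : ℕ) :
    ∑ j ∈ Finset.range J, (2 : ℝ) ^ (-(σ * j)) ≤ 2 / σ := by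
  set r : ℝ := 2 ^ (-σ) with hr
  have hr0 : 0 < r := by positivity
  have hr1 : 1 - r ≥ σ / 2 := by
    have h := rpow_one_add_le_one_add_mul_self (s := -(1 / 2)) (p := σ) (by norm_num) hσ.le hσ1
    have e : (1 + -(1 / 2) : ℝ) ^ σ = r := by
      rw [hr, Real.rpow_neg (by norm_num), ← Real.inv_rpow (by norm_num)]
      norm_num
    rw [e] at h
    linarith
  have e1 : ∀ j ∈ Finset.range J, (2 : ℝ) ^ (-(σ * j)) = r ^ j := by
    intro j _
    rw [hr, ← Real.rpow_natCast, ← Real.rpow_mul (by norm_num)]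
    congr 1; ring
  rw [Finset.sum_congr rfl e1]
  have h2 : (∑ j ∈ Finset.range J, r ^ j) * (1 - r) = 1 - r ^ J := by
    have := geom_sum_mul r J
    linarith
  have h3 : 0 < r ^ J := by positivity
  have h4 : 0 ≤ ∑ j ∈ Finset.range J, r ^ j := Finset.sum_nonneg fun _ _ => by positivity
  rw [le_div_iff₀ hσ]
  nlinarith

theorem sum_dyadic (g : ℕ → ℝ) (J : ℕ) :
    ∑ a ∈ Finset.range (2 ^ J), g a = g 0 + ∑ j ∈ Finset.range J, ∑ a ∈ Ico (2 ^ j) (2 ^ (j + 1)), g a := by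
  induction J with
  | zero => simp
  | succ J ih =>
    rw [Finset.sum_range_succ, ← add_assoc, ← ih, Finset.range_eq_Ico, Finset.range_eq_Ico]
    rw [Finset.sum_Ico_consecutive _ (Nat.zero_le _) (Nat.pow_le_pow_right (by norm_num) (by omega))]

/-- the contribution of the tails -/
theorem R_bd {K : ℝ} (hK : 0 ≤ K) {ε : ℤ} {s : ℝ} (hs : 1 < s) (hs2 : s ≤ 2) (n0 : ℕ)
    (hblock : ∀ j, ∑ a ∈ (OB j).filter (fun a : ℕ => ¬ IsSquare (ε * a)), |Rt ε s n0 a| ≤
      K * (2 ^ j * (2 : ℝ) ^ (-(n0 : ℝ) / 10))) :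
    ∑' a : ℕ, wA ε s a * |Rt ε s n0 a| ≤ K * (2 : ℝ) ^ (-(n0 : ℝ) / 10) * (2 / (s - 1)) := by
  have hs0 : 0 < s - 1 := by linarith
  have hnn : ∀ a, 0 ≤ wA ε s a * |Rt ε s n0 a| := fun a => mul_nonneg (wA_nonneg _ _ _) (abs_nonneg _)
  refine Real.tsum_le_of_sum_range_le hnn fun n => ?_
  refine (Finset.sum_le_sum_of_subset_of_nonneg (Finset.range_mono (Nat.lt_two_pow_self (n := n)).le)
    fun a _ _ => hnn a).trans ?_
  rw [sum_dyadic, wA_zero, zero_mul, zero_add]
  have hb : ∀ j ∈ Finset.range n, ∑ a ∈ Ico (2 ^ j) (2 ^ (j + 1)), wA ε s a * |Rt ε s n0 a| ≤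
      K * (2 : ℝ) ^ (-(n0 : ℝ) / 10) * 2 ^ (-((s - 1) * j)) := by
    intro j _
    have h1 : ∀ a ∈ Ico (2 ^ j) (2 ^ (j + 1)), wA ε s a * |Rt ε s n0 a| ≤
        if (Odd a ∧ ¬ IsSquare (ε * a : ℤ)) then (2 : ℝ) ^ (-(s * j)) * |Rt ε s n0 a| else 0 := by
      intro a ha
      rw [Finset.mem_Ico] at ha
      unfold wA
      split_ifs with h
      · refine mul_le_mul_of_nonneg_right ?_ (abs_nonneg _)
        refine (mul_le_of_le_one_left (by positivity) (w_le_one a)).trans ?_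
        have h2 : (2 : ℝ) ^ j ≤ a := by exact_mod_cast ha.1
        calc (a : ℝ) ^ (-s) ≤ ((2 : ℝ) ^ j) ^ (-s) :=
              Real.rpow_le_rpow_of_nonpos (by positivity) h2 (by linarith)
          _ = 2 ^ (-(s * j)) := by
              rw [← Real.rpow_natCast, ← Real.rpow_mul (by norm_num)]
              congr 1; ring
      · simp
    refine (Finset.sum_le_sum h1).trans ?_
    rw [← Finset.sum_filter]
    have e1 : (Ico (2 ^ j) (2 ^ (j + 1))).filter (fun a : ℕ => Odd a ∧ ¬ IsSquare (ε * a : ℤ)) =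
        (OB j).filter (fun a : ℕ => ¬ IsSquare (ε * a)) := by
      rw [OB, Finset.filter_filter]
    rw [e1, ← Finset.mul_sum]
    calc (2 : ℝ) ^ (-(s * j)) * ∑ a ∈ (OB j).filter (fun a : ℕ => ¬ IsSquare (ε * a)), |Rt ε s n0 a|
        ≤ (2 : ℝ) ^ (-(s * j)) * (K * (2 ^ j * (2 : ℝ) ^ (-(n0 : ℝ) / 10))) :=
          mul_le_mul_of_nonneg_left (hblock j) (by positivity)
      _ = K * (2 : ℝ) ^ (-(n0 : ℝ) / 10) * (2 ^ (-(s * j)) * 2 ^ j) := by ring
      _ = _ := by
          congr 1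
          rw [← Real.rpow_natCast, ← Real.rpow_add (by norm_num)]
          congr 1; ring
  refine (Finset.sum_le_sum hb).trans ?_
  rw [← Finset.mul_sum]
  exact mul_le_mul_of_nonneg_left (geom_bd hs0 (by linarith) n) (by positivity)

theorem PS_le {ψ : ℕ → ℝ} (h : CM ψ) {s : ℝ} (hs : 1 < s) : PS ψ s ≤ PS one' s := by
  unfold PS
  refine (h.summableP hs).tsum_le_tsum (fun p => ?_) (CM_one'.summableP hs)
  have : one' (p : ℕ) = 1 := by simp [one', p.2.ne_zero]
  rw [this]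
  exact mul_le_mul_of_nonneg_right ((le_abs_self _).trans (h.le _)) (by positivity)

theorem exp_half {x y : ℝ} (h : exp x ≤ y) : exp (x / 2) ≤ √y := by
  apply Real.le_sqrt_of_sq_le
  rw [← Real.exp_nat_mul]
  convert h using 2
  push_cast; ring

/-- the sums over `a` for a fixed `n` -/
theorem B_bd {C : ℝ} (hC : 1 ≤ C) (hpv : PVC C) {ε : ℤ} (hε : ε = 1 ∨ ε = -1) {s : ℝ} (hs : 1 < s)
    (n : ℕ) (hn : 1 ≤ n) : |∑' a : ℕ, wA ε s a * jr (ε * a) n| ≤
      (if IsSquare n then √(1 + 1 / (s - 1)) else 0) + √(3 * C + Real.log n) + 1 := by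
  have hnn : (0 : ℝ) ≤ (if IsSquare n then √(1 + 1 / (s - 1)) else 0) := by
    split_ifs <;> positivity
  have hlog : 0 ≤ Real.log n := Real.log_nonneg (by exact_mod_cast hn)
  by_cases hodd : Odd n
  · have hterm : ∀ a : ℕ, wA ε s a * jr (ε * a) n =
        (J(ε | n) : ℝ) * (w a * (jr (star n) a * (a : ℝ) ^ (-s)) -
          if a = 1 ∧ ε = 1 then 1 else 0) := by
      intro a
      by_cases ha : Odd a
      · have e1 : jr (ε * a) n = (J(ε | n) : ℝ) * jr (star n) a := by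
          rw [jr, key ha hodd, jr]; push_cast; ring
        by_cases ha1 : a = 1 ∧ ε = 1
        · obtain ⟨rfl, rfl⟩ := ha1
          rw [wA, if_neg (by simp)]
          simp [w_one, jr, jf_one]
        · rw [if_neg ha1, sub_zero, e1]
          by_cases hsqf : Squarefree a
          · have : ¬ IsSquare (ε * a : ℤ) := by
              rintro ⟨t, ht⟩
              apply ha1
              have h1 : a = t.natAbs * t.natAbs := by
                rw [← Int.natAbs_mul, ← ht, eps_natAbs hε]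
              have h2 := hsqf t.natAbs ⟨1, by rw [mul_one]; exact h1⟩
              rw [Nat.isUnit_iff] at h2
              rw [h2] at h1
              refine ⟨by simpa using h1, ?_⟩
              rcases hε with h | h
              · exact h
              · exfalso
                rw [h, h1] at ht
                have := mul_self_nonneg t
                rw [← ht] at this
                norm_num at this
            rw [wA, if_pos ⟨ha, this⟩]
            ring
          · have hw : w a = 0 := by rw [w, if_neg hsqf]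
            rw [wA, hw]
            simp
      · have e1 : jr (star n) a = 0 := by rw [jr, jf_even _ ha]; simp
        rw [wA, if_neg (fun h => ha h.1), e1, if_neg]
        · ring
        · rintro ⟨rfl, _⟩
          simp at ha
    have hs1 : Summable fun a : ℕ => w a * (jr (star n) a * (a : ℝ) ^ (-s)) := by
      refine Summable.of_norm_bounded (summable_pow hs) fun a => ?_
      rw [norm_mul, Real.norm_eq_abs, abs_of_nonneg (w_nonneg a)]
      calc _ ≤ 1 * ‖jr (star n) a * (a : ℝ) ^ (-s)‖ :=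
            mul_le_mul_of_nonneg_right (w_le_one a) (norm_nonneg _)
        _ ≤ _ := by rw [one_mul]; exact (CM_jr _).norm_le s a
    have hs2 : Summable fun a : ℕ => (if a = 1 ∧ ε = 1 then (1 : ℝ) else 0) :=
      summable_of_ne_finset_zero (s := {1}) fun a ha => if_neg fun h => ha (by simp [h.1])
    have e2 : ∑' a : ℕ, wA ε s a * jr (ε * a) n =
        (J(ε | n) : ℝ) * (∑' a : ℕ, w a * (jr (star n) a * (a : ℝ) ^ (-s)) -
          ∑' a : ℕ, if a = 1 ∧ ε = 1 then (1 : ℝ) else 0) := by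
      rw [← hs1.tsum_sub hs2, ← tsum_mul_left]
      exact tsum_congr hterm
    have e3 : |∑' a : ℕ, if a = 1 ∧ ε = 1 then (1 : ℝ) else 0| ≤ 1 := by
      rw [tsum_eq_single 1 (fun a ha => if_neg fun h => ha h.1)]
      split_ifs <;> norm_num
    have e4 : |∑' a : ℕ, w a * (jr (star n) a * (a : ℝ) ^ (-s))| ≤
        (if IsSquare n then √(1 + 1 / (s - 1)) else 0) + √(3 * C + Real.log n) := by
      refine (abs_w_le (CM_jr _) hs).trans ?_
      split_ifs with hsq
      · have h1 : exp (PS (jr (star n)) s / 2) ≤ √(1 + 1 / (s - 1)) := by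
          apply exp_half
          refine le_trans (Real.exp_le_exp.2 (PS_le (CM_jr _) hs)) ?_
          exact (exp_PS_le CM_one' hs).trans (LS_one'_le hs)
        linarith [Real.sqrt_nonneg (3 * C + Real.log n)]
      · rw [zero_add]
        apply exp_half
        refine (exp_PS_le (CM_jr _) hs).trans ?_
        have := LS_jr_le hC hpv (star_odd hodd) (star_not_isSquare hodd hsq) hs
        rwa [star_natAbs hodd] at this
    rw [e2, abs_mul]
    calc _ ≤ 1 * |∑' a : ℕ, w a * (jr (star n) a * (a : ℝ) ^ (-s)) -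
          ∑' a : ℕ, if a = 1 ∧ ε = 1 then (1 : ℝ) else 0| :=
          mul_le_mul_of_nonneg_right (abs_J_le _ _) (abs_nonneg _)
      _ ≤ _ := by
          rw [one_mul]
          refine (abs_sub _ _).trans ?_
          linarith
  · have : ∀ a : ℕ, wA ε s a * jr (ε * a) n = 0 := by
      intro a
      rw [jr, jf_even _ hodd]; simp
    simp_rw [this]
    rw [tsum_zero, abs_zero]
    have := Real.sqrt_nonneg (3 * C + Real.log n)
    linarith

/-- the sum over the squares -/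
theorem sq_sum_le (N : ℕ) : ∑ n ∈ (Icc 1 N).filter (fun n => IsSquare n), (1 : ℝ) / n ≤ 2 := by
  have h1 : ∑ n ∈ (Icc 1 N).filter (fun n => IsSquare n), (1 : ℝ) / n ≤
      ∑ m ∈ Icc 1 N, 1 / (m : ℝ) ^ 2 := by
    have e1 : ∑ n ∈ (Icc 1 N).filter (fun n => IsSquare n), (1 : ℝ) / n =
        ∑ m ∈ ((Icc 1 N).filter (fun n => IsSquare n)).image Nat.sqrt, 1 / (m : ℝ) ^ 2 := by
      rw [Finset.sum_image]
      · refine Finset.sum_congr rfl fun n hn => ?_
        rw [Finset.mem_filter] at hn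
        obtain ⟨_, t, ht⟩ := hn
        rw [ht, Nat.sqrt_eq]; push_cast; rw [sq]
      · intro x hx y hy hxy
        simp only [Finset.coe_filter, Set.mem_setOf_eq] at hx hy
        obtain ⟨_, t, ht⟩ := hx
        obtain ⟨_, u, hu⟩ := hy
        rw [ht, hu, Nat.sqrt_eq, Nat.sqrt_eq] at hxy
        rw [ht, hu, hxy]
    rw [e1]
    refine Finset.sum_le_sum_of_subset_of_nonneg ?_ fun _ _ _ => by positivity
    intro m hm
    rw [Finset.mem_image] at hm
    obtain ⟨n, hn, rfl⟩ := hm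
    rw [Finset.mem_filter, Finset.mem_Icc] at hn
    rw [Finset.mem_Icc]
    exact ⟨Nat.sqrt_pos.2 (by omega), (Nat.sqrt_le_self n).trans hn.1.2⟩
  refine h1.trans ?_
  have h := hasSum_zeta_two
  refine (h.summable.sum_le_tsum _ fun n _ => by positivity).trans ?_
  rw [h.tsum_eq]
  have h1 : Real.pi < 3.15 := Real.pi_lt_d2
  have h2 : 0 < Real.pi := Real.pi_pos
  nlinarith

/-- the main part -/
theorem P_bd {C : ℝ} (hC : 1 ≤ C) (hpv : PVC C) {ε : ℤ} (hε : ε = 1 ∨ ε = -1) {s : ℝ} (hs : 1 < s)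
    (N : ℕ) (hN : 1 ≤ N) :
    ∑' a : ℕ, wA ε s a * ∑ n ∈ Icc 1 N, jr (ε * a) n * (n : ℝ) ^ (-s) ≤
      2 * √(1 + 1 / (s - 1)) + (1 + Real.log N) * (3 * C + Real.log N + 1) := by
  have hlogN : 0 ≤ Real.log N := Real.log_nonneg (by exact_mod_cast hN)
  have e1 : ∑' a : ℕ, wA ε s a * ∑ n ∈ Icc 1 N, jr (ε * a) n * (n : ℝ) ^ (-s) =
      ∑ n ∈ Icc 1 N, (n : ℝ) ^ (-s) * ∑' a : ℕ, wA ε s a * jr (ε * a) n := by
    have h1 : ∀ n ∈ Icc 1 N, Summable fun a : ℕ => (n : ℝ) ^ (-s) * (wA ε s a * jr (ε * a) n) :=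
      fun n _ => (summable_wA ε hs (B := 1) fun a => (CM_jr _).le n).mul_left _
    rw [Finset.sum_congr rfl fun n _ => (tsum_mul_left (a := (n : ℝ) ^ (-s))
      (f := fun a : ℕ => wA ε s a * jr (ε * a) n)).symm, ← Summable.tsum_finsetSum h1]
    refine tsum_congr fun a => ?_
    rw [Finset.mul_sum]
    refine Finset.sum_congr rfl fun n _ => ?_
    ring
  rw [e1]
  have h2 : ∀ n ∈ Icc 1 N, (n : ℝ) ^ (-s) * ∑' a : ℕ, wA ε s a * jr (ε * a) n ≤
      (if IsSquare n then √(1 + 1 / (s - 1)) * (1 / (n : ℝ)) else 0) +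
        (3 * C + Real.log N + 1) * (1 / (n : ℝ)) := by
    intro n hn
    rw [Finset.mem_Icc] at hn
    have hn1 : (1 : ℝ) ≤ n := by exact_mod_cast hn.1
    have h3 := B_bd hC hpv hε hs n hn.1
    have h4 : Real.log n ≤ Real.log N := Real.log_le_log (by linarith) (by exact_mod_cast hn.2)
    have h5 : 0 ≤ Real.log n := Real.log_nonneg hn1
    have h6 : √(3 * C + Real.log n) ≤ 3 * C + Real.log N := by
      rw [Real.sqrt_le_iff]
      constructor
      · linarith
      · nlinarith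
    calc (n : ℝ) ^ (-s) * ∑' a : ℕ, wA ε s a * jr (ε * a) n
        ≤ (n : ℝ) ^ (-s) * ((if IsSquare n then √(1 + 1 / (s - 1)) else 0) +
          (3 * C + Real.log N + 1)) := by
          refine mul_le_mul_of_nonneg_left ((le_abs_self _).trans (h3.trans ?_)) (by positivity)
          linarith
      _ ≤ (1 / n) * ((if IsSquare n then √(1 + 1 / (s - 1)) else 0) +
          (3 * C + Real.log N + 1)) := by
          refine mul_le_mul_of_nonneg_right (pow_le_inv hs hn.1) ?_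
          have : (0 : ℝ) ≤ (if IsSquare n then √(1 + 1 / (s - 1)) else 0) := by
            split_ifs <;> positivity
          linarith
      _ = _ := by split_ifs <;> ring
  refine (Finset.sum_le_sum h2).trans ?_
  rw [Finset.sum_add_distrib, ← Finset.sum_filter, ← Finset.mul_sum, ← Finset.mul_sum]
  refine add_le_add ?_ ?_
  · rw [mul_comm]
    exact mul_le_mul_of_nonneg_right (sq_sum_le N) (Real.sqrt_nonneg _)
  · rw [mul_comm]
    exact mul_le_mul_of_nonneg_right (harm_le hN) (by linarith)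

/-- the first moment -/
theorem T_bd : ∃ C : ℝ, 0 < C ∧ ∀ ε : ℤ, (ε = 1 ∨ ε = -1) → ∀ s : ℝ, 1 < s → s ≤ 2 →
    ∑' a : ℕ, wA ε s a * LS (jr (ε * a)) s ≤ C * √(1 / (s - 1)) := by
  obtain ⟨C, hC, hpv⟩ := pv
  obtain ⟨C1, hC1, hdiag⟩ := diag_bd
  set K : ℝ := √(C1 + 24 * C) + 4 * C with hK
  have hK0 : 0 ≤ K := by
    have := Real.sqrt_nonneg (C1 + 24 * C)
    linarith
  refine ⟨4 + 400 * (3 * C + 17) + 2 * K, by linarith, fun ε hε s hs hs2 => ?_⟩
  set σ : ℝ := s - 1 with hσ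
  have hσ0 : 0 < σ := by linarith
  have hσ1 : σ ≤ 1 := by linarith
  have hinv : 1 ≤ 1 / σ := by rw [le_div_iff₀ hσ0]; linarith
  -- the choice of `n0`
  set x : ℝ := Real.log (1 / σ) with hx
  have hx0 : 0 ≤ x := Real.log_nonneg hinv
  set n0 : ℕ := ⌈20 * x⌉₊ with hn0
  have hn1 : 20 * x ≤ n0 := Nat.le_ceil _
  have hn2 : (n0 : ℝ) ≤ 20 * x + 1 := (Nat.ceil_lt_add_one (by linarith)).le
  have h1 : (2 : ℝ) ^ (-(n0 : ℝ) / 10) ≤ σ := by
    have h2 : σ = exp (-x) := by
      rw [hx, Real.exp_neg, Real.exp_log (by positivity), one_div, inv_inv]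
    rw [h2, Real.rpow_def_of_pos (by norm_num)]
    apply Real.exp_le_exp.2
    have := Real.log_two_gt_d9
    nlinarith
  have hR := R_bd hK0 (ε := ε) hs hs2 n0 (fun j => block hC hpv hC1 hdiag hε hs j n0)
  have hP := P_bd hC hpv hε hs (2 ^ n0) Nat.one_le_two_pow
  -- decomposition
  have hsumP : Summable fun a : ℕ => wA ε s a * ∑ n ∈ Icc 1 (2 ^ n0), jr (ε * a) n * (n : ℝ) ^ (-s) := by
    refine summable_wA ε hs (B := ∑ n ∈ Icc 1 (2 ^ n0), (1 : ℝ)) fun a => ?_
    refine (Finset.abs_sum_le_sum_abs _ _).trans (Finset.sum_le_sum fun n hn => ?_)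
    rw [Finset.mem_Icc] at hn
    have := (CM_jr (ε * a)).norm_le s n
    rw [Real.norm_eq_abs] at this
    refine this.trans (Real.rpow_le_one_of_one_le_of_nonpos (by exact_mod_cast hn.1) (by linarith))
  have hsumL : Summable fun a : ℕ => wA ε s a * LS (jr (ε * a)) s :=
    summable_wA ε hs fun a => LS_jr_abs _ hs
  have hsumR : Summable fun a : ℕ => wA ε s a * Rt ε s n0 a := by
    have := hsumL.sub hsumP
    refine this.congr fun a => ?_
    rw [Rt]; ring
  have hsumR' : Summable fun a : ℕ => wA ε s a * |Rt ε s n0 a| := by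
    refine hsumR.abs.congr fun a => ?_
    rw [abs_mul, abs_of_nonneg (wA_nonneg _ _ _)]
  have e1 : ∑' a : ℕ, wA ε s a * LS (jr (ε * a)) s =
      ∑' a : ℕ, wA ε s a * ∑ n ∈ Icc 1 (2 ^ n0), jr (ε * a) n * (n : ℝ) ^ (-s) +
        ∑' a : ℕ, wA ε s a * Rt ε s n0 a := by
    rw [← hsumP.tsum_add hsumR]
    refine tsum_congr fun a => ?_
    rw [Rt]; ring
  have h3 : ∑' a : ℕ, wA ε s a * Rt ε s n0 a ≤ ∑' a : ℕ, wA ε s a * |Rt ε s n0 a| :=
    hsumR.tsum_le_tsum (fun a => mul_le_mul_of_nonneg_left (le_abs_self _) (wA_nonneg _ _ _)) hsumR'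
  have h4 : K * (2 : ℝ) ^ (-(n0 : ℝ) / 10) * (2 / σ) ≤ 2 * K := by
    calc K * (2 : ℝ) ^ (-(n0 : ℝ) / 10) * (2 / σ) ≤ K * σ * (2 / σ) :=
          mul_le_mul_of_nonneg_right (mul_le_mul_of_nonneg_left h1 hK0) (by positivity)
      _ = 2 * K := by field_simp
  -- sizes
  have hsq1 : 1 ≤ √(1 / σ) := by
    rw [Real.one_le_sqrt]; exact hinv
  have h5 : √(1 + 1 / σ) ≤ 2 * √(1 / σ) := by
    rw [Real.sqrt_le_iff]
    constructor
    · positivity
    · rw [mul_pow, Real.sq_sqrt (by positivity)]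
      linarith
  have h6 : Real.log ((2 ^ n0 : ℕ) : ℝ) ≤ 20 * x + 1 := by
    push_cast
    rw [Real.log_pow]
    have h7 : Real.log 2 ≤ 1 := by
      have := Real.log_two_lt_d9
      linarith
    have h8 : 0 ≤ Real.log 2 := Real.log_nonneg (by norm_num)
    nlinarith [Nat.cast_nonneg (α := ℝ) n0]
  have h7 : 0 ≤ Real.log ((2 ^ n0 : ℕ) : ℝ) := Real.log_nonneg (by exact_mod_cast Nat.one_le_two_pow)
  -- `(1 + x)^2` against the square root
  set y : ℝ := (1 / σ) ^ (1 / 4 : ℝ) with hy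
  have hy1 : 1 ≤ y := Real.one_le_rpow hinv (by norm_num)
  have hy2 : y ^ 2 = √(1 / σ) := by
    rw [hy, ← Real.rpow_natCast, ← Real.rpow_mul (by positivity), Real.sqrt_eq_rpow]
    norm_num
  have hxy : x ≤ 4 * y := by
    have := Real.log_le_rpow_div (x := 1 / σ) (by positivity) (ε := 1 / 4) (by norm_num)
    rw [← hx, ← hy] at this
    linarith
  have h8 : (1 + Real.log ((2 ^ n0 : ℕ) : ℝ)) * (3 * C + Real.log ((2 ^ n0 : ℕ) : ℝ) + 1) ≤
      400 * (3 * C + 17) * √(1 / σ) := by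
    rw [← hy2]
    have h9 : 1 + Real.log ((2 ^ n0 : ℕ) : ℝ) ≤ 82 * y := by linarith
    have h10 : 3 * C + Real.log ((2 ^ n0 : ℕ) : ℝ) + 1 ≤ (3 * C + 82) * y := by nlinarith
    calc _ ≤ (82 * y) * ((3 * C + 82) * y) := mul_le_mul h9 h10 (by linarith) (by linarith)
      _ = 82 * (3 * C + 82) * y ^ 2 := by ring
      _ ≤ 400 * (3 * C + 17) * y ^ 2 := by
          refine mul_le_mul_of_nonneg_right ?_ (by positivity)
          nlinarith
  rw [e1]
  have h9 : 2 * K ≤ 2 * K * √(1 / σ) := by nlinarith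
  calc _ ≤ (2 * √(1 + 1 / (s - 1)) + (1 + Real.log ((2 ^ n0 : ℕ) : ℝ)) *
        (3 * C + Real.log ((2 ^ n0 : ℕ) : ℝ) + 1)) + 2 * K := by
        refine add_le_add hP (h3.trans (hR.trans h4))
    _ ≤ _ := by
        rw [← hσ]
        nlinarith

end Vale.Agent.P017.H262
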