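import Vale.Agent.P017.H262.Chi
import Vale.Agent.P017.H262.Eul

/-! Tails of `L`-series. -/

set_option linter.all false

namespace Vale.Agent.P017.H262

open Finset Real Filter Topology

theorem abel_eq (c v : ℕ → ℝ) (M K : ℕ) (hMK : M ≤ K) :
    ∑ k ∈ Ioc M K, c k * v k = (∑ k ∈ Icc 1 K, c k) * v (K + 1) - (∑ k ∈ Icc 1 M, c k) * v (M + 1) +
      ∑ k ∈ Ioc M K, (∑ i ∈ Icc 1 k, c i) * (v k - v (k + 1)) := by
  induction K, hMK using Nat.le_induction with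
  | base => simp
  | succ K hK ih =>
    rw [Finset.sum_Ioc_succ_top (by omega), Finset.sum_Ioc_succ_top (by omega), ih,
      Finset.sum_Icc_succ_top (by omega)]
    ring

theorem abel_bd {c v : ℕ → ℝ} {Q : ℝ} (hQ : ∀ N, |∑ k ∈ Icc 1 N, c k| ≤ Q)
    (hv : ∀ k, 1 ≤ k → v (k + 1) ≤ v k) (hv0 : ∀ k, 0 ≤ v k) {M K : ℕ} (hMK : M ≤ K) :
    |∑ k ∈ Ioc M K, c k * v k| ≤ 2 * Q * v (M + 1) := by
  rw [abel_eq c v M K hMK]
  have h1 : |∑ k ∈ Ioc M K, (∑ i ∈ Icc 1 k, c i) * (v k - v (k + 1))| ≤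
      Q * (v (M + 1) - v (K + 1)) := by
    refine (Finset.abs_sum_le_sum_abs _ _).trans ?_
    have h2 : ∀ K, M ≤ K → ∑ k ∈ Ioc M K, (v k - v (k + 1)) = v (M + 1) - v (K + 1) := by
      intro K hK
      induction K, hK using Nat.le_induction with
      | base => simp
      | succ K hK ih => rw [Finset.sum_Ioc_succ_top (by omega), ih]; ring
    rw [← h2 K hMK, Finset.mul_sum]
    refine Finset.sum_le_sum fun k hk => ?_
    rw [Finset.mem_Ioc] at hk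
    have h3 : 0 ≤ v k - v (k + 1) := by linarith [hv k (by omega)]
    rw [abs_mul, abs_of_nonneg h3]
    exact mul_le_mul_of_nonneg_right (hQ k) h3
  have h2 : |(∑ k ∈ Icc 1 K, c k) * v (K + 1)| ≤ Q * v (K + 1) := by
    rw [abs_mul, abs_of_nonneg (hv0 _)]
    exact mul_le_mul_of_nonneg_right (hQ K) (hv0 _)
  have h3 : |(∑ k ∈ Icc 1 M, c k) * v (M + 1)| ≤ Q * v (M + 1) := by
    rw [abs_mul, abs_of_nonneg (hv0 _)]
    exact mul_le_mul_of_nonneg_right (hQ M) (hv0 _)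
  rw [abs_le] at h1 h2 h3 ⊢
  constructor <;> nlinarith [h1.1, h1.2, h2.1, h2.2, h3.1, h3.2]

theorem rpow_anti {s : ℝ} (hs : 1 < s) (k : ℕ) (hk : 1 ≤ k) :
    ((k + 1 : ℕ) : ℝ) ^ (-s) ≤ (k : ℝ) ^ (-s) := by
  refine Real.rpow_le_rpow_of_nonpos (by exact_mod_cast hk) (by push_cast; linarith) (by linarith)

theorem tail_fin {c : ℕ → ℝ} {Q s : ℝ} (hs : 1 < s) (hQ : ∀ N, |∑ k ∈ Icc 1 N, c k| ≤ Q)
    {M K : ℕ} (hM : 1 ≤ M) (hMK : M ≤ K) :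
    |∑ k ∈ Ioc M K, c k * (k : ℝ) ^ (-s)| ≤ 2 * Q / M := by
  have h := abel_bd (v := fun k => (k : ℝ) ^ (-s)) hQ (fun k hk => rpow_anti hs k hk)
    (fun k => by positivity) hMK
  refine h.trans ?_
  have hQ0 : 0 ≤ Q := (abs_nonneg _).trans (hQ 0)
  have hM' : (1 : ℝ) ≤ M := by exact_mod_cast hM
  have h1 : ((M + 1 : ℕ) : ℝ) ^ (-s) ≤ 1 / M := by
    calc ((M + 1 : ℕ) : ℝ) ^ (-s) ≤ ((M + 1 : ℕ) : ℝ) ^ (-1 : ℝ) :=
          Real.rpow_le_rpow_of_exponent_le (by push_cast; linarith) (by linarith)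
      _ = 1 / ((M : ℝ) + 1) := by rw [Real.rpow_neg_one]; push_cast; rw [one_div]
      _ ≤ 1 / M := one_div_le_one_div_of_le (by linarith) (by linarith)
  calc 2 * Q * ((M + 1 : ℕ) : ℝ) ^ (-s) ≤ 2 * Q * (1 / M) :=
        mul_le_mul_of_nonneg_left h1 (by linarith)
    _ = 2 * Q / M := by ring

theorem tail_bd {c : ℕ → ℝ} {Q s : ℝ} (hs : 1 < s) (hQ : ∀ N, |∑ k ∈ Icc 1 N, c k| ≤ Q)
    (hsum : Summable fun n : ℕ => c n * (n : ℝ) ^ (-s)) (h0 : c 0 = 0)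
    {M : ℕ} (hM : 1 ≤ M) :
    |∑' n : ℕ, c n * (n : ℝ) ^ (-s) - ∑ k ∈ Icc 1 M, c k * (k : ℝ) ^ (-s)| ≤ 2 * Q / M := by
  have h1 : Tendsto (fun K : ℕ => |∑ n ∈ Finset.range (K + 1), c n * (n : ℝ) ^ (-s) -
      ∑ k ∈ Icc 1 M, c k * (k : ℝ) ^ (-s)|) atTop
      (𝓝 |∑' n : ℕ, c n * (n : ℝ) ^ (-s) - ∑ k ∈ Icc 1 M, c k * (k : ℝ) ^ (-s)|) :=
    (continuous_abs.tendsto _).comp
      ((hsum.hasSum.tendsto_sum_nat.comp (tendsto_add_atTop_nat 1)).sub_const _)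
  refine le_of_tendsto h1 ?_
  filter_upwards [eventually_ge_atTop M] with K hK
  have e1 : ∑ n ∈ Finset.range (K + 1), c n * (n : ℝ) ^ (-s) =
      ∑ k ∈ Icc 1 M, c k * (k : ℝ) ^ (-s) + ∑ k ∈ Ioc M K, c k * (k : ℝ) ^ (-s) := by
    rw [Finset.range_eq_Ico, Finset.sum_eq_sum_Ico_succ_bot (by omega), h0, zero_mul, zero_add]
    rw [← Finset.sum_union]
    · refine Finset.sum_congr ?_ fun _ _ => rfl
      ext k
      simp only [Finset.mem_Ico, Finset.mem_union, Finset.mem_Icc, Finset.mem_Ioc]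
      omega
    · rw [Finset.disjoint_left]
      intro k hk
      simp only [Finset.mem_Icc, Finset.mem_Ioc] at hk ⊢
      omega
  rw [e1, add_sub_cancel_left]
  exact tail_fin hs hQ hM hK

/-- the character as a real function -/
noncomputable def jr (D : ℤ) (n : ℕ) : ℝ := (jf D n : ℝ)

theorem CM_jr (D : ℤ) : CM (jr D) where
  zero := by simp [jr, jf_zero]
  one := by simp [jr, jf_one]
  mul a b := by simp [jr, jf_mul]
  le a := abs_jf_le D a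

theorem harm_le {N : ℕ} (hN : 1 ≤ N) : ∑ n ∈ Icc 1 N, (1 : ℝ) / n ≤ 1 + Real.log N := by
  have e1 := harmonic_le_one_add_log N
  rw [harmonic_eq_sum_Icc] at e1
  push_cast at e1
  simpa only [one_div] using e1

theorem pow_le_inv {s : ℝ} (hs : 1 < s) {n : ℕ} (hn : 1 ≤ n) : (n : ℝ) ^ (-s) ≤ 1 / n := by
  have hn' : (1 : ℝ) ≤ n := by exact_mod_cast hn
  calc (n : ℝ) ^ (-s) ≤ (n : ℝ) ^ (-1 : ℝ) := Real.rpow_le_rpow_of_exponent_le hn' (by linarith)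
    _ = 1 / n := by rw [Real.rpow_neg_one, one_div]

theorem LS_jr_le {C : ℝ} (hC : 1 ≤ C) (hpv : ∀ D : ℤ, Odd D → ¬ IsSquare D → ∀ N : ℕ,
    |∑ n ∈ Icc 1 N, (jf D n : ℝ)| ≤ C * (D.natAbs : ℝ) ^ (3 / 5 : ℝ)) {D : ℤ} (hodd : Odd D)
    (hD : ¬ IsSquare D) {s : ℝ} (hs : 1 < s) : LS (jr D) s ≤ 3 * C + Real.log D.natAbs := by
  have hD0 : D ≠ 0 := by rintro rfl; simp at hodd
  have hk0 : 1 ≤ D.natAbs := by
    have := Int.natAbs_ne_zero.2 hD0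
    omega
  have hk1 : (1 : ℝ) ≤ D.natAbs := by exact_mod_cast hk0
  have h1 := tail_bd (c := jr D) hs (hpv D hodd hD) ((CM_jr D).summable hs) (CM_jr D).zero hk0
  have h2 : ∑ k ∈ Icc 1 D.natAbs, jr D k * (k : ℝ) ^ (-s) ≤ 1 + Real.log D.natAbs := by
    refine le_trans (Finset.sum_le_sum fun k hk => ?_) (harm_le hk0)
    rw [Finset.mem_Icc] at hk
    calc jr D k * (k : ℝ) ^ (-s) ≤ 1 * (k : ℝ) ^ (-s) :=
          mul_le_mul_of_nonneg_right ((le_abs_self _).trans ((CM_jr D).le k)) (by positivity)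
      _ ≤ 1 / k := by rw [one_mul]; exact pow_le_inv hs hk.1
  have h3 : 2 * (C * (D.natAbs : ℝ) ^ (3 / 5 : ℝ)) / D.natAbs ≤ 2 * C := by
    rw [div_le_iff₀ (by linarith)]
    have : (D.natAbs : ℝ) ^ (3 / 5 : ℝ) ≤ (D.natAbs : ℝ) ^ (1 : ℝ) :=
      Real.rpow_le_rpow_of_exponent_le hk1 (by norm_num)
    rw [Real.rpow_one] at this
    nlinarith
  have h4 := (abs_le.1 h1).2
  unfold LS
  linarith

end Vale.Agent.P017.H262
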